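import Vale.Agent.P219.C5.Field

/-! # The certificate in dimension 5, curvature `≤ -1`, all radii: conclusion -/

open Set MeasureTheory Metric
open scoped ContDiff

namespace Vale.Agent.P219.C5

open Vale.Agent.P219.TP Vale.Agent.P219.TPH

/-- The profile, extended by constants. -/
noncomputable def fE (T y : ℝ) : ℝ := ff T (max 0 (min y 1))

theorem fE_eq {T a : ℝ} (ha : a ∈ Icc (0 : ℝ) 1) : fE T a = ff T a := by
  rw [fE, min_eq_left ha.2, max_eq_right ha.1]

theorem clip_mem (y : ℝ) : max 0 (min y 1) ∈ Icc (0 : ℝ) 1 :=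
  ⟨le_max_left _ _, max_le zero_le_one (min_le_right _ _)⟩

theorem fE_cont {T : ℝ} (hT : 0 < T) (hT1 : T < 1) : Continuous (fE T) := by
  rw [continuous_iff_continuousAt]
  intro y
  have h := Dom.of_le_one (clip_mem y) hT hT1
  have h1 : ContinuousAt (ff T) (max 0 (min y 1)) :=
    (hasDerivAt_ff hT h.e_pos h.u_pos h.v_pos).continuousAt
  have h2 : ContinuousAt (fun y : ℝ => max 0 (min y 1)) y := by fun_prop
  exact ContinuousAt.comp (g := ff T) (f := fun y : ℝ => max 0 (min y 1)) h1 h2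

theorem c1_lt {T r a b : ℝ} (hT : 0 < T) (hT1 : T < 1) (hr : 0 < r) (ha : a ∈ Icc (0 : ℝ) 1)
    (hb : b ∈ Icc (0 : ℝ) 1) :
    4 / T / 2 * (phi T r b * a) < NN 1 (5 - 1) (phi T) (phir T) (phia T) (cl T) r a b := by
  have hD := xx_dom hT hT1 hr
  have hx := xx_pos hT hr
  have he := hD.e_pos
  have hv := hD.v_pos
  have h1 := c1_ineq hD ha hb (S_le ha hb)
  have h2 := KN_eq hT hT1 hr ha.1 hb.1
  rw [KN] at h2
  have h3 : NN 1 (5 - 1) (phi T) (phir T) (phia T) (cl T) r a b = KK (xx T r) T a b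
      (√((1 - a ^ 2) * (1 - b ^ 2))) /
      (256 * T ^ 4 * xx T r * (1 + xx T r) ^ 6 * (1 + T * xx T r) ^ 2) +
      4 / T / 2 * (phi T r a * b + phi T r b * a) := by
    rw [← h2]; ring
  rw [h3, ← sub_pos]
  have h4 : KK (xx T r) T a b (√((1 - a ^ 2) * (1 - b ^ 2))) /
      (256 * T ^ 4 * xx T r * (1 + xx T r) ^ 6 * (1 + T * xx T r) ^ 2) +
      4 / T / 2 * (phi T r a * b + phi T r b * a) - 4 / T / 2 * (phi T r b * a) =
      (KK (xx T r) T a b (√((1 - a ^ 2) * (1 - b ^ 2))) + 4 * xx T r * (1 + xx T r) *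
        ((e2 (xx T r) T dA - a ^ 2 * e2 (xx T r) T dB) * b)) /
      (256 * T ^ 4 * xx T r * (1 + xx T r) ^ 6 * (1 + T * xx T r) ^ 2) := by
    rw [phi_eq, phi_eq]
    generalize KK (xx T r) T a b (√((1 - a ^ 2) * (1 - b ^ 2))) = Z
    generalize e2 (xx T r) T dA = Z3 at *
    generalize e2 (xx T r) T dB = Z4 at *
    generalize xx T r = x at *
    field_simp
    ring
  rw [h4]
  exact div_pos h1 (by positivity)

theorem c7_lt {T r a b : ℝ} (hT : 0 < T) (hT1 : T < 1) (hr : 0 < r) (ha : a ∈ Icc (0 : ℝ) 1)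
    (hb : b ∈ Icc (0 : ℝ) 1) :
    0 < KN 1 (5 - 1) (phi T) (phir T) (phia T) (cl T) (4 / T) r a b +
      a * b * √(phi T r a * phi T r b) / sn 1 r := by
  have hD := xx_dom hT hT1 hr
  have hx := xx_pos hT hr
  have he := hD.e_pos
  have hu := hD.u_pos
  have hv := hD.v_pos
  have h1 := c7_ineq hD ha hb (S_le ha hb)
  have h2 := sqrt_ineq (B_nonneg hD) (U1_nonneg hD) ha hb
  have hab := mul_nonneg ha.1 hb.1
  have h3 : √(phi T r a * phi T r b) = √((e2 (xx T r) T dA - a ^ 2 * e2 (xx T r) T dB) *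
      (e2 (xx T r) T dA - b ^ 2 * e2 (xx T r) T dB)) /
      (128 * T ^ 3 * (1 + xx T r) ^ 5 * (1 + T * xx T r) ^ 2) := by
    rw [phi_eq, phi_eq, div_mul_div_comm, Real.sqrt_div' _ (by positivity),
      Real.sqrt_mul_self (by positivity)]
  rw [show 5 - 1 = 4 from rfl, KN_eq hT hT1 hr ha.1 hb.1, h3, sn_one, xx_sinh hT]
  set W := √((e2 (xx T r) T dA - a ^ 2 * e2 (xx T r) T dB) *
      (e2 (xx T r) T dA - b ^ 2 * e2 (xx T r) T dB)) with hW
  have h5 : 0 < KK (xx T r) T a b (√((1 - a ^ 2) * (1 - b ^ 2))) +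
      a * b * ((1 - T * xx T r) * (1 + xx T r) * (1 + T * xx T r) * W) := by
    refine h1.trans_le (add_le_add_right ?_ _)
    exact mul_le_mul_of_nonneg_left (mul_le_mul_of_nonneg_left h2 (by positivity)) hab
  have h4 : KK (xx T r) T a b (√((1 - a ^ 2) * (1 - b ^ 2))) /
      (256 * T ^ 4 * xx T r * (1 + xx T r) ^ 6 * (1 + T * xx T r) ^ 2) +
      a * b * (W / (128 * T ^ 3 * (1 + xx T r) ^ 5 * (1 + T * xx T r) ^ 2)) /
        (2 * T * xx T r / ((1 - T * xx T r) * (1 + T * xx T r))) =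
      (KK (xx T r) T a b (√((1 - a ^ 2) * (1 - b ^ 2))) +
      a * b * ((1 - T * xx T r) * (1 + xx T r) * (1 + T * xx T r) * W)) /
      (256 * T ^ 4 * xx T r * (1 + xx T r) ^ 6 * (1 + T * xx T r) ^ 2) := by
    clear h1 hD h2 h3 h5
    generalize KK (xx T r) T a b (√((1 - a ^ 2) * (1 - b ^ 2))) = Z
    clear_value W
    clear hW
    generalize 1 - T * xx T r = u at *
    generalize 1 + T * xx T r = v at *
    generalize 1 + xx T r = e at *
    generalize xx T r = x at *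
    field_simp
    ring
  rw [h4]
  exact div_pos h5 (by positivity)

theorem c6_eq {T r a b : ℝ} (hT : 0 < T) (hT1 : T < 1) (hr : 0 < r) (ha : a ∈ Icc (0 : ℝ) 1)
    (hb : b ∈ Icc (0 : ℝ) 1) :
    KS T (K0 (xx T r) T a b) (xx T r) ≤
      KN 1 (5 - 1) (phi T) (phir T) (phia T) (cl T) (4 / T) r a b * sn 1 r ^ (5 - 1) := by
  have hD := xx_dom hT hT1 hr
  have hx := xx_pos hT hr
  have he := hD.e_pos
  have hu := hD.u_pos
  have hv := hD.v_pos
  have h2 := K0_le hD ha hb (S_le ha hb)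
  rw [show 5 - 1 = 4 from rfl, KN_eq hT hT1 hr ha.1 hb.1, sn_one, xx_sinh hT]
  have h4 : KK (xx T r) T a b (√((1 - a ^ 2) * (1 - b ^ 2))) /
      (256 * T ^ 4 * xx T r * (1 + xx T r) ^ 6 * (1 + T * xx T r) ^ 2) *
      (2 * T * xx T r / ((1 - T * xx T r) * (1 + T * xx T r))) ^ 4 =
      KS T (KK (xx T r) T a b (√((1 - a ^ 2) * (1 - b ^ 2)))) (xx T r) := by
    unfold KS
    clear hD h2
    generalize KK (xx T r) T a b (√((1 - a ^ 2) * (1 - b ^ 2))) = Z
    generalize 1 - T * xx T r = u at *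
    generalize 1 + T * xx T r = v at *
    generalize 1 + xx T r = e at *
    generalize xx T r = x at *
    field_simp
    ring
  rw [h4]
  unfold KS
  have h5 : 0 < xx T r ^ 3 := by positivity
  exact div_le_div_of_nonneg_right (mul_le_mul_of_nonneg_left h2 h5.le) (by positivity)

theorem nice5 {T : ℝ} (hT : 0 < T) (hT1 : T < 1) :
    Nice 5 1 (phi T) (phir T) (phia T) (cl T) (4 / T) (cs5 T) (fE T) where
  smooth := contDiffOn_phi hT hT1
  deriv_r r a hr := hasDerivAt_phi_r hT hT1 hr a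
  deriv_a r a _ := hasDerivAt_phi_a T r a
  even r a _ := by rw [phi, phi, neg_sq]
  nonneg r a hr ha0 ha1 := by
    have hD := xx_dom hT hT1 hr
    rw [phi_eq]
    have h1 := Q_nonneg hD ⟨ha0, ha1⟩
    have := hD.e_pos
    have := hD.v_pos
    positivity
  c1 r a b hr ha0 ha1 hb0 hb1 := (c1_lt hT hT1 hr ⟨ha0, ha1⟩ ⟨hb0, hb1⟩).le
  c3 r a hr ha0 ha1 := by
    have hD := xx_dom hT hT1 hr
    have hx := xx_pos hT hr
    have he := hD.e_pos
    have hu := hD.u_pos
    have hv := hD.v_pos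
    have h1 := c3_ineq hD ⟨ha0, ha1⟩
    rw [sn_one, cs_one, xx_sinh hT, xx_cosh hT, phi_eq, phir]
    have h4 : (e2 (xx T r) T dDA - a ^ 2 * e2 (xx T r) T dDB) /
        (256 * T ^ 4 * xx T r * (1 + xx T r) ^ 6 * (1 + T * xx T r) ^ 2) +
        (((5 : ℕ) : ℝ) - 1) * ((1 + T ^ 2 * xx T r ^ 2) / ((1 - T * xx T r) * (1 + T * xx T r)) /
          (2 * T * xx T r / ((1 - T * xx T r) * (1 + T * xx T r)))) *
          ((e2 (xx T r) T dA - a ^ 2 * e2 (xx T r) T dB) /
    (128 * T ^ 3 * (1 + xx T r) ^ 5 * (1 + T * xx T r) ^ 2)) =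
      ((e2 (xx T r) T dDA - a ^ 2 * e2 (xx T r) T dDB) +
      4 * ((1 + xx T r) * (1 + T ^ 2 * xx T r ^ 2) * (e2 (xx T r) T dA - a ^ 2 * e2 (xx T r) T dB))) /
        (256 * T ^ 4 * xx T r * (1 + xx T r) ^ 6 * (1 + T * xx T r) ^ 2) := by
      clear h1 hD
      generalize e2 (xx T r) T dDA = Z1
      generalize e2 (xx T r) T dDB = Z2
      generalize e2 (xx T r) T dA = Z3 at *
      generalize e2 (xx T r) T dB = Z4 at *
      generalize 1 - T * xx T r = u at *
      generalize 1 + T * xx T r = v at *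
      generalize 1 + xx T r = e at *
      generalize xx T r = x at *
      push_cast
      field_simp
      ring
    rw [h4]
    exact div_nonneg h1 (by positivity)
  c7 r a b hr ha0 ha1 hb0 hb1 := (c7_lt hT hT1 hr ⟨ha0, ha1⟩ ⟨hb0, hb1⟩).le
  c6 r a b hr ha0 ha1 hb0 hb1 := by
    have h1 := PI_all (xx_dom hT hT1 hr) ⟨ha0, ha1⟩ ⟨hb0, hb1⟩
    rw [xx_log hT] at h1
    rw [fE_eq ⟨ha0, ha1⟩, fE_eq ⟨hb0, hb1⟩]
    exact h1.trans (c6_eq hT hT1 hr ⟨ha0, ha1⟩ ⟨hb0, hb1⟩)

theorem H0_five (R : ℝ) : H0 5 1 R = 4 / Real.tanh R := by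
  rw [H0, sn_one, cs_one, Real.tanh_eq_sinh_div_cosh, div_div_eq_mul_div]
  norm_num

theorem int_fE {T : ℝ} (hT : 0 < T) (hT1 : T < 1) :
    ∫ t in (0 : ℝ)..1, fE T t * t * (1 - t ^ 2) =
      cs5 T * (∫ t in (0 : ℝ)..1, Real.log ((1 + T * t) / (1 - T * t)) * t * (1 - t ^ 2)) - 750
          := by
  rw [← GG_int hT hT1, ← intervalIntegral.integral_const_mul, ← intervalIntegral.integral_sub]
  · refine intervalIntegral.integral_congr fun t ht => ?_
    rw [uIcc_of_le zero_le_one] at ht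
    rw [fE_eq ht, ff, LL]
    ring
  · refine ContinuousOn.intervalIntegrable fun t ht => ?_
    rw [uIcc_of_le zero_le_one] at ht
    have h := Dom.of_le_one ht hT hT1
    have h1 : ContinuousAt (LL T) t := (hasDerivAt_LL h.u_pos h.v_pos).continuousAt
    have h2 : ContinuousAt (fun t : ℝ => 1 - t ^ 2) t := by fun_prop
    exact (continuousAt_const.mul ((h1.mul continuousAt_id).mul h2)).continuousWithinAt
  · refine ContinuousOn.intervalIntegrable fun t ht => ?_
    rw [uIcc_of_le zero_le_one] at ht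
    have h := Dom.of_le_one ht hT hT1
    have h1 : ContinuousAt (GG T) t :=
      ((hasDerivAt_fr (T := T) (mul2 pX dGn) 5 4 5 h.e_pos.ne' h.u_pos.ne'
        h.v_pos.ne').div_const 8).continuousAt
    have h2 : ContinuousAt (fun t : ℝ => 1 - t ^ 2) t := by fun_prop
    exact ((h1.mul continuousAt_id).mul h2).continuousWithinAt

theorem cl_AR {R : ℝ} (hR : 0 < R) : cl (Real.tanh R) * AR 5 1 R = 1500 * Real.pi ^ 2 := by
  have hs := Real.sinh_pos_iff.2 hR
  have hc := Real.cosh_pos R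
  have h1 := Real.cosh_sq_sub_sinh_sq R
  rw [AR, sn_one, bf_sig, cl, Real.tanh_eq_sinh_div_cosh]
  have h2 : 1 - (Real.sinh R / Real.cosh R) ^ 2 = 1 / Real.cosh R ^ 2 := by
    field_simp
    linarith
  rw [h2]
  norm_num
  field_simp
  norm_num

/-- The certificate for every radius. -/
noncomputable def certH5 {R : ℝ} (hR : 0 < R) : CertH 5 1 R where
  lam := cl (Real.tanh R)
  s := cs5 (Real.tanh R)
  F := 2 * Real.pi ^ 2 * ∫ t in (0 : ℝ)..1, fE (Real.tanh R) t * t * (1 - t ^ 2)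
  f := fE (Real.tanh R)
  lam_pos := by
    obtain ⟨h0, h1⟩ := bf_tanh hR
    have : 0 < 1 - Real.tanh R ^ 2 := by nlinarith
    unfold cl
    positivity
  s_nonneg := by
    obtain ⟨h0, h1⟩ := bf_tanh hR
    unfold cs5
    positivity
  f_cont := by
    obtain ⟨h0, h1⟩ := bf_tanh hR
    exact fE_cont h0 h1
  f_nonneg a ha := by
    obtain ⟨h0, h1⟩ := bf_tanh hR
    rw [fE_eq ha]
    exact ff_nonneg h0 h1 ha
  hF e he := by
    obtain ⟨h0, h1⟩ := bf_tanh hR
    exact (zonal_five (fE_cont h0 h1) he).le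
  balance := by
    obtain ⟨h0, h1⟩ := bf_tanh hR
    have hb := bal_five hR
    have hA := cl_AR hR
    rw [int_fE h0 h1]
    have e : cs5 (Real.tanh R) * sig 5 * VR 5 1 R = cs5 (Real.tanh R) * (sig 5 * VR 5 1 R) := by
      ring
    rw [e, ← hb, pow_two, ← mul_assoc, hA]
    apply le_of_eq
    ring
  approx := by
    obtain ⟨h0, h1⟩ := bf_tanh hR
    have h2 := nice5 h0 h1
    rw [← H0_five] at h2
    refine good_of_nice (by norm_num) zero_le_one ?_ ?_ ?_ (fun a ha => ?_) h2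
    · unfold cl; positivity
    · rw [H0_five]; positivity
    · unfold cs5; positivity
    · rw [fE_eq ha]; exact ff_nonneg h0 h1 ha

end Vale.Agent.P219.C5
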