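import Vale.Agent.P219.C5.Cert
import Vale.Agent.P219.TPHR.CertHR

/-! # The strict certificate in dimension 5, curvature `≤ -1`, all radii -/

open Set MeasureTheory Metric

namespace Vale.Agent.P219.C5

open Vale.Agent.P219.TP Vale.Agent.P219.TPH

theorem curve_of_eq {T R r a : ℝ} (hT : T = Real.tanh R) (hT0 : 0 < T) (h : a = xx T r) :
    sn 1 (r / 2) * cs 1 R = a * (cs 1 (r / 2) * sn 1 R) := by
  have h1 : T * a = Real.tanh (r / 2) := by rw [h, T_xx hT0]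
  rw [hT] at h1
  rw [Real.tanh_eq_sinh_div_cosh, Real.tanh_eq_sinh_div_cosh] at h1
  have hc := Real.cosh_pos R
  have hc' := Real.cosh_pos (r / 2)
  rw [sn_one, sn_one, cs_one, cs_one]
  field_simp at h1
  linarith

/-- The strict certificate for every radius. -/
noncomputable def certHR5 {R : ℝ} (hR : 0 < R) : CertHR 5 1 R where
  lam := cl (Real.tanh R)
  s := cs5 (Real.tanh R)
  F := 2 * Real.pi ^ 2 * ∫ t in (0 : ℝ)..1, fE (Real.tanh R) t * t * (1 - t ^ 2)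
  f := fE (Real.tanh R)
  φ := phi (Real.tanh R)
  φr := phir (Real.tanh R)
  φa := phia (Real.tanh R)
  lam_pos := (certH5 hR).lam_pos
  s_nonneg := (certH5 hR).s_nonneg
  f_cont := (certH5 hR).f_cont
  f_nonneg := (certH5 hR).f_nonneg
  hF := (certH5 hR).hF
  balance := (certH5 hR).balance
  nice := by
    obtain ⟨h0, h1⟩ := bf_tanh hR
    rw [H0_five]
    exact nice5 h0 h1
  c1s r a b hr ha0 ha1 hb0 hb1 := by
    obtain ⟨h0, h1⟩ := bf_tanh hR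
    rw [H0_five]
    exact c1_lt h0 h1 hr ⟨ha0, ha1⟩ ⟨hb0, hb1⟩
  c7s r a b hr ha0 ha1 hb0 hb1 := by
    obtain ⟨h0, h1⟩ := bf_tanh hR
    rw [H0_five]
    exact c7_lt h0 h1 hr ⟨ha0.le, ha1⟩ ⟨hb0.le, hb1⟩
  c6s r a b hr ha0 ha1 hb0 hb1 he := by
    obtain ⟨h0, h1⟩ := bf_tanh hR
    rw [H0_five, fE_eq ⟨ha0.le, ha1⟩, fE_eq ⟨hb0.le, hb1⟩] at he
    have h2 := c6_eq h0 h1 hr ⟨ha0.le, ha1⟩ ⟨hb0.le, hb1⟩
    rw [he] at h2
    have h3 := PI_all_eq (xx_dom h0 h1 hr) ⟨ha0.le, ha1⟩ ⟨hb0.le, hb1⟩ ha0 hb0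
      (by rw [xx_log h0]; exact h2)
    exact ⟨curve_of_eq rfl h0 h3.1, curve_of_eq rfl h0 h3.2⟩

end Vale.Agent.P219.C5
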