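import Vale.Agent.P219.C5.Ident

/-! # The certificate in dimension 5: nonnegativity of the polynomials -/

namespace Vale.Agent.P219.C5

/-- `(1 - x) + (1 - T)`. -/
def pm : P2 := [[.ofNat 2, .negSucc 0], [.negSucc 0]]

/-- `1 - T`. -/
def p1T : P2 := [[.ofNat 1, .negSucc 0]]

/-- `x - 1`. -/
def px1 : P2 := [[.negSucc 0], [.ofNat 1]]

/-- `x⁷ (1 - T x)²`. -/
def dM : P2 := mul2 (ppow pX 7) (ppow pu 2)

/-- Twice the form in (C1), minus `M`. -/
def dC1 (M : P2) : List (List P2) :=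
  [[add2 (smul2 (2 : ℤ) dk0) (smul2 (-1 : ℤ) M), [], dkA2, []],
   [smul2 (-8 : ℤ) dxeA, smul2 (-4 : ℤ) dkpA, smul2 (8 : ℤ) dxeB, smul2 (2 : ℤ) dkpA],
   [dkA2, [], smul2 (2 : ℤ) dkp2, []],
   [[], smul2 (2 : ℤ) dkpA, [], []]]

/-- Twice the form in (C7), minus `M`. -/
def dC7 (M : P2) : List (List P2) :=
  [[add2 (smul2 (2 : ℤ) dk0) (smul2 (-1 : ℤ) M), smul2 (-8 : ℤ) dxeA, dkA2, []],
   [smul2 (-8 : ℤ) dxeA, add2 (smul2 (-4 : ℤ) dkpA) (smul2 (2 : ℤ) duevA), smul2 (8 : ℤ) dxeB, []],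
   [dkA2, smul2 (8 : ℤ) dxeB, smul2 (2 : ℤ) dkp2, []],
   [[], [], [], smul2 (2 : ℤ) dkpA]]

/-- Degree elevation in `a`, `b`. -/
def pad6 (Q : List (List P2)) : List (List P2) :=
  kapp (kmap (fun q => kapp q [[], []]) Q) [[], []]

def dY1 : P2 := add2 dkp2 (smul2 (-2 : ℤ) dkpA)

def dYY : List (List P2) :=
  [[smul2 (4 : ℤ) dk0, smul2 (-16 : ℤ) dxeA, smul2 (2 : ℤ) dkA2, []],
   [smul2 (-16 : ℤ) dxeA, smul2 (4 : ℤ) dkA2, [], smul2 (-1 : ℤ) dY1],
   [smul2 (2 : ℤ) dkA2, [], smul2 (-2 : ℤ) dY1, []],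
   [[], smul2 (-1 : ℤ) dY1, [], []]]

def dgg : List P2 := [dg0, dg1, dg2]

def dKx : List (List P2) :=
  [[dX00, dX10, dX20, []], [dX10, dX11, dX21, dX31], [dX20, dX21, dX22, []], [[], dX31, [], []]]

/-- `dKx` at `a = b = 1`, minus `x⁹ (x - 1) (1 - T x)`. -/
def dK11 : P2 := add2 (add2 (add2 (add2 (add2 (add2 (add2 dX00 (smul2 (2 : ℤ) dX10)) (smul2 (2 :
    ℤ) dX20)) dX11) (smul2 (2 : ℤ) dX21)) (smul2 (2 : ℤ) dX31)) dX22) (smul2 (-1 : ℤ) (mul2 (mul2
    (ppow pX 9) px1) pu))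

/-- `8 e⁷u⁶v⁷ f''`, minus `x (1 - T)²`. -/
def dfs : P2 := add2 dfpp (smul2 (-1 : ℤ) (mul2 pX (ppow p1T 2)))

def dC30 : P2 := add2 dDA (smul2 (4 : ℤ) (mul2 (mul2 pe pE) dA))

def dC31 : P2 :=
  add2 dC30 (smul2 (-1 : ℤ) (add2 dDB (smul2 (4 : ℤ) (mul2 (mul2 pe pE) dB))))

def dU1 : P2 := add2 dA (smul2 (-1 : ℤ) dB)

theorem C1_I : t4 (chk2 18) (dC1 p1T) = true := by decide +kernel
theorem C1_II : t4 (chkT 18 0) (dC1 dM) = true := by decide +kernel
theorem C7_I : t4 (chk2 19) (pad6 (kmap (kmap (mul2 pm)) (dC7 (ppow p1T 3)))) = true := by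
  decide +kernel
theorem C7_II : t4 (chkT 18 0) (dC7 dM) = true := by decide +kernel
theorem YY_I : t4 (chk2 18) dYY = true := by decide +kernel
theorem gg_I : t3 (chk2 21) dgg = true := by decide +kernel
theorem Kx_II : t4 (chkT 21 0) dKx = true := by decide +kernel
theorem K11_II : t2 (chkT 21 0) dK11 = true := by decide +kernel
theorem C30_I : t2 (chk2 18) dC30 = true := by decide +kernel
theorem C31_I : t2 (chk2 18) dC31 = true := by decide +kernel
theorem C30_II : t2 (chkT 18 0) dC30 = true := by decide +kernel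
theorem C31_II : t2 (chkT 18 0) dC31 = true := by decide +kernel
theorem U1_I : t2 (chk2 16) dU1 = true := by decide +kernel
theorem U1_II : t2 (chkT 16 0) dU1 = true := by decide +kernel
theorem B_I0 : box 16 0 1 0 8 dB = true := by decide +kernel
theorem B_I1 : box 16 0 1 1 8 dB = true := by decide +kernel
theorem B_I2 : box 16 0 1 1 4 dB = true := by decide +kernel
theorem B_I3 : box 16 0 1 1 2 dB = true := by decide +kernel
theorem fpp_I0 : box 21 0 1 0 8 dfs = true := by decide +kernel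
theorem fpp_I1 : box 21 0 1 1 8 dfs = true := by decide +kernel
theorem fpp_I2 : box 21 0 1 1 4 dfs = true := by decide +kernel
theorem fpp_I3 : box 21 0 1 1 2 dfs = true := by decide +kernel
theorem B_len : kall (fun r => Nat.ble (klen r) 16) dB = true := by decide +kernel
theorem B_II0 : box 30 0 2 0 2 (tZ 16 dB) = true := by decide +kernel
theorem B_II1 : box 30 0 2 1 2 (tZ 16 dB) = true := by decide +kernel
theorem B_II2 : box 30 2 4 0 4 (tZ 16 dB) = true := by decide +kernel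
theorem B_II3 : box 30 2 4 1 4 (tZ 16 dB) = true := by decide +kernel
theorem B_II4 : box 30 1 2 1 2 (tZ 16 dB) = true := by decide +kernel
theorem B_II5 : box 30 3 4 0 4 (tZ 16 dB) = true := by decide +kernel
theorem B_II6 : box 30 3 4 1 4 (tZ 16 dB) = true := by decide +kernel

end Vale.Agent.P219.C5
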