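import Vale.Agent.P219.C5.Poly

/-! # The certificate in dimension 5: polynomials in `x`, `T` (generated) -/

namespace Vale.Agent.P219.C5

def dW : P2 :=
  [[.ofNat 16540, .ofNat 0, .ofNat 700, .ofNat 0, .ofNat 1050],
    [.ofNat 48160, .ofNat 16540, .ofNat 38800, .ofNat 700, .negSucc 13799, .ofNat 1050],
    [.ofNat 44256, .ofNat 112399, .negSucc 502671, .ofNat 1825949, .negSucc 1979847, .ofNat
      26450, .ofNat 1141245, .negSucc 514394, .negSucc 2834],
    [.ofNat 13344, .ofNat 7548, .ofNat 453323, .negSucc 1507203, .ofNat 3224769, .negSucc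
      3091711, .negSucc 5469, .ofNat 1670685, .negSucc 724994, .negSucc 6614],
    [.ofNat 0, .negSucc 50894, .ofNat 595794, .negSucc 1419432, .ofNat 941034, .ofNat 43482,
      .ofNat 16775, .negSucc 164449, .negSucc 513944, .ofNat 384390],
    [.ofNat 0, .ofNat 0, .negSucc 35738, .ofNat 654222, .negSucc 2983538, .ofNat 5290842,
      .negSucc 5565999, .ofNat 3035935, .ofNat 878220, .negSucc 2547734, .ofNat 1089000, .ofNat
      9450],
    [.ofNat 0, .ofNat 0, .ofNat 0, .ofNat 41520, .negSucc 449399, .ofNat 578775, .ofNat 1421780,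
      .negSucc 4054179, .ofNat 2581580, .ofNat 826100, .negSucc 1258874, .ofNat 267525, .ofNat
      4725],
    [.ofNat 0, .ofNat 0, .ofNat 0, .ofNat 0, .ofNat 78030, .negSucc 995783, .ofNat 3590429,
      .negSucc 4624671, .ofNat 1650574, .ofNat 868102, .negSucc 840949, .ofNat 642495, .negSucc
      347894, .negSucc 2834],
    [.ofNat 0, .ofNat 0, .ofNat 0, .ofNat 0, .ofNat 0, .ofNat 14229, .negSucc 202301, .ofNat
      1209113, .negSucc 2597113, .ofNat 2426574, .negSucc 445956, .negSucc 930769, .ofNat 700635,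
      .negSucc 155519, .negSucc 1889],
    [.ofNat 0, .ofNat 0, .ofNat 0, .ofNat 0, .ofNat 0, .ofNat 0, .negSucc 25634, .ofNat 310014,
      .negSucc 976372, .ofNat 896494, .ofNat 406232, .negSucc 789024, .ofNat 42000, .ofNat
      161505, .ofNat 1890],
    [.ofNat 0, .ofNat 0, .ofNat 0, .ofNat 0, .ofNat 0, .ofNat 0, .ofNat 0, .negSucc 10853, .ofNat
      131652, .negSucc 492853, .ofNat 648432, .negSucc 121824, .negSucc 293249, .ofNat 158670,
      .ofNat 1890],
    [.ofNat 0, .ofNat 0, .ofNat 0, .ofNat 0, .ofNat 0, .ofNat 0, .ofNat 0, .ofNat 0, .ofNat 0,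
      .ofNat 0, .ofNat 0, .ofNat 0, .ofNat 5625]]

def dB : P2 :=
  [[.ofNat 10852, .negSucc 321194, .ofNat 3040092, .negSucc 8935744, .ofNat 9567590, .negSucc
      201249, .negSucc 5720084, .ofNat 2571975, .ofNat 14175],
    [.ofNat 11540, .ofNat 177713, .negSucc 1808561, .ofNat 10320227, .negSucc 25413611, .ofNat
      25766114, .negSucc 1302724, .negSucc 14102414, .ofNat 6410385, .ofNat 51030],
    [.ofNat 3520, .ofNat 619585, .negSucc 5209627, .ofNat 13672166, .negSucc 4970099, .negSucc
      22714188, .ofNat 27839173, .negSucc 3058849, .negSucc 10171559, .ofNat 4033845, .ofNat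
      50085],
    [.ofNat 0, .ofNat 273173, .negSucc 1575663, .negSucc 3763229, .ofNat 33824116, .negSucc
      57058872, .ofNat 29223825, .ofNat 7825490, .negSucc 14618429, .ofNat 9239565, .negSucc
      3558374, .negSucc 18899],
    [.ofNat 0, .ofNat 0, .ofNat 385222, .negSucc 4549020, .ofNat 12385068, .ofNat 5781724,
      .negSucc 54583833, .ofNat 65021790, .negSucc 18629264, .negSucc 18957569, .ofNat 17671920,
      .negSucc 4881824, .negSucc 51974],
    [.ofNat 0, .ofNat 0, .ofNat 0, .ofNat 281923, .negSucc 3943273, .ofNat 20377960, .negSucc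
      40015403, .ofNat 19632652, .ofNat 25980055, .negSucc 26466599, .negSucc 1449679, .ofNat
      5662365, .negSucc 60524, .negSucc 9449],
    [.ofNat 0, .ofNat 0, .ofNat 0, .ofNat 0, .negSucc 143559, .ofNat 976295, .ofNat 3551608,
      .negSucc 28558301, .ofNat 48452622, .negSucc 22311131, .negSucc 10687520, .ofNat 12184750,
      .negSucc 4826939, .ofNat 1830735, .ofNat 17955],
    [.ofNat 0, .ofNat 0, .ofNat 0, .ofNat 0, .ofNat 0, .negSucc 237964, .ofNat 2848140, .negSucc
      10043577, .ofNat 8888356, .ofNat 10387340, .negSucc 20433728, .ofNat 6589378, .ofNat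
      5672750, .negSucc 3937484, .ofNat 609795, .ofNat 7560],
    [.ofNat 0, .ofNat 0, .ofNat 0, .ofNat 0, .ofNat 0, .ofNat 0, .negSucc 35561, .ofNat 637341,
      .negSucc 4461719, .ofNat 11726311, .negSucc 10768057, .negSucc 1912584, .ofNat 7183235,
      .negSucc 1628579, .negSucc 824534, .negSucc 9449],
    [.ofNat 0, .ofNat 0, .ofNat 0, .ofNat 0, .ofNat 0, .ofNat 0, .ofNat 0, .ofNat 58197, .negSucc
      639845, .ofNat 1665023, .ofNat 115334, .negSucc 3888598, .ofNat 2354725, .ofNat 1241490,
      .negSucc 1119194, .negSucc 13229],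
    [.ofNat 0, .ofNat 0, .ofNat 0, .ofNat 0, .ofNat 0, .ofNat 0, .ofNat 0, .ofNat 0, .ofNat
      21708, .negSucc 263303, .ofNat 985708, .negSucc 1296863, .ofNat 221150, .ofNat 547125,
      .negSucc 317339, .negSucc 3779],
    [.ofNat 0, .ofNat 0, .ofNat 0, .ofNat 0, .ofNat 0, .ofNat 0, .ofNat 0, .ofNat 0, .ofNat 0,
      .ofNat 0, .ofNat 0, .ofNat 0, .ofNat 0, .negSucc 16874]]

def dA : P2 :=
  [[.ofNat 33080, .ofNat 0, .ofNat 1400, .ofNat 0, .ofNat 2100],
    [.ofNat 129400, .ofNat 66160, .ofNat 79000, .ofNat 2800, .negSucc 25499, .ofNat 4200],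
    [.ofNat 195684, .ofNat 66083, .ofNat 2145428, .negSucc 5203446, .ofNat 5581694, .negSucc
      171749, .negSucc 3435494, .ofNat 1543185, .ofNat 8505],
    [.ofNat 126740, .ofNat 602439, .negSucc 1649381, .ofNat 10029973, .negSucc 19270471, .ofNat
      15648294, .ofNat 1023825, .negSucc 9507344, .ofNat 3925935, .ofNat 32130],
    [.ofNat 30208, .ofNat 648091, .negSucc 2871499, .ofNat 7720194, .ofNat 3998996, .negSucc
      26320806, .ofNat 21731259, .ofNat 2225170, .negSucc 10336859, .ofNat 3333735, .ofNat 36855],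
    [.ofNat 0, .ofNat 198071, .negSucc 542247, .negSucc 3195417, .ofNat 23885832, .negSucc
      38058618, .ofNat 12028915, .ofNat 13591070, .negSucc 10877409, .ofNat 2434995, .negSucc
      624824],
    [.ofNat 0, .ofNat 0, .ofNat 211954, .negSucc 2037426, .ofNat 3988768, .ofNat 13435948,
      .negSucc 52203625, .ofNat 51886850, .negSucc 5966694, .negSucc 21672289, .ofNat 13005480,
      .negSucc 2149874, .negSucc 23624],
    [.ofNat 0, .ofNat 0, .ofNat 0, .ofNat 293485, .negSucc 3294529, .ofNat 12678064, .negSucc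
      18251751, .negSucc 6013491, .ofNat 32407873, .negSucc 16158595, .negSucc 9092599, .ofNat
      7142655, .negSucc 192914, .negSucc 5669],
    [.ofNat 0, .ofNat 0, .ofNat 0, .ofNat 0, .ofNat 95540, .negSucc 1729554, .ofNat 9493844,
      .negSucc 25365001, .ofNat 29201838, .negSucc 7257471, .negSucc 9872930, .ofNat 7408550,
      .negSucc 2301419, .ofNat 827685, .ofNat 8505],
    [.ofNat 0, .ofNat 0, .ofNat 0, .ofNat 0, .ofNat 0, .negSucc 53446, .ofNat 429156, .negSucc
      229069, .negSucc 5089735, .ofNat 15140396, .negSucc 13923826, .ofNat 575974, .ofNat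
      6581470, .negSucc 3220034, .ofNat 293085, .ofNat 3780],
    [.ofNat 0, .ofNat 0, .ofNat 0, .ofNat 0, .ofNat 0, .ofNat 0, .negSucc 58373, .ofNat 779787,
      .negSucc 3112907, .ofNat 5386617, .negSucc 2012593, .negSucc 3813734, .ofNat 3241145,
      .ofNat 497040, .negSucc 805004, .negSucc 9449],
    [.ofNat 0, .ofNat 0, .ofNat 0, .ofNat 0, .ofNat 0, .ofNat 0, .ofNat 0, .negSucc 14780, .ofNat
      221778, .negSucc 1010126, .ofNat 2219478, .negSucc 2022920, .negSucc 42224, .ofNat 1056330,
      .negSucc 475064, .negSucc 5669],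
    [.ofNat 0, .ofNat 0, .ofNat 0, .ofNat 0, .ofNat 0, .ofNat 0, .ofNat 0, .ofNat 0, .ofNat 0,
      .ofNat 0, .ofNat 0, .ofNat 0, .negSucc 11249, .negSucc 28124],
    [.ofNat 0, .ofNat 0, .ofNat 0, .ofNat 0, .ofNat 0, .ofNat 0, .ofNat 0, .ofNat 0, .ofNat 0,
      .ofNat 0, .ofNat 0, .ofNat 0, .ofNat 0, .negSucc 5624]]

def dDA : P2 :=
  [[],
    [.negSucc 35999, .ofNat 0, .ofNat 72000, .ofNat 0, .negSucc 35999],
    [.negSucc 126231, .negSucc 457433, .ofNat 3908696, .negSucc 10578893, .ofNat 11262588,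
      .negSucc 313499, .negSucc 6875189, .ofNat 3086370, .ofNat 17010],
    [.negSucc 206831, .ofNat 958900, .negSucc 11287955, .ofNat 41317564, .negSucc 64066403,
      .ofNat 36350544, .ofNat 13702260, .negSucc 26276399, .ofNat 8665920, .ofNat 79380],
    [.negSucc 132647, .ofNat 742638, .negSucc 8747879, .ofNat 10225698, .ofNat 45357876, .negSucc
      109185459, .ofNat 53771298, .ofNat 32763910, .negSucc 33270989, .ofNat 5401800, .ofNat
      83160],
    [.negSucc 30207, .ofNat 28368, .negSucc 1489119, .negSucc 14927543, .ofNat 92306352, .negSucc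
      169476543, .ofNat 106937284, .ofNat 3712968, .negSucc 47687139, .ofNat 38886360, .negSucc
      13776119, .negSucc 105839],
    [.ofNat 0, .negSucc 60415, .ofNat 25944, .negSucc 4283491, .ofNat 14028528, .ofNat 49525536,
      .negSucc 269542783, .ofNat 359035542, .negSucc 106799867, .negSucc 130084919, .ofNat
      102872880, .negSucc 18262259, .negSucc 215459],
    [.ofNat 0, .ofNat 0, .negSucc 93563, .ofNat 2027616, .negSucc 15595007, .ofNat 79180032,
      .negSucc 190381055, .ofNat 125355264, .ofNat 119039608, .negSucc 135191951, .negSucc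
      10546479, .ofNat 25783620, .ofNat 4910760, .ofNat 7560],
    [.ofNat 0, .ofNat 0, .ofNat 0, .ofNat 559204, .negSucc 4269167, .ofNat 11890084, .ofNat
      19035816, .negSucc 203897273, .ofNat 439556068, .negSucc 323624583, .negSucc 19394915,
      .ofNat 157287100, .negSucc 82054319, .ofNat 15642720, .ofNat 173880],
    [.ofNat 0, .ofNat 0, .ofNat 0, .ofNat 0, .negSucc 88395, .negSucc 2776559, .ofNat 30908336,
      .negSucc 110595191, .ofNat 143610012, .ofNat 73226036, .negSucc 276107159, .ofNat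
      124461168, .ofNat 81695040, .negSucc 59371739, .ofNat 1960200, .ofNat 45360],
    [.ofNat 0, .ofNat 0, .ofNat 0, .ofNat 0, .ofNat 0, .negSucc 404867, .ofNat 4125648, .negSucc
      2587079, .negSucc 57262943, .ofNat 218393562, .negSucc 266798123, .ofNat 55304894, .ofNat
      102005868, .negSucc 60921139, .ofNat 11715510, .negSucc 5648669, .negSucc 58589],
    [.ofNat 0, .ofNat 0, .ofNat 0, .ofNat 0, .ofNat 0, .ofNat 0, .negSucc 280515, .ofNat 5098464,
      .negSucc 26724351, .ofNat 59195468, .negSucc 20276423, .negSucc 108173263, .ofNat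
      129556492, .negSucc 16980767, .negSucc 47573619, .ofNat 22626780, .negSucc 2048759,
      .negSucc 26459],
    [.ofNat 0, .ofNat 0, .ofNat 0, .ofNat 0, .ofNat 0, .ofNat 0, .ofNat 0, .ofNat 134956,
      .negSucc 590663, .negSucc 6058657, .ofNat 39646624, .negSucc 85925021, .ofNat 55233368,
      .ofNat 28960572, .negSucc 45049229, .ofNat 4989870, .ofNat 5884110, .ofNat 68040],
    [.ofNat 0, .ofNat 0, .ofNat 0, .ofNat 0, .ofNat 0, .ofNat 0, .ofNat 0, .ofNat 0, .ofNat
      204684, .negSucc 2649887, .ofNat 9362976, .negSucc 11507663, .negSucc 9970427, .ofNat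
      29484444, .negSucc 11399819, .negSucc 10047959, .ofNat 6701940, .ofNat 79380],
    [.ofNat 0, .ofNat 0, .ofNat 0, .ofNat 0, .ofNat 0, .ofNat 0, .ofNat 0, .ofNat 0, .ofNat 0,
      .ofNat 59124, .negSucc 887111, .ofNat 4040508, .negSucc 8877911, .ofNat 8069184, .ofNat
      348900, .negSucc 3944069, .ofNat 1900260, .ofNat 22680],
    [.ofNat 0, .ofNat 0, .ofNat 0, .ofNat 0, .ofNat 0, .ofNat 0, .ofNat 0, .ofNat 0, .ofNat 0,
      .ofNat 0, .ofNat 0, .ofNat 0, .ofNat 0, .ofNat 0, .ofNat 67500, .ofNat 202500],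
    [.ofNat 0, .ofNat 0, .ofNat 0, .ofNat 0, .ofNat 0, .ofNat 0, .ofNat 0, .ofNat 0, .ofNat 0,
      .ofNat 0, .ofNat 0, .ofNat 0, .ofNat 0, .ofNat 0, .ofNat 0, .ofNat 33750]]

def dDB : P2 :=
  [[],
    [.negSucc 42719, .ofNat 1761984, .negSucc 16366631, .ofNat 48918768, .negSucc 55380071,
      .ofNat 7637184, .ofNat 27700200, .negSucc 15522119, .ofNat 1195560, .ofNat 22680],
    [.negSucc 39119, .ofNat 483534, .negSucc 2876339, .negSucc 17042025, .ofNat 95025468,
      .negSucc 134672279, .ofNat 28894698, .ofNat 63935080, .negSucc 34363949, .ofNat 158400,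
      .ofNat 26460],
    [.negSucc 10559, .negSucc 1069355, .ofNat 9394800, .negSucc 40340459, .ofNat 87869944,
      .negSucc 94496615, .ofNat 39609624, .ofNat 3937488, .negSucc 20361399, .ofNat 27040920,
      .negSucc 12485519, .negSucc 105839],
    [.ofNat 0, .negSucc 553385, .ofNat 2975940, .ofNat 3967238, .negSucc 48777203, .ofNat
      141457972, .negSucc 269718533, .ofNat 284906868, .negSucc 62629829, .negSucc 129343919,
      .ofNat 89719920, .negSucc 12166739, .negSucc 170099],
    [.ofNat 0, .ofNat 0, .negSucc 913967, .ofNat 11164272, .negSucc 39949411, .ofNat 75813768,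
      .negSucc 101613503, .ofNat 27349416, .ofNat 112807020, .negSucc 69999779, .negSucc
      41723679, .ofNat 15896220, .ofNat 13359600, .ofNat 75600],
    [.ofNat 0, .ofNat 0, .ofNat 0, .ofNat 322248, .ofNat 599736, .negSucc 16980695, .ofNat
      79516608, .negSucc 221950275, .ofNat 347469816, .negSucc 247309991, .ofNat 5508024, .ofNat
      115537420, .negSucc 80100059, .ofNat 20897460, .ofNat 230580],
    [.ofNat 0, .ofNat 0, .ofNat 0, .ofNat 0, .ofNat 448260, .negSucc 7008623, .ofNat 29765104,
      .negSucc 69724463, .ofNat 84817124, .ofNat 37702308, .negSucc 189996119, .ofNat 105111888,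
      .ofNat 56552880, .negSucc 47589299, .ofNat 669600, .ofNat 45360],
    [.ofNat 0, .ofNat 0, .ofNat 0, .ofNat 0, .ofNat 0, .ofNat 375036, .negSucc 3377183, .ofNat
      9062816, .negSucc 34950527, .ofNat 153401724, .negSucc 245014715, .ofNat 96431904, .ofNat
      71113848, .negSucc 60009499, .ofNat 18023520, .negSucc 8657819, .negSucc 86939],
    [.ofNat 0, .ofNat 0, .ofNat 0, .ofNat 0, .ofNat 0, .ofNat 0, .ofNat 225684, .negSucc 1023239,
      .negSucc 11020391, .ofNat 62970456, .negSucc 71482627, .negSucc 52579403, .ofNat 124869768,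
      .negSucc 40186439, .negSucc 34604919, .ofNat 21800220, .negSucc 3027239, .negSucc 37799],
    [.ofNat 0, .ofNat 0, .ofNat 0, .ofNat 0, .ofNat 0, .ofNat 0, .ofNat 0, .ofNat 303912,
      .negSucc 3520007, .ofNat 10406138, .ofNat 10306068, .negSucc 77575453, .ofNat 87841116,
      .ofNat 2836800, .negSucc 49975409, .ofNat 13568220, .ofNat 4992570, .ofNat 56700],
    [.ofNat 0, .ofNat 0, .ofNat 0, .ofNat 0, .ofNat 0, .ofNat 0, .ofNat 0, .ofNat 0, .ofNat
      27708, .negSucc 1124963, .ofNat 11065744, .negSucc 32067875, .ofNat 21437396, .ofNat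
      26531028, .negSucc 28830239, .negSucc 4207679, .ofNat 8692920, .ofNat 102060],
    [.ofNat 0, .ofNat 0, .ofNat 0, .ofNat 0, .ofNat 0, .ofNat 0, .ofNat 0, .ofNat 0, .ofNat 0,
      .negSucc 159809, .ofNat 1632636, .negSucc 3195029, .negSucc 5522603, .ofNat 17608560,
      .negSucc 7539149, .negSucc 6225299, .ofNat 4784670, .ofNat 56700],
    [.ofNat 0, .ofNat 0, .ofNat 0, .ofNat 0, .ofNat 0, .ofNat 0, .ofNat 0, .ofNat 0, .ofNat 0,
      .ofNat 0, .negSucc 65123, .ofNat 789912, .negSucc 2957123, .ofNat 3890592, .negSucc 629699,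
      .negSucc 1489499, .ofNat 952020, .ofNat 11340],
    [.ofNat 0, .ofNat 0, .ofNat 0, .ofNat 0, .ofNat 0, .ofNat 0, .ofNat 0, .ofNat 0, .ofNat 0,
      .ofNat 0, .ofNat 0, .ofNat 0, .ofNat 0, .ofNat 0, .ofNat 0, .ofNat 67500]]

def dk0 : P2 :=
  [[.ofNat 99240, .ofNat 0, .ofNat 4200, .ofNat 0, .ofNat 6300],
    [.ofNat 595440, .ofNat 198480, .ofNat 25200, .ofNat 8400, .ofNat 37800, .ofNat 12600],
    [.ofNat 1713020, .ofNat 227295, .ofNat 8953220, .negSucc 26756834, .ofNat 28799370, .negSucc
      528149, .negSucc 17175374, .ofNat 7715925, .ofNat 42525],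
    [.ofNat 2920440, .ofNat 4692466, .negSucc 13488377, .ofNat 52539622, .negSucc 103019537,
      .ofNat 84516576, .ofNat 6541050, .negSucc 50156279, .ofNat 20469240, .ofNat 175770],
    [.ofNat 3218196, .ofNat 8814228, .negSucc 26231273, .ofNat 55232928, .ofNat 7368732, .negSucc
      152484939, .ofNat 139569132, .ofNat 10414735, .negSucc 62810249, .ofNat 20128950, .ofNat
      219240],
    [.ofNat 2220416, .ofNat 8326854, .negSucc 12923091, .negSucc 10867649, .ofNat 175288974,
      .negSucc 342375243, .ofNat 169311472, .ofNat 97591320, .negSucc 118564959, .ofNat 32300070,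
      .negSucc 3736709, .negSucc 9449],
    [.ofNat 864000, .ofNat 4853797, .ofNat 657906, .negSucc 24870436, .ofNat 79193682, .ofNat
      33228024, .negSucc 433001344, .ofNat 523451763, .negSucc 89066930, .negSucc 209643329,
      .ofNat 120782070, .negSucc 14614289, .negSucc 175769],
    [.ofNat 144000, .ofNat 1728000, .ofNat 2504922, .negSucc 4121723, .negSucc 27929537, .ofNat
      172824396, .negSucc 315932705, .ofNat 69837060, .ofNat 299643664, .negSucc 201235889,
      .negSucc 62450649, .ofNat 58068150, .ofNat 2497230, .negSucc 9449],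
    [.ofNat 0, .ofNat 288000, .ofNat 864000, .ofNat 1457872, .negSucc 16585019, .ofNat 29325076,
      .ofNat 77249892, .negSucc 371900768, .ofNat 503861068, .negSucc 197439027, .negSucc
      126823823, .ofNat 143228830, .negSucc 52395359, .ofNat 11659140, .ofNat 128520],
    [.ofNat 0, .ofNat 0, .ofNat 144000, .ofNat 0, .ofNat 546086, .negSucc 13357391, .ofNat
      62904050, .negSucc 109035371, .ofNat 4580184, .ofNat 234494882, .negSucc 268173899, .ofNat
      34922082, .ofNat 106273830, .negSucc 51570449, .ofNat 2215350, .ofNat 39690],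
    [.ofNat 0, .ofNat 0, .ofNat 0, .ofNat 0, .ofNat 0, .ofNat 315246, .negSucc 4358975, .ofNat
      31910598, .negSucc 108144599, .ofNat 185839119, .negSucc 129778253, .negSucc 24656592,
      .ofNat 74577120, .negSucc 25436509, .ofNat 2696745, .negSucc 3199634, .negSucc 33074],
    [.ofNat 0, .ofNat 0, .ofNat 0, .ofNat 0, .ofNat 0, .ofNat 0, .negSucc 169017, .ofNat 2044476,
      .negSucc 5628741, .negSucc 4457277, .ofNat 52680534, .negSucc 102034459, .ofNat 67762978,
      .ofNat 11632914, .negSucc 38573679, .ofNat 15404370, .negSucc 1143989, .negSucc 15119],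
    [.ofNat 0, .ofNat 0, .ofNat 0, .ofNat 0, .ofNat 0, .ofNat 0, .ofNat 0, .negSucc 69727, .ofNat
      1187016, .negSucc 7436887, .ofNat 21697126, .negSucc 30412745, .ofNat 7263680, .ofNat
      22331904, .negSucc 17006579, .negSucc 3196124, .ofNat 4348350, .ofNat 51030],
    [.ofNat 0, .ofNat 0, .ofNat 0, .ofNat 0, .ofNat 0, .ofNat 0, .ofNat 0, .ofNat 0, .ofNat
      29562, .negSucc 354869, .ofNat 689586, .ofNat 1621806, .negSucc 9383525, .ofNat 11873226,
      .negSucc 1803059, .negSucc 5387849, .ofNat 2861730, .ofNat 34020],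
    [.ofNat 0, .ofNat 0, .ofNat 0, .ofNat 0, .ofNat 0, .ofNat 0, .ofNat 0, .ofNat 0, .ofNat 0,
      .ofNat 14781, .negSucc 221777, .ofNat 1010127, .negSucc 2219477, .ofNat 1983546, .ofNat
      188475, .negSucc 859454, .ofNat 475065, .ofNat 5670],
    [.ofNat 0, .ofNat 0, .ofNat 0, .ofNat 0, .ofNat 0, .ofNat 0, .ofNat 0, .ofNat 0, .ofNat 0,
      .ofNat 0, .ofNat 0, .ofNat 0, .ofNat 0, .ofNat 0, .ofNat 33750, .ofNat 101250],
    [.ofNat 0, .ofNat 0, .ofNat 0, .ofNat 0, .ofNat 0, .ofNat 0, .ofNat 0, .ofNat 0, .ofNat 0,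
      .ofNat 0, .ofNat 0, .ofNat 0, .ofNat 0, .ofNat 0, .ofNat 0, .ofNat 16875]]

def dkA2 : P2 :=
  [[.ofNat 524, .ofNat 963585, .negSucc 9118875, .ofNat 26807235, .negSucc 28700669, .ofNat
      603750, .ofNat 17160255, .negSucc 7715924, .negSucc 42524],
    [.ofNat 174024, .negSucc 1265377, .ofNat 12680442, .negSucc 53069413, .ofNat 102930738,
      .negSucc 84327575, .negSucc 6631769, .ofNat 50113440, .negSucc 20469239, .negSucc 175769],
    [.ofNat 445256, .negSucc 2285750, .ofNat 22247166, .negSucc 48593320, .negSucc 18699601,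
      .ofNat 152469690, .negSucc 133765016, .negSucc 13390719, .ofNat 62799225, .negSucc
      20128949, .negSucc 219239],
    [.ofNat 529256, .negSucc 1899295, .ofNat 22840382, .negSucc 25380779, .negSucc 127668555,
      .ofNat 308791156, .negSucc 179397881, .negSucc 76615559, .ofNat 111068320, .negSucc
      32317079, .ofNat 3736710, .ofNat 9450],
    [.ofNat 289596, .ofNat 241759, .ofNat 5102288, .ofNat 26234333, .negSucc 127200701, .ofNat
      33708596, .ofNat 411489677, .negSucc 552818117, .ofNat 106188141, .ofNat 209488980,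
      .negSucc 120814829, .ofNat 14614290, .ofNat 175770],
    [.ofNat 60416, .ofNat 817794, .negSucc 1854461, .ofNat 19079590, .negSucc 28945571, .negSucc
      74095983, .ofNat 211983282, .negSucc 14413739, .negSucc 281987183, .ofNat 150890580, .ofNat
      84549520, .negSucc 57920099, .negSucc 2497229, .ofNat 9450],
    [.ofNat 0, .ofNat 258487, .negSucc 199289, .negSucc 1686358, .ofNat 24557282, .negSucc
      78543355, .ofNat 105343825, .ofNat 98328538, .negSucc 381976972, .ofNat 278666798, .ofNat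
      33743514, .negSucc 120446499, .ofNat 52650510, .negSucc 11659139, .negSucc 128519],
    [.ofNat 0, .ofNat 0, .ofNat 335726, .negSucc 2925395, .ofNat 11702252, .negSucc 30946315,
      .ofNat 73520776, .negSucc 36810279, .negSucc 31880599, .negSucc 142716951, .ofNat
      254552590, .negSucc 40183871, .negSucc 113472299, .ofNat 51554700, .negSucc 2215349,
      .negSucc 39689],
    [.ofNat 0, .ofNat 0, .ofNat 0, .negSucc 67647, .ofNat 739884, .negSucc 6681329, .ofNat
      7280828, .ofNat 102989239, .negSucc 287059059, .ofNat 172720709, .ofNat 98907326, .negSucc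
      126102276, .ofNat 18670440, .ofNat 6195770, .negSucc 2905904, .ofNat 3199635, .ofNat 33075],
    [.ofNat 0, .ofNat 0, .ofNat 0, .ofNat 0, .ofNat 395890, .negSucc 750383, .negSucc 19979415,
      .ofNat 107836768, .negSucc 182827441, .negSucc 6808571, .ofNat 210169446, .negSucc
      48553197, .negSucc 133622007, .ofNat 46997496, .ofNat 36023530, .negSucc 15459179, .ofNat
      1143990, .ofNat 15120],
    [.ofNat 0, .ofNat 0, .ofNat 0, .ofNat 0, .ofNat 0, .ofNat 644906, .negSucc 6953855, .ofNat
      14321698, .ofNat 37239080, .negSucc 215637626, .ofNat 285582312, .negSucc 55167832,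
      .negSucc 113112163, .ofNat 50516326, .ofNat 995295, .ofNat 9646020, .negSucc 4281254,
      .negSucc 51029],
    [.ofNat 0, .ofNat 0, .ofNat 0, .ofNat 0, .ofNat 0, .ofNat 0, .ofNat 317682, .negSucc 6116459,
      .ofNat 33770076, .negSucc 80584787, .ofNat 45877240, .ofNat 106003998, .negSucc 140297003,
      .ofNat 15800436, .ofNat 51741980, .negSucc 19653959, .negSucc 511379, .negSucc 3779],
    [.ofNat 0, .ofNat 0, .ofNat 0, .ofNat 0, .ofNat 0, .ofNat 0, .ofNat 0, .negSucc 203183,
      .ofNat 1183224, .ofNat 5584467, .negSucc 45408011, .ofNat 103418987, .negSucc 69003785,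
      .negSucc 33171673, .ofNat 54208305, .negSucc 6859079, .negSucc 6871094, .negSucc 79379],
    [.ofNat 0, .ofNat 0, .ofNat 0, .ofNat 0, .ofNat 0, .ofNat 0, .ofNat 0, .ofNat 0, .negSucc
      263057, .ofNat 3414894, .negSucc 12254105, .ofNat 15884154, .ofNat 10166062, .negSucc
      35354849, .ofNat 14564990, .ofNat 11500080, .negSucc 7982009, .negSucc 94499],
    [.ofNat 0, .ofNat 0, .ofNat 0, .ofNat 0, .ofNat 0, .ofNat 0, .ofNat 0, .ofNat 0, .ofNat 0,
      .negSucc 73904, .ofNat 1108890, .negSucc 5050634, .ofNat 11097390, .negSucc 10097729,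
      .negSucc 402374, .ofNat 4955400, .negSucc 2375324, .negSucc 28349],
    [.ofNat 0, .ofNat 0, .ofNat 0, .ofNat 0, .ofNat 0, .ofNat 0, .ofNat 0, .ofNat 0, .ofNat 0,
      .ofNat 0, .ofNat 0, .ofNat 0, .ofNat 0, .ofNat 0, .negSucc 78749, .negSucc 236249],
    [.ofNat 0, .ofNat 0, .ofNat 0, .ofNat 0, .ofNat 0, .ofNat 0, .ofNat 0, .ofNat 0, .ofNat 0,
      .ofNat 0, .ofNat 0, .ofNat 0, .ofNat 0, .ofNat 0, .ofNat 0, .negSucc 39374]]

def dkp2 : P2 :=
  [[.negSucc 10851, .ofNat 321195, .negSucc 3040091, .ofNat 8935745, .negSucc 9567589, .ofNat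
      201250, .ofNat 5720085, .negSucc 2571974, .negSucc 14174],
    [.negSucc 65111, .ofNat 1905466, .negSucc 17598161, .ofNat 47534286, .negSucc 39534049,
      .negSucc 17927679, .ofNat 34723010, .negSucc 3991679, .negSucc 5228999, .negSucc 28349],
    [.negSucc 54179, .negSucc 313763, .ofNat 4130998, .negSucc 40713223, .ofNat 122369088,
      .negSucc 128788459, .negSucc 7209339, .ofNat 81297595, .negSucc 24882689, .negSucc 6498449,
      .negSucc 37799],
    [.negSucc 14079, .negSucc 1962113, .ofNat 16157700, .negSucc 50105913, .ofNat 57784398,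
      .negSucc 16108035, .negSucc 1607351, .negSucc 26394015, .ofNat 11451400, .ofNat 25297950,
      .negSucc 15401789, .negSucc 137969],
    [.ofNat 0, .negSucc 826558, .ofNat 4151322, .ofNat 11482191, .negSucc 87968197, .ofNat
      168742728, .negSucc 213974812, .ofNat 209007663, .negSucc 55918582, .negSucc 102464649,
      .ofNat 79367550, .negSucc 11350889, .negSucc 168209],
    [.ofNat 0, .ofNat 0, .negSucc 1302709, .ofNat 14538612, .negSucc 41605913, .ofNat 39745148,
      .negSucc 35868281, .ofNat 22468036, .ofNat 48393232, .negSucc 29342249, .negSucc 33155929,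
      .ofNat 1842270, .ofNat 16980390, .ofNat 103950],
    [.ofNat 0, .ofNat 0, .ofNat 0, .negSucc 232847, .ofNat 5877012, .negSucc 30022699, .ofNat
      69771220, .negSucc 161747476, .ofNat 298397148, .negSucc 271379539, .ofNat 50892920, .ofNat
      107408310, .negSucc 89326139, .ofNat 23976900, .ofNat 264600],
    [.ofNat 0, .ofNat 0, .ofNat 0, .ofNat 0, .ofNat 206598, .negSucc 3479855, .ofNat 14923562,
      .negSucc 57282267, .ofNat 122075384, .negSucc 35028341, .negSucc 166225659, .ofNat
      131761930, .ofNat 39484830, .negSucc 46263089, .ofNat 154350, .ofNat 47250],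
    [.ofNat 0, .ofNat 0, .ofNat 0, .ofNat 0, .ofNat 0, .ofNat 331078, .negSucc 2102927, .negSucc
      2885201, .negSucc 2913367, .ofNat 140213723, .negSucc 288245605, .ofNat 140532843, .ofNat
      70395064, .negSucc 72290549, .ofNat 23125725, .negSucc 10477214, .negSucc 104894],
    [.ofNat 0, .ofNat 0, .ofNat 0, .ofNat 0, .ofNat 0, .ofNat 0, .ofNat 404806, .negSucc 2457107,
      .negSucc 12318573, .ofNat 88181002, .negSucc 118170881, .negSucc 34854427, .ofNat
      146453058, .negSucc 58573477, .negSucc 33506999, .ofNat 23929650, .negSucc 3654989,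
      .negSucc 45359],
    [.ofNat 0, .ofNat 0, .ofNat 0, .ofNat 0, .ofNat 0, .ofNat 0, .ofNat 0, .ofNat 483680,
      .negSucc 5714447, .ofNat 18410656, .ofNat 4778390, .negSucc 94503641, .ofNat 116467028,
      .negSucc 3628607, .negSucc 61394859, .ofNat 19151295, .ofNat 5207310, .ofNat 58590],
    [.ofNat 0, .ofNat 0, .ofNat 0, .ofNat 0, .ofNat 0, .ofNat 0, .ofNat 0, .ofNat 0, .ofNat
      41562, .negSucc 1557197, .ofNat 15181602, .negSucc 44162345, .ofNat 31868970, .ofNat
      31801962, .negSucc 38050859, .negSucc 3816809, .ofNat 10636650, .ofNat 124740],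
    [.ofNat 0, .ofNat 0, .ofNat 0, .ofNat 0, .ofNat 0, .ofNat 0, .ofNat 0, .ofNat 0, .ofNat 0,
      .negSucc 218006, .ofNat 2250774, .negSucc 4596748, .negSucc 6623645, .ofNat 22810898,
      .negSucc 10115024, .negSucc 8013914, .ofNat 6221205, .ofNat 73710],
    [.ofNat 0, .ofNat 0, .ofNat 0, .ofNat 0, .ofNat 0, .ofNat 0, .ofNat 0, .ofNat 0, .ofNat 0,
      .ofNat 0, .negSucc 86831, .ofNat 1053216, .negSucc 3942831, .ofNat 5187456, .negSucc
      850849, .negSucc 2019749, .ofNat 1269360, .ofNat 15120],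
    [.ofNat 0, .ofNat 0, .ofNat 0, .ofNat 0, .ofNat 0, .ofNat 0, .ofNat 0, .ofNat 0, .ofNat 0,
      .ofNat 0, .ofNat 0, .ofNat 0, .ofNat 0, .ofNat 0, .ofNat 0, .ofNat 84375]]

def dkpA : P2 :=
  [[.ofNat 10852, .negSucc 321194, .ofNat 3040092, .negSucc 8935744, .ofNat 9567590, .negSucc
      201249, .negSucc 5720084, .ofNat 2571975, .ofNat 14175],
    [.ofNat 22392, .negSucc 143481, .ofNat 1231530, .ofNat 1384482, .negSucc 15846021, .ofNat
      25564864, .negSucc 7022809, .negSucc 11530439, .ofNat 6424560, .ofNat 51030],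
    [.ofNat 15060, .ofNat 797298, .negSucc 7029041, .ofNat 24313588, .negSucc 33423803, .ofNat
      11987670, .ofNat 16968858, .negSucc 16960014, .ofNat 1958910, .ofNat 1512900, .ofNat 35910],
    [.ofNat 3520, .ofNat 892758, .negSucc 6807683, .ofNat 10052418, .ofNat 27622486, .negSucc
      81157543, .ofNat 72909020, .negSucc 20798223, .negSucc 17767179, .ofNat 24803850, .negSucc
      9932849, .negSucc 69929],
    [.ofNat 0, .ofNat 273173, .negSucc 1205501, .negSucc 9109548, .ofNat 53227374, .negSucc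
      75269541, .ofNat 5023703, .ofNat 69795355, .negSucc 59784142, .ofNat 7443260, .ofNat
      17874720, .negSucc 8985599, .negSucc 102059],
    [.ofNat 0, .ofNat 0, .ofNat 381702, .negSucc 5159855, .ofNat 15227086, .ofNat 16250748,
      .negSucc 123453253, .ofNat 164427504, .negSucc 49712207, .negSucc 50190809, .ofNat
      41012230, .negSucc 12492869, .ofNat 3395790, .ofNat 9450],
    [.ofNat 0, .ofNat 0, .ofNat 0, .ofNat 8750, .negSucc 2896391, .ofNat 29666506, .negSucc
      82672979, .ofNat 42351499, .ofNat 99792686, .negSucc 121625011, .ofNat 21110494, .ofNat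
      27565120, .negSucc 19001009, .ofNat 6722010, .ofNat 69930],
    [.ofNat 0, .ofNat 0, .ofNat 0, .ofNat 0, .negSucc 528781, .ofNat 5005428, .negSucc 2042045,
      .negSucc 64761563, .ofNat 151940216, .negSucc 96578233, .negSucc 38472039, .ofNat 64198298,
      .negSucc 15376429, .negSucc 2887289, .ofNat 740250, .ofNat 17010],
    [.ofNat 0, .ofNat 0, .ofNat 0, .ofNat 0, .ofNat 0, .negSucc 519887, .ofNat 6899412, .negSucc
      30760491, .ofNat 40890432, .ofNat 31039301, .negSucc 105634463, .ofNat 53454525, .ofNat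
      24993186, .negSucc 23413179, .ofNat 4672725, .negSucc 1823174, .negSucc 17954],
    [.ofNat 0, .ofNat 0, .ofNat 0, .ofNat 0, .ofNat 0, .ofNat 0, .ofNat 107998, .negSucc 42791,
      .negSucc 11501313, .ofNat 51993214, .negSucc 67993701, .ofNat 6122608, .ofNat 40659210,
      .negSucc 19161217, .negSucc 2789539, .ofNat 2084070, .negSucc 627749, .negSucc 7559],
    [.ofNat 0, .ofNat 0, .ofNat 0, .ofNat 0, .ofNat 0, .ofNat 0, .ofNat 0, .ofNat 296162,
      .negSucc 3430715, .ofNat 10807956, .negSucc 3325593, .negSucc 27299113, .ofNat 33777662,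
      .negSucc 2888177, .negSucc 14292519, .ofNat 5549055, .ofNat 214740, .ofNat 1890],
    [.ofNat 0, .ofNat 0, .ofNat 0, .ofNat 0, .ofNat 0, .ofNat 0, .ofNat 0, .ofNat 0, .ofNat
      57270, .negSucc 958841, .ofNat 6087274, .negSucc 14688197, .ofNat 10873874, .ofNat 6331434,
      .negSucc 9855299, .ofNat 383310, .ofNat 1943730, .ofNat 22680],
    [.ofNat 0, .ofNat 0, .ofNat 0, .ofNat 0, .ofNat 0, .ofNat 0, .ofNat 0, .ofNat 0, .ofNat 0,
      .negSucc 58196, .ofNat 618138, .negSucc 1401718, .negSucc 1101041, .ofNat 5168588, .negSucc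
      2575874, .negSucc 1788614, .ofNat 1436535, .ofNat 17010],
    [.ofNat 0, .ofNat 0, .ofNat 0, .ofNat 0, .ofNat 0, .ofNat 0, .ofNat 0, .ofNat 0, .ofNat 0,
      .ofNat 0, .negSucc 21707, .ofNat 263304, .negSucc 985707, .ofNat 1296864, .negSucc 221149,
      .negSucc 530249, .ofNat 317340, .ofNat 3780],
    [.ofNat 0, .ofNat 0, .ofNat 0, .ofNat 0, .ofNat 0, .ofNat 0, .ofNat 0, .ofNat 0, .ofNat 0,
      .ofNat 0, .ofNat 0, .ofNat 0, .ofNat 0, .ofNat 0, .ofNat 0, .ofNat 16875]]

def dGn : P2 :=
  [[.ofNat 49620, .ofNat 0, .ofNat 2100, .ofNat 0, .ofNat 3150],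
    [.ofNat 248100, .ofNat 49620, .ofNat 10500, .ofNat 2100, .ofNat 15750, .ofNat 3150],
    [.ofNat 465500, .ofNat 569295, .negSucc 3188639, .ofNat 8946245, .negSucc 9544489, .ofNat
      217000, .ofNat 5709375, .negSucc 2571974, .negSucc 14174],
    [.ofNat 409420, .ofNat 309491, .ofNat 612627, .negSucc 7428682, .ofNat 16491367, .negSucc
      16175423, .ofNat 1047925, .ofNat 8371620, .negSucc 3838409, .negSucc 36854],
    [.ofNat 155744, .negSucc 691819, .ofNat 8328277, .negSucc 30397352, .ofNat 30578819, .negSucc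
      3002172, .negSucc 11154703, .ofNat 5744250, .negSucc 3895889, .ofNat 2376540, .ofNat 945],
    [.ofNat 5280, .ofNat 8912, .negSucc 805233, .ofNat 4663265, .negSucc 40807082, .ofNat
      77251791, .negSucc 55725788, .ofNat 7857233, .ofNat 17569420, .negSucc 19342139, .ofNat
      7592220, .ofNat 68985],
    [.negSucc 8063, .ofNat 932157, .negSucc 9379033, .ofNat 26531069, .negSucc 43377916, .ofNat
      44205517, .negSucc 5813721, .negSucc 41282849, .ofNat 37290410, .negSucc 712109, .negSucc
      8447789, .ofNat 1323450, .ofNat 33075],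
    [.ofNat 0, .ofNat 441609, .negSucc 3833516, .ofNat 2828089, .ofNat 28910379, .negSucc
      77693164, .ofNat 121151596, .negSucc 112087114, .ofNat 28331295, .ofNat 38341980, .negSucc
      30775779, .ofNat 11884500, .negSucc 4821299, .negSucc 42524],
    [.ofNat 0, .ofNat 0, .ofNat 221673, .negSucc 5424608, .ofNat 31194597, .negSucc 59631032,
      .ofNat 43600995, .ofNat 21388253, .negSucc 67169762, .ofNat 52563307, .negSucc 10014683,
      .negSucc 14499329, .ofNat 10442370, .negSucc 1891259, .negSucc 27404],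
    [.ofNat 0, .ofNat 0, .ofNat 0, .negSucc 409418, .ofNat 3469227, .ofNat 8674785, .negSucc
      73985172, .ofNat 136483752, .negSucc 109598942, .ofNat 33507289, .ofNat 24442487, .negSucc
      39960093, .ofNat 16251800, .negSucc 804089, .ofNat 1220940, .ofNat 10395],
    [.ofNat 0, .ofNat 0, .ofNat 0, .ofNat 0, .negSucc 774518, .ofNat 10276377, .negSucc 39107986,
      .ofNat 43399973, .ofNat 13517800, .negSucc 67259407, .ofNat 53556191, .negSucc 8848753,
      .negSucc 13398381, .ofNat 10610270, .negSucc 3062864, .ofNat 619245, .ofNat 7560],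
    [.ofNat 0, .ofNat 0, .ofNat 0, .ofNat 0, .ofNat 0, .ofNat 4551, .ofNat 1301337, .negSucc
      20757328, .ofNat 69765109, .negSucc 87604856, .ofNat 28731782, .ofNat 22671318, .negSucc
      20752469, .ofNat 10136300, .negSucc 3106784, .negSucc 833039, .negSucc 9449],
    [.ofNat 0, .ofNat 0, .ofNat 0, .ofNat 0, .ofNat 0, .ofNat 0, .ofNat 555939, .negSucc 6637106,
      .ofNat 20186879, .negSucc 10530550, .negSucc 27720934, .ofNat 34928696, .negSucc 7447799,
      .negSucc 7603889, .ofNat 6071400, .negSucc 2368079, .negSucc 28349],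
    [.ofNat 0, .ofNat 0, .ofNat 0, .ofNat 0, .ofNat 0, .ofNat 0, .ofNat 0, .ofNat 172383,
      .negSucc 2452238, .ofNat 13210667, .negSucc 27465092, .ofNat 21398839, .ofNat 3375546,
      .negSucc 12900239, .ofNat 4023270, .ofNat 517905, .ofNat 5670],
    [.ofNat 0, .ofNat 0, .ofNat 0, .ofNat 0, .ofNat 0, .ofNat 0, .ofNat 0, .ofNat 0, .negSucc
      139028, .ofNat 1573182, .negSucc 4058198, .ofNat 202362, .ofNat 8314905, .negSucc 5450999,
      .negSucc 2580704, .ofNat 2396115, .ofNat 28350],
    [.ofNat 0, .ofNat 0, .ofNat 0, .ofNat 0, .ofNat 0, .ofNat 0, .ofNat 0, .ofNat 0, .ofNat 0,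
      .negSucc 65123, .ofNat 789912, .negSucc 2957123, .ofNat 3890592, .negSucc 725324, .negSucc
      1697624, .ofNat 952020, .ofNat 11340],
    [.ofNat 0, .ofNat 0, .ofNat 0, .ofNat 0, .ofNat 0, .ofNat 0, .ofNat 0, .ofNat 0, .ofNat 0,
      .ofNat 0, .ofNat 0, .ofNat 0, .ofNat 0, .ofNat 0, .ofNat 39375]]

def dG1 : P2 :=
  [[.ofNat 49620, .ofNat 0, .ofNat 2100, .ofNat 0, .ofNat 3150],
    [.ofNat 297720, .ofNat 49620, .ofNat 12600, .ofNat 2100, .ofNat 18900, .ofNat 3150],
    [.ofNat 652200, .ofNat 1261305, .negSucc 9250079, .ofNat 26819835, .negSucc 28666019, .ofNat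
      622650, .ofNat 17150175, .negSucc 7715924, .negSucc 42524],
    [.ofNat 706680, .negSucc 614225, .ofNat 10590633, .negSucc 44081741, .ofNat 76206903,
      .negSucc 55592255, .negSucc 7295999, .ofNat 32943105, .negSucc 12753314, .negSucc 133244],
    [.ofNat 369300, .negSucc 4643510, .ofNat 45920172, .negSucc 137970858, .ofNat 115879326,
      .ofNat 47920352, .negSucc 97940960, .ofNat 14932130, .ofNat 12815565, .ofNat 340290,
      .negSucc 43469],
    [.ofNat 31680, .negSucc 511691, .ofNat 2718525, .ofNat 26848386, .negSucc 239028366, .ofNat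
      477705840, .negSucc 337709691, .negSucc 21239942, .ofNat 159343400, .negSucc 94752164,
      .ofNat 23865660, .ofNat 228690],
    [.negSucc 51167, .ofNat 6372987, .negSucc 61058387, .ofNat 183185335, .negSucc 279279035,
      .ofNat 201042432, .ofNat 116557485, .negSucc 388005155, .ofNat 230861241, .ofNat 68692760,
      .negSucc 88544369, .ofNat 10877580, .ofNat 166320],
    [.negSucc 16127, .ofNat 5399970, .negSucc 48949736, .ofNat 79671474, .ofNat 185871655,
      .negSucc 708535667, .ofNat 988916138, .negSucc 712987292, .ofNat 67087094, .ofNat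
      325721739, .negSucc 225402319, .ofNat 61940910, .negSucc 17111519, .negSucc 166319],
    [.ofNat 0, .ofNat 1332891, .negSucc 10853147, .negSucc 25189052, .ofNat 312923412, .negSucc
      664922995, .ofNat 376138893, .ofNat 447320420, .negSucc 823597772, .ofNat 502766162,
      .negSucc 4953185, .negSucc 211778239, .ofNat 110151660, .negSucc 9161909, .negSucc 137969],
    [.ofNat 0, .ofNat 0, .ofNat 388635, .negSucc 15214073, .ofNat 92580423, .negSucc 23335685,
      .negSucc 702858591, .ofNat 1517383395, .negSucc 1193514077, .ofNat 183097521, .ofNat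
      402825012, .negSucc 383450585, .ofNat 116992000, .negSucc 78359, .ofNat 9443790, .ofNat
      88830],
    [.ofNat 0, .ofNat 0, .ofNat 0, .ofNat 380886, .negSucc 8340647, .ofNat 138718782, .negSucc
      575695199, .ofNat 724043651, .ofNat 169738656, .negSucc 1068071026, .ofNat 795247710,
      .negSucc 81512686, .negSucc 196318457, .ofNat 157305350, .negSucc 53819264, .ofNat 5414985,
      .ofNat 72765],
    [.ofNat 0, .ofNat 0, .ofNat 0, .ofNat 0, .negSucc 3129329, .ofNat 32304540, .negSucc
      85479281, .negSucc 182424899, .ofNat 1030394531, .negSucc 1388276075, .ofNat 473620777,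
      .ofNat 370273860, .negSucc 355126990, .ofNat 149907246, .negSucc 29504739, .negSucc
      13091294, .negSucc 2055644, .negSucc 17954],
    [.ofNat 0, .ofNat 0, .ofNat 0, .ofNat 0, .ofNat 0, .negSucc 831299, .ofNat 21481584, .negSucc
      179630657, .ofNat 510417828, .negSucc 374279008, .negSucc 469816787, .ofNat 799032273,
      .negSucc 265253687, .negSucc 135888485, .ofNat 128238099, .negSucc 54883569, .ofNat
      10788585, .negSucc 1195019, .negSucc 15119],
    [.ofNat 0, .ofNat 0, .ofNat 0, .ofNat 0, .ofNat 0, .ofNat 0, .ofNat 2119404, .negSucc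
      21725291, .ofNat 33330150, .ofNat 203224848, .negSucc 676885300, .ofNat 639038814, .ofNat
      4548457, .negSucc 307794425, .ofNat 124426834, .negSucc 13236674, .ofNat 3185460, .ofNat
      4394655, .ofNat 51030],
    [.ofNat 0, .ofNat 0, .ofNat 0, .ofNat 0, .ofNat 0, .ofNat 0, .ofNat 0, .ofNat 1004610,
      .negSucc 17311943, .ofNat 109792863, .negSucc 251956235, .ofNat 117723499, .ofNat
      267123258, .negSucc 288167053, .ofNat 6289245, .ofNat 81196360, .negSucc 28172714, .ofNat
      7828920, .ofNat 94500],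
    [.ofNat 0, .ofNat 0, .ofNat 0, .ofNat 0, .ofNat 0, .ofNat 0, .ofNat 0, .ofNat 0, .negSucc
      1006733, .ofNat 9782082, .negSucc 10279172, .negSucc 90350957, .ofNat 233401851, .negSucc
      149871149, .negSucc 58943339, .ofNat 94648215, .negSucc 16494029, .negSucc 4991624,
      .negSucc 56699],
    [.ofNat 0, .ofNat 0, .ofNat 0, .ofNat 0, .ofNat 0, .ofNat 0, .ofNat 0, .ofNat 0, .ofNat 0,
      .negSucc 577334, .ofNat 8015148, .negSucc 38699168, .ofNat 69900468, .negSucc 21398243,
      .negSucc 61717604, .ofNat 47456550, .ofNat 12260835, .negSucc 14416379, .negSucc 170099],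
    [.ofNat 0, .ofNat 0, .ofNat 0, .ofNat 0, .ofNat 0, .ofNat 0, .ofNat 0, .ofNat 0, .ofNat 0,
      .ofNat 0, .ofNat 204153, .negSucc 1907225, .ofNat 1485939, .ofNat 16606914, .negSucc
      34351223, .ofNat 12186525, .ofNat 13512060, .negSucc 9071594, .negSucc 107729],
    [.ofNat 0, .ofNat 0, .ofNat 0, .ofNat 0, .ofNat 0, .ofNat 0, .ofNat 0, .ofNat 0, .ofNat 0,
      .ofNat 0, .ofNat 0, .ofNat 130248, .negSucc 1579823, .ofNat 5914248, .negSucc 7781183,
      .ofNat 1411275, .ofNat 3080250, .negSucc 1904039, .negSucc 22679],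
    [.ofNat 0, .ofNat 0, .ofNat 0, .ofNat 0, .ofNat 0, .ofNat 0, .ofNat 0, .ofNat 0, .ofNat 0,
      .ofNat 0, .ofNat 0, .ofNat 0, .ofNat 0, .ofNat 0, .ofNat 0, .ofNat 0, .negSucc 118124]]

def dfpp : P2 :=
  [[],
    [.ofNat 184200, .negSucc 1927169, .ofNat 18364680, .negSucc 53614469, .ofNat 57418140,
      .negSucc 1207499, .negSucc 34312949, .ofNat 15431850, .ofNat 85050],
    [.ofNat 488760, .ofNat 7837818, .negSucc 69197993, .ofNat 230088606, .negSucc 316536353,
      .ofNat 140611848, .ofNat 91004250, .negSucc 112555439, .ofNat 30373920, .ofNat 357210],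
    [.ofNat 642840, .ofNat 18090246, .negSucc 155642909, .ofNat 410917138, .negSucc 170035661,
      .negSucc 552241207, .ofNat 572944518, .ofNat 43433020, .negSucc 218722199, .ofNat 54886590,
      .ofNat 423360],
    [.ofNat 580200, .negSucc 5652581, .ofNat 67973742, .negSucc 361426489, .ofNat 1290978862,
      .negSucc 2151172135, .ofNat 1305638410, .ofNat 466571812, .negSucc 922624459, .ofNat
      326622090, .negSucc 16543799, .negSucc 120959],
    [.ofNat 338688, .negSucc 38348633, .ofNat 361855230, .negSucc 972100985, .ofNat 831245830,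
      .ofNat 723347448, .negSucc 2388090913, .ofNat 2314298160, .negSucc 445913131, .negSucc
      901007339, .ofNat 549670860, .negSucc 41731199, .negSucc 464939],
    [.ofNat 112896, .negSucc 37819277, .ofNat 349770594, .negSucc 542184185, .negSucc 1745757449,
      .ofNat 6049405644, .negSucc 6304788589, .ofNat 1281948648, .ofNat 2418519088, .negSucc
      1958037563, .ofNat 429887890, .ofNat 65937540, .negSucc 11741939, .negSucc 41579],
    [.ofNat 16128, .negSucc 16130393, .ofNat 149507598, .negSucc 7639685, .negSucc 2195325101,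
      .ofNat 4654988748, .negSucc 204903913, .negSucc 8486647543, .ofNat 8888182240, .negSucc
      1857114403, .negSucc 2404653697, .ofNat 2112694300, .negSucc 635024939, .negSucc 615779,
      .ofNat 105840],
    [.ofNat 0, .negSucc 2681909, .ofNat 25866522, .ofNat 37883190, .negSucc 562142873, .negSucc
      336654947, .ofNat 6590055354, .negSucc 12527479423, .ofNat 6878080728, .ofNat 3707835916,
      .negSucc 5591236661, .ofNat 1588079932, .ofNat 451999500, .negSucc 255423419, .negSucc
      27429839, .negSucc 272159],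
    [.ofNat 0, .ofNat 0, .ofNat 328266, .negSucc 26331803, .ofNat 278982738, .negSucc 1657820387,
      .ofNat 4441950708, .negSucc 2977699025, .negSucc 7192610249, .ofNat 13894939766, .negSucc
      6671957753, .negSucc 2398549221, .ofNat 3284287512, .negSucc 1330278339, .ofNat 341300130,
      .negSucc 15961589, .negSucc 224909],
    [.ofNat 0, .ofNat 0, .ofNat 0, .negSucc 13130927, .ofNat 148662216, .negSucc 577191827,
      .ofNat 394426764, .ofNat 3925092240, .negSucc 11791569071, .ofNat 11436003272, .ofNat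
      526316660, .negSucc 7436771169, .ofNat 3463078310, .ofNat 313802768, .negSucc 528160449,
      .ofNat 160601640, .ofNat 10179000, .ofNat 92610],
    [.ofNat 0, .ofNat 0, .ofNat 0, .ofNat 0, .ofNat 12918456, .negSucc 42876251, .negSucc
      379157771, .ofNat 2491946940, .negSucc 4577955503, .negSucc 270417935, .ofNat 10197006356,
      .negSucc 10564895789, .ofNat 1227211178, .ofNat 3476239728, .negSucc 1823341533, .ofNat
      484189140, .negSucc 148592159, .ofNat 6321510, .ofNat 90720],
    [.ofNat 0, .ofNat 0, .ofNat 0, .ofNat 0, .ofNat 0, .negSucc 807731, .negSucc 64797659, .ofNat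
      337687812, .ofNat 147079044, .negSucc 3964893767, .ofNat 8677159164, .negSucc 5616115121,
      .negSucc 2866182249, .ofNat 4764485184, .negSucc 998067969, .negSucc 500628995, .ofNat
      202617500, .negSucc 79132349, .negSucc 2294999, .negSucc 15119],
    [.ofNat 0, .ofNat 0, .ofNat 0, .ofNat 0, .ofNat 0, .ofNat 0, .ofNat 3108852, .negSucc
      31258727, .ofNat 333721332, .negSucc 1525940177, .ofNat 2432648292, .ofNat 696749874,
      .negSucc 5645123373, .ofNat 4504437020, .ofNat 463449578, .negSucc 1826097843, .ofNat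
      609266084, .negSucc 102729219, .ofNat 24641880, .negSucc 1051379, .negSucc 15119],
    [.ofNat 0, .ofNat 0, .ofNat 0, .ofNat 0, .ofNat 0, .ofNat 0, .ofNat 0, .negSucc 1760975,
      .ofNat 28515888, .negSucc 162689381, .ofNat 3628074, .ofNat 1772546982, .negSucc
      3885749177, .ofNat 2107903460, .ofNat 1573636914, .negSucc 1874062947, .ofNat 148415028,
      .ofNat 235200260, .negSucc 35253929, .ofNat 14909940, .ofNat 177660],
    [.ofNat 0, .ofNat 0, .ofNat 0, .ofNat 0, .ofNat 0, .ofNat 0, .ofNat 0, .ofNat 0, .ofNat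
      1587600, .negSucc 8395937, .negSucc 99327257, .ofNat 692790834, .negSucc 1239890909,
      .negSucc 11058395, .ofNat 1863241782, .negSucc 1296719387, .negSucc 350722115, .ofNat
      527455740, .negSucc 91190789, .ofNat 5945940, .ofNat 79380],
    [.ofNat 0, .ofNat 0, .ofNat 0, .ofNat 0, .ofNat 0, .ofNat 0, .ofNat 0, .ofNat 0, .ofNat 0,
      .ofNat 1752786, .negSucc 26210717, .ofNat 128984286, .negSucc 138551153, .negSucc
      479518907, .ofNat 1162133994, .negSucc 537248507, .negSucc 464849699, .ofNat 429151500,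
      .ofNat 2666430, .negSucc 43680059, .negSucc 510299],
    [.ofNat 0, .ofNat 0, .ofNat 0, .ofNat 0, .ofNat 0, .ofNat 0, .ofNat 0, .ofNat 0, .ofNat 0,
      .ofNat 0, .negSucc 809549, .ofNat 4701204, .ofNat 32119194, .negSucc 230527439, .ofNat
      395832084, .negSucc 62753573, .negSucc 335135429, .ofNat 207819480, .ofNat 72397530,
      .negSucc 62376479, .negSucc 737099],
    [.ofNat 0, .ofNat 0, .ofNat 0, .ofNat 0, .ofNat 0, .ofNat 0, .ofNat 0, .ofNat 0, .ofNat 0,
      .ofNat 0, .ofNat 0, .negSucc 781487, .ofNat 10390680, .negSucc 43809047, .ofNat 54910536,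
      .ofNat 61972020, .negSucc 165510563, .ofNat 65103390, .ofNat 58108050, .negSucc 40143599,
      .negSucc 476279],
    [.ofNat 0, .ofNat 0, .ofNat 0, .ofNat 0, .ofNat 0, .ofNat 0, .ofNat 0, .ofNat 0, .ofNat 0,
      .ofNat 0, .ofNat 0, .ofNat 0, .ofNat 130248, .negSucc 668087, .negSucc 5144519, .ofNat
      33618552, .negSucc 51521387, .ofNat 12841050, .ofNat 19657710, .negSucc 13350959, .negSucc
      158759],
    [.ofNat 0, .ofNat 0, .ofNat 0, .ofNat 0, .ofNat 0, .ofNat 0, .ofNat 0, .ofNat 0, .ofNat 0,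
      .ofNat 0, .ofNat 0, .ofNat 0, .ofNat 0, .ofNat 130248, .negSucc 1579823, .ofNat 5914248,
      .negSucc 7781183, .ofNat 1293150, .ofNat 2135250, .negSucc 1904039, .negSucc 22679],
    [.ofNat 0, .ofNat 0, .ofNat 0, .ofNat 0, .ofNat 0, .ofNat 0, .ofNat 0, .ofNat 0, .ofNat 0,
      .ofNat 0, .ofNat 0, .ofNat 0, .ofNat 0, .ofNat 0, .ofNat 0, .ofNat 0, .ofNat 0, .ofNat 0,
      .negSucc 236249]]

def dxeA : P2 :=
  [[],
    [.ofNat 33080, .ofNat 0, .ofNat 1400, .ofNat 0, .ofNat 2100],
    [.ofNat 162480, .ofNat 66160, .ofNat 80400, .ofNat 2800, .negSucc 23399, .ofNat 4200],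
    [.ofNat 325084, .ofNat 132243, .ofNat 2224428, .negSucc 5200646, .ofNat 5556194, .negSucc
      167549, .negSucc 3435494, .ofNat 1543185, .ofNat 8505],
    [.ofNat 322424, .ofNat 668522, .ofNat 496046, .ofNat 4826526, .negSucc 13688777, .ofNat
      15476544, .negSucc 2411669, .negSucc 7964159, .ofNat 3934440, .ofNat 32130],
    [.ofNat 156948, .ofNat 1250530, .negSucc 4520881, .ofNat 17750167, .negSucc 15271475,
      .negSucc 10672512, .ofNat 22755084, .negSucc 7282174, .negSucc 6410924, .ofNat 3365865,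
      .ofNat 36855],
    [.ofNat 30208, .ofNat 846162, .negSucc 3413747, .ofNat 4524776, .ofNat 27884828, .negSucc
      64379425, .ofNat 33760174, .ofNat 15816240, .negSucc 21214269, .ofNat 5768730, .negSucc
      587969],
    [.ofNat 0, .ofNat 198071, .negSucc 330293, .negSucc 5232844, .ofNat 27874600, .negSucc
      24622670, .negSucc 40174710, .ofNat 65477920, .negSucc 16844104, .negSucc 19237294, .ofNat
      12380655, .negSucc 2149874, .negSucc 23624],
    [.ofNat 0, .ofNat 0, .ofNat 211954, .negSucc 1743941, .ofNat 694238, .ofNat 26114012,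
      .negSucc 70455377, .ofNat 45873358, .ofNat 26441178, .negSucc 37830885, .ofNat 3912880,
      .ofNat 4992780, .negSucc 216539, .negSucc 5669],
    [.ofNat 0, .ofNat 0, .ofNat 0, .ofNat 293485, .negSucc 3198989, .ofNat 10948509, .negSucc
      8757907, .negSucc 31378493, .ofNat 61609711, .negSucc 23416067, .negSucc 18965530, .ofNat
      14551205, .negSucc 2494334, .ofNat 822015, .ofNat 8505],
    [.ofNat 0, .ofNat 0, .ofNat 0, .ofNat 0, .ofNat 95540, .negSucc 1783001, .ofNat 9923000,
      .negSucc 25594071, .ofNat 24112102, .ofNat 7882924, .negSucc 23796757, .ofNat 7984524,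
      .ofNat 4280050, .negSucc 2392349, .ofNat 301590, .ofNat 3780],
    [.ofNat 0, .ofNat 0, .ofNat 0, .ofNat 0, .ofNat 0, .negSucc 53446, .ofNat 370782, .ofNat
      550717, .negSucc 8202643, .ofNat 20527013, .negSucc 15936420, .negSucc 3237760, .ofNat
      9822615, .negSucc 2722994, .negSucc 511919, .negSucc 5669],
    [.ofNat 0, .ofNat 0, .ofNat 0, .ofNat 0, .ofNat 0, .ofNat 0, .negSucc 58373, .ofNat 765006,
      .negSucc 2891129, .ofNat 4376490, .ofNat 206884, .negSucc 5836655, .ofNat 3198920, .ofNat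
      1553370, .negSucc 1280069, .negSucc 15119],
    [.ofNat 0, .ofNat 0, .ofNat 0, .ofNat 0, .ofNat 0, .ofNat 0, .ofNat 0, .negSucc 14780, .ofNat
      221778, .negSucc 1010126, .ofNat 2219478, .negSucc 2022920, .negSucc 53474, .ofNat 1028205,
      .negSucc 475064, .negSucc 5669],
    [.ofNat 0, .ofNat 0, .ofNat 0, .ofNat 0, .ofNat 0, .ofNat 0, .ofNat 0, .ofNat 0, .ofNat 0,
      .ofNat 0, .ofNat 0, .ofNat 0, .negSucc 11249, .negSucc 33749],
    [.ofNat 0, .ofNat 0, .ofNat 0, .ofNat 0, .ofNat 0, .ofNat 0, .ofNat 0, .ofNat 0, .ofNat 0,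
      .ofNat 0, .ofNat 0, .ofNat 0, .ofNat 0, .negSucc 5624]]

def dxeB : P2 :=
  [[],
    [.ofNat 10852, .negSucc 321194, .ofNat 3040092, .negSucc 8935744, .ofNat 9567590, .negSucc
      201249, .negSucc 5720084, .ofNat 2571975, .ofNat 14175],
    [.ofNat 22392, .negSucc 143481, .ofNat 1231530, .ofNat 1384482, .negSucc 15846021, .ofNat
      25564864, .negSucc 7022809, .negSucc 11530439, .ofNat 6424560, .ofNat 51030],
    [.ofNat 15060, .ofNat 797298, .negSucc 7018189, .ofNat 23992393, .negSucc 30383711, .ofNat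
      3051925, .ofNat 26536448, .negSucc 17161264, .negSucc 3761174, .ofNat 4084875, .ofNat
      50085],
    [.ofNat 3520, .ofNat 892758, .negSucc 6785291, .ofNat 9908936, .ofNat 28854016, .negSucc
      79773061, .ofNat 57062998, .ofNat 4766640, .negSucc 24789989, .ofNat 13273410, .negSucc
      3508289, .negSucc 18899],
    [.ofNat 0, .ofNat 273173, .negSucc 1190441, .negSucc 8312250, .ofNat 46209184, .negSucc
      51277148, .negSucc 25360008, .ofNat 72847280, .negSucc 33247694, .negSucc 9718004, .ofNat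
      14113545, .negSucc 4900724, .negSucc 51974],
    [.ofNat 0, .ofNat 0, .ofNat 385222, .negSucc 4267097, .ofNat 8441794, .ofNat 26159684,
      .negSucc 94599237, .ofNat 84654442, .ofNat 7350790, .negSucc 45424169, .ofNat 16222240,
      .ofNat 780540, .negSucc 112499, .negSucc 9449],
    [.ofNat 0, .ofNat 0, .ofNat 0, .ofNat 281923, .negSucc 4086833, .ofNat 21354255, .negSucc
      36463795, .negSucc 8925649, .ofNat 74432677, .negSucc 48777731, .negSucc 12137200, .ofNat
      17847115, .negSucc 4887464, .ofNat 1821285, .ofNat 17955],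
    [.ofNat 0, .ofNat 0, .ofNat 0, .ofNat 0, .negSucc 143559, .ofNat 738330, .ofNat 6399748,
      .negSucc 38601879, .ofNat 57340978, .negSucc 11923791, .negSucc 31121249, .ofNat 18774128,
      .ofNat 845810, .negSucc 2106749, .ofNat 627750, .ofNat 7560],
    [.ofNat 0, .ofNat 0, .ofNat 0, .ofNat 0, .ofNat 0, .negSucc 237964, .ofNat 2812578, .negSucc
      9406236, .ofNat 4426636, .ofNat 22113651, .negSucc 31201786, .ofNat 4676793, .ofNat
      12855985, .negSucc 5566064, .negSucc 214739, .negSucc 1889],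
    [.ofNat 0, .ofNat 0, .ofNat 0, .ofNat 0, .ofNat 0, .ofNat 0, .negSucc 35561, .ofNat 695538,
      .negSucc 5101565, .ofNat 13391334, .negSucc 10652723, .negSucc 5801183, .ofNat 9537960,
      .negSucc 387089, .negSucc 1943729, .negSucc 22679],
    [.ofNat 0, .ofNat 0, .ofNat 0, .ofNat 0, .ofNat 0, .ofNat 0, .ofNat 0, .ofNat 58197, .negSucc
      618137, .ofNat 1401719, .ofNat 1101042, .negSucc 5185462, .ofNat 2575875, .ofNat 1788615,
      .negSucc 1436534, .negSucc 17009],
    [.ofNat 0, .ofNat 0, .ofNat 0, .ofNat 0, .ofNat 0, .ofNat 0, .ofNat 0, .ofNat 0, .ofNat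
      21708, .negSucc 263303, .ofNat 985708, .negSucc 1296863, .ofNat 221150, .ofNat 530250,
      .negSucc 317339, .negSucc 3779],
    [.ofNat 0, .ofNat 0, .ofNat 0, .ofNat 0, .ofNat 0, .ofNat 0, .ofNat 0, .ofNat 0, .ofNat 0,
      .ofNat 0, .ofNat 0, .ofNat 0, .ofNat 0, .negSucc 16874]]

def duevA : P2 :=
  [[.ofNat 33080, .ofNat 0, .ofNat 1400, .ofNat 0, .ofNat 2100],
    [.ofNat 162480, .ofNat 66160, .ofNat 80400, .ofNat 2800, .negSucc 23399, .ofNat 4200],
    [.ofNat 325084, .ofNat 132243, .ofNat 2191348, .negSucc 5200646, .ofNat 5554794, .negSucc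
      167549, .negSucc 3437594, .ofNat 1543185, .ofNat 8505],
    [.ofNat 322424, .ofNat 668522, .ofNat 333566, .ofNat 4760366, .negSucc 13769177, .ofNat
      15473744, .negSucc 2388269, .negSucc 7968359, .ofNat 3934440, .ofNat 32130],
    [.ofNat 156948, .ofNat 1250530, .negSucc 4845965, .ofNat 17617924, .negSucc 17495903,
      .negSucc 5471865, .ofNat 17198890, .negSucc 7114624, .negSucc 2975429, .ofNat 1822680,
      .ofNat 28350],
    [.ofNat 30208, .ofNat 846162, .negSucc 3736171, .ofNat 3856254, .ofNat 27388782, .negSucc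
      69205951, .ofNat 47448952, .ofNat 339696, .negSucc 18802599, .ofNat 13732890, .negSucc
      4522409, .negSucc 32129],
    [.ofNat 0, .ofNat 198071, .negSucc 487241, .negSucc 6483374, .ofNat 32395482, .negSucc
      42372837, .negSucc 24903234, .ofNat 76150433, .negSucc 39599188, .negSucc 11955119, .ofNat
      18791580, .negSucc 5515739, .negSucc 60479],
    [.ofNat 0, .ofNat 0, .ofNat 181746, .negSucc 2590103, .ofNat 4107986, .ofNat 21589236,
      .negSucc 98340205, .ofNat 110252784, .negSucc 7318995, .negSucc 53647125, .ofNat 25127150,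
      .negSucc 775949, .ofNat 371430, .negSucc 5669],
    [.ofNat 0, .ofNat 0, .ofNat 0, .ofNat 95414, .negSucc 2868695, .ofNat 16181354, .negSucc
      36632507, .negSucc 6755822, .ofNat 101784422, .negSucc 88893987, .negSucc 2121425, .ofNat
      33788500, .negSucc 14874989, .ofNat 2971890, .ofNat 32130],
    [.ofNat 0, .ofNat 0, .ofNat 0, .ofNat 0, .negSucc 116413, .negSucc 39059, .ofNat 9228762,
      .negSucc 51708083, .ofNat 94567480, .negSucc 37990433, .negSucc 50237935, .ofNat 45815410,
      .ofNat 367170, .negSucc 7385129, .ofNat 518130, .ofNat 9450],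
    [.ofNat 0, .ofNat 0, .ofNat 0, .ofNat 0, .ofNat 0, .negSucc 346931, .ofNat 3569772, .negSucc
      10397791, .ofNat 555264, .ofNat 51905507, .negSucc 77546131, .ofNat 20178307, .ofNat
      28788146, .negSucc 17274199, .ofNat 1982415, .negSucc 827684, .negSucc 8504],
    [.ofNat 0, .ofNat 0, .ofNat 0, .ofNat 0, .ofNat 0, .ofNat 0, .negSucc 153913, .ofNat 2548008,
      .negSucc 12814129, .ofNat 29970562, .negSucc 23905217, .negSucc 13719579, .ofNat 26995678,
      .negSucc 6431153, .negSucc 5560119, .ofNat 2377230, .negSucc 301589, .negSucc 3779],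
    [.ofNat 0, .ofNat 0, .ofNat 0, .ofNat 0, .ofNat 0, .ofNat 0, .ofNat 0, .ofNat 38666, .negSucc
      149003, .negSucc 1560843, .ofNat 10422122, .negSucc 22549933, .ofNat 15882946, .ofNat
      4265966, .negSucc 10297679, .ofNat 2717325, .ofNat 511920, .ofNat 5670],
    [.ofNat 0, .ofNat 0, .ofNat 0, .ofNat 0, .ofNat 0, .ofNat 0, .ofNat 0, .ofNat 0, .ofNat
      58374, .negSucc 765005, .ofNat 2891130, .negSucc 4376489, .negSucc 218133, .ofNat 5802906,
      .negSucc 3198919, .negSucc 1553369, .ofNat 1280070, .ofNat 15120],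
    [.ofNat 0, .ofNat 0, .ofNat 0, .ofNat 0, .ofNat 0, .ofNat 0, .ofNat 0, .ofNat 0, .ofNat 0,
      .ofNat 14781, .negSucc 221777, .ofNat 1010127, .negSucc 2219477, .ofNat 2017296, .ofNat
      53475, .negSucc 1028204, .ofNat 475065, .ofNat 5670],
    [.ofNat 0, .ofNat 0, .ofNat 0, .ofNat 0, .ofNat 0, .ofNat 0, .ofNat 0, .ofNat 0, .ofNat 0,
      .ofNat 0, .ofNat 0, .ofNat 0, .ofNat 0, .ofNat 0, .ofNat 11250, .ofNat 33750],
    [.ofNat 0, .ofNat 0, .ofNat 0, .ofNat 0, .ofNat 0, .ofNat 0, .ofNat 0, .ofNat 0, .ofNat 0,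
      .ofNat 0, .ofNat 0, .ofNat 0, .ofNat 0, .ofNat 0, .ofNat 0, .ofNat 5625]]

def dX00 : P2 :=
  [[],
    [],
    [.ofNat 595440, .ofNat 0, .ofNat 25200, .ofNat 0, .ofNat 37800],
    [.ofNat 4168080, .ofNat 1190880, .ofNat 176400, .ofNat 50400, .ofNat 264600, .ofNat 75600],
    [.ofNat 14748440, .negSucc 1299689, .ofNat 90026840, .negSucc 267719549, .ofNat 287867700,
      .negSucc 5508299, .negSucc 171715949, .ofNat 77159250, .ofNat 425250],
    [.ofNat 31619240, .ofNat 46621162, .negSucc 171744555, .ofNat 650457214, .negSucc 1186427855,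
      .ofNat 900007332, .ofNat 115522950, .negSucc 548454509, .ofNat 214682130, .ofNat 1939140],
    [.ofNat 45054744, .ofNat 104865352, .negSucc 355496119, .ofNat 798438094, .ofNat 90168100,
      .negSucc 2105275237, .ofNat 1906915044, .ofNat 183364490, .negSucc 881335829, .ofNat
      276917490, .ofNat 2791530],
    [.ofNat 41963048, .ofNat 126303576, .negSucc 252208835, .ofNat 138002282, .ofNat 2477334664,
      .negSucc 5568703953, .ofNat 3069425108, .ofNat 1662363170, .negSucc 2189223529, .ofNat
      494923170, .ofNat 24121710, .ofNat 378000],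
    [.ofNat 24433664, .ofNat 98921314, .negSucc 30696411, .negSucc 187786313, .ofNat 1522025856,
      .negSucc 119837359, .negSucc 7153515953, .ofNat 9352396478, .negSucc 1541253025, .negSucc
      3859516009, .ofNat 1981937640, .negSucc 124736039, .negSucc 1810619],
    [.ofNat 8064000, .ofNat 51345118, .ofNat 68132464, .ofNat 9367162, .negSucc 464331619, .ofNat
      3588647544, .negSucc 6846280237, .ofNat 1477981374, .ofNat 6163789626, .negSucc 3874219705,
      .negSucc 1419791879, .ofNat 1097017200, .ofNat 96384420, .ofNat 476280],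
    [.ofNat 1152000, .ofNat 16128000, .ofNat 49974844, .ofNat 129385338, .negSucc 677791759,
      .ofNat 1599066990, .ofNat 1310837244, .negSucc 10038932089, .ofNat 12951918378, .negSucc
      4187488021, .negSucc 3721385669, .ofNat 3479768240, .negSucc 1124758739, .ofNat 217759860,
      .ofNat 2513700],
    [.ofNat 0, .ofNat 2304000, .ofNat 16128000, .ofNat 69056190, .negSucc 132878043, .negSucc
      197454533, .ofNat 2582309780, .negSucc 4915933025, .ofNat 294771102, .ofNat 7767792642,
      .negSucc 7356649201, .ofNat 92509544, .ofNat 2912379380, .negSucc 1126106939, .ofNat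
      5394060, .ofNat 438480],
    [.ofNat 0, .ofNat 0, .ofNat 2304000, .ofNat 16128000, .ofNat 29052608, .negSucc 140313003,
      .ofNat 275660072, .ofNat 975877916, .negSucc 4778745083, .ofNat 7193836928, .negSucc
      4152542987, .negSucc 661968161, .ofNat 2005927280, .negSucc 1085348399, .ofNat 391102290,
      .negSucc 115521389, .negSucc 1275749],
    [.ofNat 0, .ofNat 0, .ofNat 0, .ofNat 2304000, .ofNat 8064000, .ofNat 16807820, .negSucc
      181624127, .ofNat 616493732, .negSucc 842247359, .negSucc 391664655, .ofNat 2997113336,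
      .negSucc 4522718373, .ofNat 2704838468, .ofNat 538806624, .negSucc 1683329689, .ofNat
      689752290, .negSucc 27431189, .negSucc 449819],
    [.ofNat 0, .ofNat 0, .ofNat 0, .ofNat 0, .ofNat 1152000, .ofNat 0, .ofNat 403416, .negSucc
      60018859, .ofNat 339116568, .negSucc 903076283, .ofNat 1453784032, .negSucc 1475618517,
      .ofNat 442160584, .ofNat 714039566, .negSucc 669433975, .ofNat 34149370, .ofNat 64870050,
      .ofNat 25512570, .ofNat 258930],
    [.ofNat 0, .ofNat 0, .ofNat 0, .ofNat 0, .ofNat 0, .ofNat 0, .ofNat 0, .ofNat 1312444,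
      .negSucc 10388431, .ofNat 47654860, .negSucc 143645979, .ofNat 357650662, .negSucc
      839851563, .ofNat 1150146994, .negSucc 594316735, .negSucc 253302781, .ofNat 445782590,
      .negSucc 153243029, .ofNat 8809830, .ofNat 120960],
    [.ofNat 0, .ofNat 0, .ofNat 0, .ofNat 0, .ofNat 0, .ofNat 0, .ofNat 0, .ofNat 0, .ofNat
      194080, .negSucc 2585973, .ofNat 3033172, .ofNat 33773358, .negSucc 154218135, .ofNat
      209374088, .ofNat 31941542, .negSucc 238527293, .ofNat 123493790, .ofNat 65611590, .negSucc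
      48399659, .negSucc 570779],
    [.ofNat 0, .ofNat 0, .ofNat 0, .ofNat 0, .ofNat 0, .ofNat 0, .ofNat 0, .ofNat 0, .ofNat 0,
      .ofNat 67478, .negSucc 1499471, .ofNat 9736226, .negSucc 24237027, .ofNat 9762864, .ofNat
      77064034, .negSucc 106619573, .ofNat 23064210, .ofNat 45039510, .negSucc 25802819, .negSucc
      306179],
    [.ofNat 0, .ofNat 0, .ofNat 0, .ofNat 0, .ofNat 0, .ofNat 0, .ofNat 0, .ofNat 0, .ofNat 0,
      .ofNat 0, .negSucc 59123, .ofNat 680178, .negSucc 935615, .negSucc 5263865, .ofNat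
      23948508, .negSucc 25587293, .ofNat 394170, .ofNat 10132110, .negSucc 6673589, .negSucc
      79379],
    [.ofNat 0, .ofNat 0, .ofNat 0, .ofNat 0, .ofNat 0, .ofNat 0, .ofNat 0, .ofNat 0, .ofNat 0,
      .ofNat 0, .ofNat 0, .negSucc 29561, .ofNat 443556, .negSucc 2020253, .ofNat 4438956,
      .negSucc 3663341, .negSucc 1389449, .ofNat 98910, .negSucc 950129, .negSucc 11339],
    [.ofNat 0, .ofNat 0, .ofNat 0, .ofNat 0, .ofNat 0, .ofNat 0, .ofNat 0, .ofNat 0, .ofNat 0,
      .ofNat 0, .ofNat 0, .ofNat 0, .ofNat 0, .ofNat 0, .ofNat 0, .ofNat 0, .negSucc 202499,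
      .negSucc 708749],
    [.ofNat 0, .ofNat 0, .ofNat 0, .ofNat 0, .ofNat 0, .ofNat 0, .ofNat 0, .ofNat 0, .ofNat 0,
      .ofNat 0, .ofNat 0, .ofNat 0, .ofNat 0, .ofNat 0, .ofNat 0, .ofNat 0, .ofNat 0, .negSucc
      101249]]

def dX10 : P2 :=
  [[],
    [],
    [],
    [.negSucc 1058559, .ofNat 0, .negSucc 44799, .ofNat 0, .negSucc 67199],
    [.negSucc 5969919, .negSucc 2117119, .negSucc 3193599, .negSucc 89599, .ofNat 969600,
      .negSucc 134399],
    [.negSucc 14304191, .negSucc 2689423, .negSucc 106658623, .ofNat 250962256, .negSucc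
      266906911, .ofNat 7735200, .ofNat 164870160, .negSucc 74072879, .negSucc 408239],
    [.negSucc 18055743, .negSucc 29636207, .negSucc 34279007, .negSucc 236054607, .ofNat
      680055616, .negSucc 778273759, .ofNat 133174320, .ofNat 390857040, .negSucc 195637679,
      .negSucc 1663199],
    [.negSucc 12624063, .negSucc 75021967, .ofNat 273479392, .negSucc 1141149167, .ofNat
      1002641856, .ofNat 595281440, .negSucc 1367827119, .ofNat 441209840, .ofNat 386023920,
      .negSucc 201967199, .negSucc 2116799],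
    [.negSucc 4686143, .negSucc 73262191, .ofNat 315083904, .negSucc 700807887, .negSucc
      1591996255, .ofNat 4642929952, .negSucc 2833914223, .negSucc 1054792911, .ofNat 1718780560,
      .negSucc 441141119, .ofNat 1005120, .negSucc 181439],
    [.negSucc 724991, .negSucc 33159071, .ofNat 116174848, .ofNat 114936832, .negSucc 2506185983,
      .ofNat 3085220992, .ofNat 2432837312, .negSucc 5657130191, .ofNat 1802774816, .ofNat
      1648465280, .negSucc 1010892479, .ofNat 107004960, .ofNat 1300320],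
    [.ofNat 0, .negSucc 5854943, .negSucc 1661151, .ofNat 174210048, .negSucc 647762815, .negSucc
      1790165631, .ofNat 6815926304, .negSucc 5036705295, .negSucc 2213512511, .ofNat 3675306688,
      .negSucc 375998079, .negSucc 443450879, .negSucc 12241439, .ofNat 120960],
    [.ofNat 0, .ofNat 0, .negSucc 7000671, .negSucc 7695391, .ofNat 358874816, .negSucc
      1891903391, .ofNat 2121285376, .ofNat 3012567536, .negSucc 7081128671, .ofNat 3029021696,
      .ofNat 1939084000, .negSucc 1658979199, .ofNat 326530560, .negSucc 82529279, .negSucc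
      907199],
    [.ofNat 0, .ofNat 0, .ofNat 0, .negSucc 20203423, .ofNat 137957792, .negSucc 142947231,
      .negSucc 1351038975, .ofNat 4291338928, .negSucc 3868263807, .negSucc 1062991903, .ofNat
      3425303520, .negSucc 1148947679, .negSucc 575661759, .ofNat 309109920, .negSucc 19310399,
      .negSucc 302399],
    [.ofNat 0, .ofNat 0, .ofNat 0, .ofNat 0, .negSucc 9132639, .ofNat 130632416, .negSucc
      529520831, .ofNat 520844864, .ofNat 1334945952, .negSucc 3705910415, .ofNat 2797075552,
      .ofNat 369877616, .negSucc 1439207711, .ofNat 500626560, .negSucc 15927119, .ofNat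
      18763920, .ofNat 196560],
    [.ofNat 0, .ofNat 0, .ofNat 0, .ofNat 0, .ofNat 0, .negSucc 4442271, .ofNat 58552288,
      .negSucc 355490431, .ofNat 989616192, .negSucc 1194502223, .ofNat 56843552, .ofNat
      1210388912, .negSucc 900794751, .negSucc 60500063, .ofNat 287065680, .negSucc 84908879,
      .ofNat 6935760, .ofNat 90720],
    [.ofNat 0, .ofNat 0, .ofNat 0, .ofNat 0, .ofNat 0, .ofNat 0, .ofNat 1054816, .negSucc
      7108191, .negSucc 25461631, .ofNat 268569264, .negSucc 741707839, .ofNat 895174768,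
      .negSucc 307511391, .negSucc 330345247, .ofNat 345861840, .negSucc 56576879, .negSucc
      23952239, .negSucc 272159],
    [.ofNat 0, .ofNat 0, .ofNat 0, .ofNat 0, .ofNat 0, .ofNat 0, .ofNat 0, .ofNat 1103648,
      .negSucc 14006111, .ofNat 59889296, .negSucc 108099327, .ofNat 47282864, .ofNat 143312864,
      .negSucc 209001343, .ofNat 50105360, .ofNat 78074160, .negSucc 43344719, .negSucc 514079],
    [.ofNat 0, .ofNat 0, .ofNat 0, .ofNat 0, .ofNat 0, .ofNat 0, .ofNat 0, .ofNat 0, .ofNat
      230496, .negSucc 3281087, .ofNat 17612352, .negSucc 47986367, .ofNat 73503136, .negSucc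
      47662559, .negSucc 12246879, .ofNat 29325840, .negSucc 12653279, .negSucc 151199],
    [.ofNat 0, .ofNat 0, .ofNat 0, .ofNat 0, .ofNat 0, .ofNat 0, .ofNat 0, .ofNat 0, .ofNat 0,
      .ofNat 0, .ofNat 0, .ofNat 0, .ofNat 0, .ofNat 360000, .negSucc 1259999, .negSucc 1889999],
    [.ofNat 0, .ofNat 0, .ofNat 0, .ofNat 0, .ofNat 0, .ofNat 0, .ofNat 0, .ofNat 0, .ofNat 0,
      .ofNat 0, .ofNat 0, .ofNat 0, .ofNat 0, .ofNat 0, .negSucc 179999, .negSucc 629999],
    [.ofNat 0, .ofNat 0, .ofNat 0, .ofNat 0, .ofNat 0, .ofNat 0, .ofNat 0, .ofNat 0, .ofNat 0,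
      .ofNat 0, .ofNat 0, .ofNat 0, .ofNat 0, .ofNat 0, .ofNat 0, .negSucc 89999]]

def dX20 : P2 :=
  [[],
    [],
    [.ofNat 1572, .ofNat 2890755, .negSucc 27356627, .ofNat 80421705, .negSucc 86102009, .ofNat
      1811250, .ofNat 51480765, .negSucc 23147774, .negSucc 127574],
    [.ofNat 694524, .negSucc 7953314, .ofNat 76151226, .negSucc 274461608, .ofNat 444210492,
      .negSucc 281720213, .negSucc 79215344, .ofNat 189281025, .negSucc 66317534, .negSucc
      618029],
    [.ofNat 1878232, .negSucc 9247094, .ofNat 86482200, .negSucc 137205813, .negSucc 310667259,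
      .ofNat 970194111, .negSucc 689018582, .negSucc 184011199, .ofNat 390261360, .negSucc
      113281154, .negSucc 1042334],
    [.ofNat 2730280, .negSucc 10348584, .ofNat 122948340, .negSucc 168612237, .negSucc 586448999,
      .ofNat 1561892545, .negSucc 834430784, .negSucc 663625771, .ofNat 713457950, .negSucc
      58059884, .negSucc 60119324, .negSucc 559439],
    [.ofNat 2027172, .negSucc 256710, .ofNat 48400678, .ofNat 66851944, .negSucc 479055577,
      .negSucc 351103084, .ofNat 3099576893, .negSucc 3492983489, .ofNat 174923222, .ofNat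
      1653095450, .negSucc 672446504, .negSucc 7488899, .ofNat 115290],
    [.ofNat 772924, .ofNat 5146407, .ofNat 596506, .ofNat 90245268, .negSucc 24392029, .negSucc
      685370410, .ofNat 705986583, .ofNat 1780019586, .negSucc 3079848689, .ofNat 528340538,
      .ofNat 1336302285, .negSucc 565277039, .negSucc 36514349, .negSucc 238139],
    [.ofNat 120832, .ofNat 3261947, .negSucc 1460291, .negSucc 1781385, .ofNat 316207232,
      .negSucc 717894424, .negSucc 205451900, .ofNat 2798220792, .negSucc 3426813197, .ofNat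
      736770474, .ofNat 1181279169, .negSucc 822031939, .ofNat 230394360, .negSucc 56333069,
      .negSucc 648269],
    [.ofNat 0, .ofNat 654629, .ofNat 3334024, .negSucc 26394113, .ofNat 198119572, .negSucc
      262048470, .ofNat 153820453, .negSucc 552586003, .ofNat 2494807142, .negSucc 4267431353,
      .ofNat 2179360587, .ofNat 1187417692, .negSucc 1538272699, .ofNat 395951430, .negSucc
      2652209, .negSucc 120959],
    [.ofNat 0, .ofNat 0, .ofNat 1309258, .negSucc 5917744, .ofNat 49136256, .negSucc 118848600,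
      .ofNat 386144262, .negSucc 43399920, .negSucc 1606998494, .ofNat 2139793755, .negSucc
      803583190, .negSucc 638661304, .ofNat 782886058, .negSucc 187791449, .negSucc 87944804,
      .ofNat 28141425, .ofNat 314685],
    [.ofNat 0, .ofNat 0, .ofNat 0, .ofNat 799717, .ofNat 13041158, .negSucc 79100042, .ofNat
      43807414, .ofNat 1097580711, .negSucc 3024175746, .ofNat 2108079767, .ofNat 282723657,
      .ofNat 30597993, .negSucc 941334999, .negSucc 58572977, .ofNat 670805465, .negSucc
      240883454, .ofNat 6673725, .ofNat 115290],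
    [.ofNat 0, .ofNat 0, .ofNat 0, .ofNat 0, .ofNat 4524992, .negSucc 15874801, .negSucc
      125939567, .ofNat 679603292, .negSucc 600664797, .negSucc 2228218497, .ofNat 4737537918,
      .negSucc 2655676981, .negSucc 494471015, .ofNat 1053599395, .negSucc 576810756, .ofNat
      269540360, .negSucc 34659479, .negSucc 6364574, .negSucc 63314],
    [.ofNat 0, .ofNat 0, .ofNat 0, .ofNat 0, .ofNat 0, .ofNat 3384322, .negSucc 41110847, .ofNat
      36582108, .ofNat 565500664, .negSucc 2047201037, .ofNat 2016609526, .ofNat 983598314,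
      .negSucc 2474303403, .ofNat 534883741, .ofNat 896923357, .negSucc 344687091, .negSucc
      112078369, .ofNat 52780935, .negSucc 2050784, .negSucc 30239],
    [.ofNat 0, .ofNat 0, .ofNat 0, .ofNat 0, .ofNat 0, .ofNat 0, .ofNat 2835204, .negSucc
      43643345, .ofNat 212442396, .negSucc 314547632, .negSucc 564684437, .ofNat 2356076278,
      .negSucc 2275174303, .ofNat 106937421, .ofNat 899275351, .negSucc 329151423, .ofNat
      53966650, .negSucc 82410449, .ofNat 17529345, .ofNat 213570],
    [.ofNat 0, .ofNat 0, .ofNat 0, .ofNat 0, .ofNat 0, .ofNat 0, .ofNat 0, .negSucc 529301,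
      .negSucc 3052919, .ofNat 102422841, .negSucc 478100225, .ofNat 859405162, .negSucc
      203985075, .negSucc 1035140576, .ofNat 977508585, .negSucc 1283775, .negSucc 340507969,
      .ofNat 120092430, .negSucc 10631924, .negSucc 137969],
    [.ofNat 0, .ofNat 0, .ofNat 0, .ofNat 0, .ofNat 0, .ofNat 0, .ofNat 0, .ofNat 0, .negSucc
      1588847, .ofNat 19835223, .negSucc 60064619, .negSucc 786929, .ofNat 370504508, .negSucc
      712621400, .ofNat 340287495, .ofNat 259155252, .negSucc 297040189, .ofNat 23266740, .ofNat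
      33680475, .ofNat 389340],
    [.ofNat 0, .ofNat 0, .ofNat 0, .ofNat 0, .ofNat 0, .ofNat 0, .ofNat 0, .ofNat 0, .ofNat 0,
      .negSucc 490022, .ofNat 8277384, .negSucc 48171449, .ofNat 128520876, .negSucc 145487870,
      .negSucc 44938622, .ofNat 200889096, .negSucc 92221169, .negSucc 55456739, .ofNat 41266665,
      .ofNat 487620],
    [.ofNat 0, .ofNat 0, .ofNat 0, .ofNat 0, .ofNat 0, .ofNat 0, .ofNat 0, .ofNat 0, .ofNat 0,
      .ofNat 0, .ofNat 147810, .negSucc 1700444, .ofNat 2339040, .ofNat 13159665, .negSucc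
      58431269, .ofNat 68063235, .negSucc 6621674, .negSucc 29937149, .ofNat 16683975, .ofNat
      198450],
    [.ofNat 0, .ofNat 0, .ofNat 0, .ofNat 0, .ofNat 0, .ofNat 0, .ofNat 0, .ofNat 0, .ofNat 0,
      .ofNat 0, .ofNat 0, .ofNat 73905, .negSucc 1108889, .ofNat 5050635, .negSucc 11097389,
      .ofNat 9743355, .ofNat 1583625, .negSucc 3065399, .ofNat 2375325, .ofNat 28350],
    [.ofNat 0, .ofNat 0, .ofNat 0, .ofNat 0, .ofNat 0, .ofNat 0, .ofNat 0, .ofNat 0, .ofNat 0,
      .ofNat 0, .ofNat 0, .ofNat 0, .ofNat 0, .ofNat 0, .ofNat 0, .ofNat 0, .ofNat 236250, .ofNat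
      826875],
    [.ofNat 0, .ofNat 0, .ofNat 0, .ofNat 0, .ofNat 0, .ofNat 0, .ofNat 0, .ofNat 0, .ofNat 0,
      .ofNat 0, .ofNat 0, .ofNat 0, .ofNat 0, .ofNat 0, .ofNat 0, .ofNat 0, .ofNat 0, .ofNat
      118125]]

def dX11 : P2 :=
  [[.negSucc 595439, .ofNat 0, .negSucc 25199, .ofNat 0, .negSucc 37799],
    [.negSucc 4168079, .negSucc 1190879, .negSucc 176399, .negSucc 50399, .negSucc 264599,
      .negSucc 75599],
    [.negSucc 12634463, .negSucc 4481819, .negSucc 35223983, .ofNat 106876140, .negSucc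
      115529279, .ofNat 1885800, .ofNat 68754420, .negSucc 30863699, .negSucc 170099],
    [.negSucc 21068447, .negSucc 26480291, .ofNat 25829304, .negSucc 101354795, .ofNat 296067672,
      .negSucc 336298103, .ofNat 42907740, .ofNat 169892460, .negSucc 82047059, .negSucc 703079],
    [.negSucc 20962463, .negSucc 58508663, .ofNat 183042528, .negSucc 400448827, .ofNat
      395248944, .ofNat 163504116, .negSucc 458212247, .ofNat 152765420, .ofNat 100637340,
      .negSucc 50355179, .negSucc 706859],
    [.negSucc 12528479, .negSucc 59618183, .ofNat 201389064, .negSucc 71968147, .negSucc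
      785175783, .ofNat 2027446620, .negSucc 1495114727, .negSucc 86158035, .ofNat 671786980,
      .negSucc 379638779, .ofNat 96116940, .ofNat 740880],
    [.negSucc 4168079, .negSucc 32508683, .ofNat 108243288, .ofNat 300979540, .negSucc
      1156598103, .ofNat 1463861176, .ofNat 736782180, .negSucc 2693646587, .ofNat 1367969812,
      .ofNat 554608780, .negSucc 637590839, .ofNat 139713840, .ofNat 1580040],
    [.negSucc 595439, .negSucc 9400691, .ofNat 38703552, .ofNat 254453260, .negSucc 314563503,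
      .negSucc 946307527, .ofNat 3699961468, .negSucc 4137339419, .ofNat 305731404, .ofNat
      2025610540, .negSucc 928359719, .ofNat 36122400, .negSucc 23355719],
    [.ofNat 0, .negSucc 1190879, .ofNat 11495208, .ofNat 95368572, .ofNat 113919968, .negSucc
      1189073451, .ofNat 1722096352, .ofNat 391136900, .negSucc 4299619475, .ofNat 3883976004,
      .negSucc 3471107, .negSucc 1500662079, .ofNat 667973040, .negSucc 105093719, .negSucc
      1217159],
    [.ofNat 0, .ofNat 0, .ofNat 1786320, .ofNat 26459028, .ofNat 30110712, .negSucc 337020627,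
      .negSucc 639532319, .ofNat 3104498948, .negSucc 4804963483, .ofNat 1882387236, .ofNat
      2458839108, .negSucc 2261862447, .negSucc 7146639, .ofNat 333334680, .negSucc 89639,
      .negSucc 196559],
    [.ofNat 0, .ofNat 0, .ofNat 0, .ofNat 4763520, .negSucc 12020111, .negSucc 69382055, .negSucc
      511240703, .ofNat 1233911704, .negSucc 93087415, .negSucc 3248506167, .ofNat 4707809160,
      .negSucc 1415227067, .negSucc 1514047095, .ofNat 1090339200, .negSucc 219465179, .ofNat
      59238540, .ofNat 646380],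
    [.ofNat 0, .ofNat 0, .ofNat 0, .ofNat 0, .negSucc 1190879, .negSucc 44094455, .negSucc
      51247727, .negSucc 9932983, .ofNat 1346308624, .negSucc 2780784759, .ofNat 2054770624,
      .ofNat 899198220, .negSucc 2097584447, .ofNat 691525152, .ofNat 361803340, .negSucc
      208484339, .ofNat 14083740, .ofNat 219240],
    [.ofNat 0, .ofNat 0, .ofNat 0, .ofNat 0, .ofNat 0, .negSucc 7145279, .negSucc 2396447, .ofNat
      19207560, .ofNat 346777648, .negSucc 181403135, .negSucc 1024351039, .ofNat 2330207228,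
      .negSucc 1751411495, .negSucc 194313395, .ofNat 937778080, .negSucc 347860819, .ofNat
      6911580, .negSucc 12783419, .negSucc 132299],
    [.ofNat 0, .ofNat 0, .ofNat 0, .ofNat 0, .ofNat 0, .ofNat 0, .negSucc 1190879, .ofNat
      36313848, .negSucc 4782047, .ofNat 206214048, .negSucc 674508903, .ofNat 811872404,
      .negSucc 153884463, .negSucc 700951979, .ofNat 599779152, .ofNat 1478476, .negSucc
      169567419, .ofNat 48508980, .negSucc 4708259, .negSucc 60479],
    [.ofNat 0, .ofNat 0, .ofNat 0, .ofNat 0, .ofNat 0, .ofNat 0, .ofNat 0, .ofNat 4763520, .ofNat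
      11312928, .negSucc 13381067, .negSucc 30546903, .negSucc 126733035, .ofNat 430103960,
      .negSucc 582647575, .ofNat 250929732, .ofNat 173789772, .negSucc 227810139, .ofNat
      48764940, .ofNat 12817440, .ofNat 143640],
    [.ofNat 0, .ofNat 0, .ofNat 0, .ofNat 0, .ofNat 0, .ofNat 0, .ofNat 0, .ofNat 0, .ofNat
      1786320, .negSucc 9336851, .ofNat 656304, .negSucc 58136019, .ofNat 110891200, .negSucc
      98836807, .negSucc 33258483, .ofNat 134837820, .negSucc 69442019, .negSucc 34267859, .ofNat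
      28840320, .ofNat 340200],
    [.ofNat 0, .ofNat 0, .ofNat 0, .ofNat 0, .ofNat 0, .ofNat 0, .ofNat 0, .ofNat 0, .ofNat 0,
      .negSucc 1190879, .negSucc 4223495, .ofNat 695676, .negSucc 6190831, .ofNat 20827044,
      .negSucc 48706815, .ofNat 50406588, .negSucc 3919619, .negSucc 24958979, .ofNat 13347180,
      .ofNat 158760],
    [.ofNat 0, .ofNat 0, .ofNat 0, .ofNat 0, .ofNat 0, .ofNat 0, .ofNat 0, .ofNat 0, .ofNat 0,
      .ofNat 0, .negSucc 595439, .ofNat 59124, .negSucc 912311, .ofNat 4040508, .negSucc 8915711,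
      .ofNat 7938684, .ofNat 888900, .negSucc 3032819, .ofNat 1900260, .ofNat 22680],
    [.ofNat 0, .ofNat 0, .ofNat 0, .ofNat 0, .ofNat 0, .ofNat 0, .ofNat 0, .ofNat 0, .ofNat 0,
      .ofNat 0, .ofNat 0, .ofNat 0, .ofNat 0, .ofNat 0, .ofNat 0, .ofNat 0, .ofNat 135000, .ofNat
      472500],
    [.ofNat 0, .ofNat 0, .ofNat 0, .ofNat 0, .ofNat 0, .ofNat 0, .ofNat 0, .ofNat 0, .ofNat 0,
      .ofNat 0, .ofNat 0, .ofNat 0, .ofNat 0, .ofNat 0, .ofNat 0, .ofNat 0, .ofNat 0, .ofNat
      67500]]

def dX21 : P2 :=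
  [[],
    [],
    [],
    [.ofNat 347264, .negSucc 10278239, .ofNat 97282944, .negSucc 285943839, .ofNat 306162880,
      .negSucc 6439999, .negSucc 183042719, .ofNat 82303200, .ofNat 453600],
    [.ofNat 722048, .negSucc 773791, .ofNat 5758848, .ofNat 149709728, .negSucc 643950399, .ofNat
      872733120, .negSucc 186171039, .negSucc 410847839, .ofNat 215604000, .ofNat 1814400],
    [.ofNat 543744, .ofNat 38886256, .negSucc 338769631, .ofNat 1056795696, .negSucc 1064905375,
      .negSucc 386487359, .ofNat 1383358480, .negSucc 537270879, .negSucc 363161519, .ofNat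
      216100800, .ofNat 2268000],
    [.ofNat 197120, .ofNat 49395216, .negSucc 388499935, .ofNat 610912976, .ofNat 1550904928,
      .negSucc 4530067967, .ofNat 3022307024, .ofNat 957988192, .negSucc 1759212719, .ofNat
      486388800, .negSucc 4295519, .ofNat 181440],
    [.ofNat 28160, .ofNat 24327856, .negSucc 155059103, .negSucc 218969743, .ofNat 2529591200,
      .negSucc 3005855903, .negSucc 2305727119, .ofNat 5710137536, .negSucc 1896699343, .negSucc
      1622785599, .ofNat 1042471680, .negSucc 123259679, .negSucc 1421279],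
    [.ofNat 0, .ofNat 4314448, .negSucc 8676703, .negSucc 227405295, .ofNat 597306944, .ofNat
      2019257568, .negSucc 6858302479, .ofNat 5083028992, .ofNat 2247898832, .negSucc 3755927199,
      .ofNat 441077760, .ofNat 453455040, .negSucc 10409759, .negSucc 302399],
    [.ofNat 0, .ofNat 0, .ofNat 5128000, .ofNat 1676352, .negSucc 430662175, .ofNat 2042204544,
      .negSucc 1968769855, .negSucc 3327092287, .ofNat 7313781280, .negSucc 3069293599, .negSucc
      2016209919, .ofNat 1761327040, .negSucc 354554399, .ofNat 68335200, .ofNat 756000],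
    [.ofNat 0, .ofNat 0, .ofNat 0, .ofNat 20341056, .negSucc 152755679, .ofNat 112508992, .ofNat
      1661035456, .negSucc 4658037759, .ofNat 3836356576, .ofNat 1420744864, .negSucc 3688876159,
      .ofNat 1172524640, .ofNat 653034720, .negSucc 354515519, .ofNat 22600800, .ofNat 302400],
    [.ofNat 0, .ofNat 0, .ofNat 0, .ofNat 0, .ofNat 11319264, .negSucc 164582623, .ofNat
      645256512, .negSucc 501106879, .negSucc 1818520671, .ofNat 4278229088, .negSucc 2857352927,
      .negSucc 651681055, .ofNat 1590512512, .negSucc 510235519, .ofNat 2762400, .negSucc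
      10739519, .negSucc 120959],
    [.ofNat 0, .ofNat 0, .ofNat 0, .ofNat 0, .ofNat 0, .ofNat 4406944, .negSucc 71720095, .ofNat
      492536960, .negSucc 1351414655, .ofNat 1346256000, .ofNat 345433856, .negSucc 1627609279,
      .ofNat 900204736, .ofNat 179811296, .negSucc 331055199, .ofNat 95218080, .negSucc 4250879,
      .negSucc 60479],
    [.ofNat 0, .ofNat 0, .ofNat 0, .ofNat 0, .ofNat 0, .ofNat 0, .negSucc 3926431, .ofNat
      34376576, .negSucc 4559295, .negSucc 475869295, .ofNat 1181497344, .negSucc 1066736079,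
      .ofNat 94992608, .ofNat 496481152, .negSucc 346353679, .ofNat 36147360, .ofNat 28938960,
      .ofNat 332640],
    [.ofNat 0, .ofNat 0, .ofNat 0, .ofNat 0, .ofNat 0, .ofNat 0, .ofNat 0, .negSucc 3321279,
      .ofNat 41840352, .negSucc 168063695, .ofNat 216152736, .ofNat 51578416, .negSucc 375611455,
      .ofNat 273165792, .ofNat 30037040, .negSucc 116281919, .ofNat 40412880, .ofNat 483840],
    [.ofNat 0, .ofNat 0, .ofNat 0, .ofNat 0, .ofNat 0, .ofNat 0, .ofNat 0, .ofNat 0, .negSucc
      221663, .ofNat 5415600, .negSucc 49900831, .ofNat 149774800, .negSucc 171258687, .ofNat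
      17972000, .ofNat 86532720, .negSucc 38735999, .negSucc 347759],
    [.ofNat 0, .ofNat 0, .ofNat 0, .ofNat 0, .ofNat 0, .ofNat 0, .ofNat 0, .ofNat 0, .ofNat 0,
      .ofNat 583824, .negSucc 6545663, .ofNat 17188336, .negSucc 1061823, .negSucc 35981247,
      .ofNat 24154000, .ofNat 12485280, .negSucc 10230479, .negSucc 120959],
    [.ofNat 0, .ofNat 0, .ofNat 0, .ofNat 0, .ofNat 0, .ofNat 0, .ofNat 0, .ofNat 0, .ofNat 0,
      .ofNat 0, .ofNat 173664, .negSucc 2106431, .ofNat 7885664, .negSucc 10374911, .ofNat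
      2039200, .ofNat 5052000, .negSucc 2538719, .negSucc 30239]]

def dX31 : P2 :=
  [[],
    [],
    [.ofNat 65112, .negSucc 1927169, .ofNat 18240552, .negSucc 53614469, .ofNat 57405540,
      .negSucc 1207499, .negSucc 34320509, .ofNat 15431850, .ofNat 85050],
    [.ofNat 114024, .ofNat 735906, .negSucc 7103531, .ofNat 52529958, .negSucc 148430735, .ofNat
      167456052, .negSucc 21056969, .negSucc 84795029, .ofNat 41023530, .ofNat 351540],
    [.ofNat 61032, .ofNat 8413932, .negSucc 73205903, .ofNat 216014734, .negSucc 198087611,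
      .negSucc 82369457, .ofNat 230271624, .negSucc 75324309, .negSucc 50356469, .ofNat 25177590,
      .ofNat 353430],
    [.ofNat 12120, .ofNat 8968692, .negSucc 69698531, .ofNat 85119034, .ofNat 389345912, .negSucc
      1016502149, .ofNat 749365464, .ofNat 46103018, .negSucc 336158089, .ofNat 189592590,
      .negSucc 48058469, .negSucc 370439],
    [.ofNat 0, .ofNat 3750102, .negSucc 22949243, .negSucc 67657369, .ofNat 566985512, .negSucc
      754204867, .negSucc 367531229, .ofNat 1351056894, .negSucc 684803905, .negSucc 278891989,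
      .ofNat 318757620, .negSucc 69856919, .negSucc 790019],
    [.ofNat 0, .ofNat 532266, .negSucc 608015, .negSucc 44041429, .ofNat 137216252, .ofNat
      401391724, .negSucc 1853840113, .ofNat 2073168270, .negSucc 154365101, .negSucc 1017467269,
      .ofNat 463915260, .negSucc 17909999, .ofNat 11677860],
    [.ofNat 0, .ofNat 0, .ofNat 504516, .ofNat 2307474, .negSucc 77535783, .ofNat 471573326,
      .negSucc 874037515, .negSucc 181012929, .ofNat 2148850698, .negSucc 1949220401, .ofNat
      979554, .ofNat 751389440, .negSucc 333929819, .ofNat 52546860, .ofNat 608580],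
    [.ofNat 0, .ofNat 0, .ofNat 0, .ofNat 3442806, .negSucc 27521795, .ofNat 44173514, .ofNat
      298453260, .negSucc 1506466113, .ofNat 2407058062, .negSucc 947610257, .negSucc 1230477953,
      .ofNat 1134081224, .ofNat 3970220, .negSucc 166705139, .ofNat 44820, .ofNat 98280],
    [.ofNat 0, .ofNat 0, .ofNat 0, .ofNat 0, .ofNat 1841976, .negSucc 40233611, .ofNat 234603552,
      .negSucc 536618251, .ofNat 64153468, .ofNat 1618850204, .negSucc 2354731499, .ofNat
      712729134, .ofNat 758201648, .negSucc 545434199, .ofNat 109713690, .negSucc 29619269,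
      .negSucc 323189],
    [.ofNat 0, .ofNat 0, .ofNat 0, .ofNat 0, .ofNat 0, .negSucc 2961251, .ofNat 13094424, .ofNat
      87269692, .negSucc 642460711, .ofNat 1379828540, .negSucc 1028940151, .negSucc 444836309,
      .ofNat 1050688524, .negSucc 346556375, .negSucc 181033969, .ofNat 104242170, .negSucc
      7041869, .negSucc 109619],
    [.ofNat 0, .ofNat 0, .ofNat 0, .ofNat 0, .ofNat 0, .ofNat 0, .negSucc 2969855, .ofNat
      40261980, .negSucc 142304623, .ofNat 71751168, .ofNat 506981800, .negSucc 1162810413,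
      .ofNat 877425648, .ofNat 95833698, .negSucc 469285939, .ofNat 173930410, .negSucc 3455789,
      .ofNat 6391710, .ofNat 66150],
    [.ofNat 0, .ofNat 0, .ofNat 0, .ofNat 0, .ofNat 0, .ofNat 0, .ofNat 0, .negSucc 1484603,
      .ofNat 21122184, .negSucc 123241823, .ofNat 327590252, .negSucc 405759801, .ofNat 77691932,
      .ofNat 349152990, .negSucc 300551075, .negSucc 739237, .ofNat 84783710, .negSucc 24254489,
      .ofNat 2354130, .ofNat 30240],
    [.ofNat 0, .ofNat 0, .ofNat 0, .ofNat 0, .ofNat 0, .ofNat 0, .ofNat 0, .ofNat 0, .ofNat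
      595656, .negSucc 5712905, .ofNat 5117852, .ofNat 62988518, .negSucc 215096079, .ofNat
      290529988, .negSucc 126126365, .negSucc 86894885, .ofNat 113905070, .negSucc 24382469,
      .negSucc 6408719, .negSucc 71819],
    [.ofNat 0, .ofNat 0, .ofNat 0, .ofNat 0, .ofNat 0, .ofNat 0, .ofNat 0, .ofNat 0, .ofNat 0,
      .ofNat 500346, .negSucc 6542471, .ofNat 28891610, .negSucc 55653499, .ofNat 49153804,
      .ofNat 16232342, .negSucc 67418909, .ofNat 34721010, .ofNat 17133930, .negSucc 14420159,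
      .negSucc 170099],
    [.ofNat 0, .ofNat 0, .ofNat 0, .ofNat 0, .ofNat 0, .ofNat 0, .ofNat 0, .ofNat 0, .ofNat 0,
      .ofNat 0, .ofNat 27708, .negSucc 373037, .ofNat 3007216, .negSucc 10451321, .ofNat
      24221108, .negSucc 25203293, .ofNat 1959810, .ofNat 12479490, .negSucc 6673589, .negSucc
      79379],
    [.ofNat 0, .ofNat 0, .ofNat 0, .ofNat 0, .ofNat 0, .ofNat 0, .ofNat 0, .ofNat 0, .ofNat 0,
      .ofNat 0, .ofNat 0, .negSucc 29561, .ofNat 443556, .negSucc 2020253, .ofNat 4438956,
      .negSucc 3969341, .negSucc 444449, .ofNat 1516410, .negSucc 950129, .negSucc 11339],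
    [.ofNat 0, .ofNat 0, .ofNat 0, .ofNat 0, .ofNat 0, .ofNat 0, .ofNat 0, .ofNat 0, .ofNat 0,
      .ofNat 0, .ofNat 0, .ofNat 0, .ofNat 0, .ofNat 0, .ofNat 0, .ofNat 0, .negSucc 67499,
      .negSucc 236249],
    [.ofNat 0, .ofNat 0, .ofNat 0, .ofNat 0, .ofNat 0, .ofNat 0, .ofNat 0, .ofNat 0, .ofNat 0,
      .ofNat 0, .ofNat 0, .ofNat 0, .ofNat 0, .ofNat 0, .ofNat 0, .ofNat 0, .ofNat 0, .negSucc
      33749]]

def dX22 : P2 :=
  [[],
    [],
    [.negSucc 65111, .ofNat 1927170, .negSucc 18240551, .ofNat 53614470, .negSucc 57405539,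
      .ofNat 1207500, .ofNat 34320510, .negSucc 15431849, .negSucc 85049],
    [.negSucc 455783, .ofNat 13359966, .negSucc 123829523, .ofNat 338820186, .negSucc 294609839,
      .negSucc 106358579, .ofNat 242658570, .negSucc 39381929, .negSucc 31459049, .negSucc
      170099],
    [.negSucc 281351, .negSucc 10455647, .ofNat 102644056, .negSucc 510219637, .ofNat 1113385668,
      .negSucc 894666889, .negSucc 274025979, .ofNat 669987790, .negSucc 121575089, .negSucc
      79906049, .negSucc 463049],
    [.negSucc 60599, .negSucc 22440671, .ofNat 178200100, .negSucc 434759201, .ofNat 131170016,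
      .ofNat 535681138, .negSucc 141170923, .negSucc 799277721, .ofNat 443356850, .ofNat
      322247550, .negSucc 221755229, .negSucc 1844639],
    [.ofNat 0, .negSucc 11298785, .ofNat 65117532, .ofNat 122189426, .negSucc 1249324127, .ofNat
      2375474872, .negSucc 2141187717, .ofNat 1243225130, .negSucc 241215637, .negSucc 663604309,
      .ofNat 661624800, .negSucc 162818999, .negSucc 2181059],
    [.ofNat 0, .negSucc 1596797, .negSucc 2690623, .ofNat 151746366, .negSucc 466992571, .negSucc
      202395215, .ofNat 1542014214, .negSucc 1322377845, .negSucc 239464337, .ofNat 1080858394,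
      .negSucc 518900959, .negSucc 189670799, .ofNat 193259340, .ofNat 1232280],
    [.ofNat 0, .ofNat 0, .negSucc 2186203, .negSucc 1632897, .ofNat 183341280, .negSucc
      796356693, .ofNat 906336100, .negSucc 1131914413, .ofNat 3322822878, .negSucc 4245933657,
      .ofNat 1204192942, .ofNat 1647043280, .negSucc 1333744979, .ofNat 293886540, .ofNat
      3337740],
    [.ofNat 0, .ofNat 0, .ofNat 0, .negSucc 11064309, .ofNat 51683932, .ofNat 158016174, .negSucc
      1071642451, .ofNat 944607722, .ofNat 793988570, .ofNat 136004478, .negSucc 2629230085,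
      .ofNat 1247007800, .ofNat 1112729620, .negSucc 688964339, .negSucc 26755019, .ofNat 302400],
    [.ofNat 0, .ofNat 0, .ofNat 0, .ofNat 0, .negSucc 18259183, .ofNat 187262524, .negSucc
      446806295, .negSucc 284634747, .ofNat 1354277884, .ofNat 1158578664, .negSucc 5074491075,
      .ofNat 3594913866, .ofNat 479180048, .negSucc 1516838639, .ofNat 692179470, .negSucc
      182179529, .negSucc 1967489],
    [.ofNat 0, .ofNat 0, .ofNat 0, .ofNat 0, .ofNat 0, .negSucc 775483, .ofNat 83559344, .negSucc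
      559422947, .ofNat 892687504, .ofNat 777368536, .negSucc 1961738679, .negSucc 1412606337,
      .ofNat 3842145820, .negSucc 1064472207, .negSucc 1349262149, .ofNat 712095750, .negSucc
      43344449, .negSucc 669059],
    [.ofNat 0, .ofNat 0, .ofNat 0, .ofNat 0, .ofNat 0, .ofNat 0, .ofNat 6012536, .negSucc
      52537555, .negSucc 91740695, .ofNat 916160036, .negSucc 736659999, .negSucc 1950449425,
      .ofNat 2944649056, .negSucc 364540557, .negSucc 1141866415, .ofNat 416038590, .negSucc
      6678809, .ofNat 37539990, .ofNat 391230],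
    [.ofNat 0, .ofNat 0, .ofNat 0, .ofNat 0, .ofNat 0, .ofNat 0, .ofNat 0, .ofNat 8463076,
      .negSucc 93593327, .ofNat 267256140, .ofNat 85756300, .negSucc 1056613485, .ofNat
      630529300, .ofNat 1332720222, .negSucc 1558005367, .ofNat 52243302, .ofNat 563690010,
      .negSucc 202387049, .ofNat 13518090, .ofNat 181440],
    [.ofNat 0, .ofNat 0, .ofNat 0, .ofNat 0, .ofNat 0, .ofNat 0, .ofNat 0, .ofNat 0, .ofNat
      1968720, .negSucc 31322777, .ofNat 178753116, .negSucc 329355893, .negSucc 108179303,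
      .ofNat 888000768, .negSucc 552135629, .negSucc 350519705, .ofNat 395797770, .ofNat
      17360730, .negSucc 61217099, .negSucc 714419],
    [.ofNat 0, .ofNat 0, .ofNat 0, .ofNat 0, .ofNat 0, .ofNat 0, .ofNat 0, .ofNat 0, .ofNat 0,
      .negSucc 1188293, .ofNat 10216944, .ofNat 4153446, .negSucc 143142347, .ofNat 261890376,
      .ofNat 16101318, .negSucc 292406273, .ofNat 135961830, .ofNat 79821450, .negSucc 54643139,
      .negSucc 646379],
    [.ofNat 0, .ofNat 0, .ofNat 0, .ofNat 0, .ofNat 0, .ofNat 0, .ofNat 0, .ofNat 0, .ofNat 0,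
      .ofNat 0, .negSucc 698363, .ofNat 8359830, .negSucc 26463839, .ofNat 15333138, .ofNat
      64701924, .negSucc 94563881, .ofNat 14468670, .ofNat 35212050, .negSucc 20020769, .negSucc
      238139],
    [.ofNat 0, .ofNat 0, .ofNat 0, .ofNat 0, .ofNat 0, .ofNat 0, .ofNat 0, .ofNat 0, .ofNat 0,
      .ofNat 0, .ofNat 0, .negSucc 88685, .ofNat 1330668, .negSucc 6060761, .ofNat 13316868,
      .negSucc 11368025, .negSucc 2278349, .ofNat 3131730, .negSucc 2850389, .negSucc 34019],
    [.ofNat 0, .ofNat 0, .ofNat 0, .ofNat 0, .ofNat 0, .ofNat 0, .ofNat 0, .ofNat 0, .ofNat 0,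
      .ofNat 0, .ofNat 0, .ofNat 0, .ofNat 0, .ofNat 0, .ofNat 0, .ofNat 0, .negSucc 337499,
      .negSucc 1181249],
    [.ofNat 0, .ofNat 0, .ofNat 0, .ofNat 0, .ofNat 0, .ofNat 0, .ofNat 0, .ofNat 0, .ofNat 0,
      .ofNat 0, .ofNat 0, .ofNat 0, .ofNat 0, .ofNat 0, .ofNat 0, .ofNat 0, .ofNat 0, .negSucc
      168749]]

end Vale.Agent.P219.C5
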