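import Vale.Agent.P219.C5.Prof

/-! # The certificate in dimension 5: (PI) for `x ≥ 1` -/

open Set

namespace Vale.Agent.P219.C5

variable {x T a b S : ℝ}

/-- The derivative of `K0` in `x`. -/
noncomputable def K1 (x T a b : ℝ) : ℝ :=
  e2 x T (dx dk0) + e2 x T (dx dkA2) * (a ^ 2 + b ^ 2) / 2 - 4 * e2 x T (dx dxeA) * (a + b) -
    2 * e2 x T (dx dkpA) * (a * b) * (1 - (a ^ 2 + b ^ 2) / 2) + e2 x T (dx dkp2) * (a * b) ^ 2 +
    4 * e2 x T (dx dxeB) * (a * b * (a + b))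

theorem hasDerivAt_K0 (x T a b : ℝ) : HasDerivAt (fun x => K0 x T a b) (K1 x T a b) x := by
  unfold K0 KK K1
  exact ((((((hasDerivAt_e2 x T dk0).add (((hasDerivAt_e2 x T dkA2).mul_const _).div_const 2)).sub
    (((hasDerivAt_e2 x T dxeA).const_mul 4).mul_const _)).sub
    ((((hasDerivAt_e2 x T dkpA).const_mul 2).mul_const _).mul_const _)).add
    ((hasDerivAt_e2 x T dkp2).mul_const _)).add
    (((hasDerivAt_e2 x T dxeB).const_mul 4).mul_const _))

theorem v_Kx (x T a b : ℝ) : e4 a b x T dKx = 2 * (x ^ 2 *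
    ((1 + x) * (1 - T * x) * (1 + T * x) * (3 * K0 x T a b + x * K1 x T a b) -
      6 * x * (1 - T * x) * (1 + T * x) * K0 x T a b +
      4 * T * x * (1 + x) * (1 + T * x) * K0 x T a b -
      6 * T * x * (1 + x) * (1 - T * x) * K0 x T a b)) -
    2 * (a * b * (180 * (1654 + 70 * T ^ 2 + 105 * T ^ 4) * (1 + x) ^ 7 * (1 - T * x) ^ 4 *
      (1 + T * x) ^ 6)) := by
  have h00 := e2_eqv dX00_eq x T
  have h10 := e2_eqv dX10_eq x T
  have h20 := e2_eqv dX20_eq x T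
  have h11 := e2_eqv dX11_eq x T
  have h21 := e2_eqv dX21_eq x T
  have h31 := e2_eqv dX31_eq x T
  have h22 := e2_eqv dX22_eq x T
  simp only [e2_add, e2_smul, e2_mul, v_pow, v_sg, v_e, v_u, v_v, v_opK] at h00 h10 h20 h11 h21 h31 h22
  push_cast at h00 h10 h20 h11 h21 h31 h22
  simp only [dKx, e4, ev_cons, ev_nil, v_nil, K0, K1, KK]
  rw [h00, h10, h20, h11, h21, h31, h22]
  ring

theorem hasDerivAt_KS (he : 1 + x ≠ 0) (hu : 1 - T * x ≠ 0) (hv : 1 + T * x ≠ 0) :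
    HasDerivAt (fun x => KS T (K0 x T a b) x)
      ((x ^ 2 * ((1 + x) * (1 - T * x) * (1 + T * x) * (3 * K0 x T a b + x * K1 x T a b) -
      6 * x * (1 - T * x) * (1 + T * x) * K0 x T a b +
      4 * T * x * (1 + x) * (1 + T * x) * K0 x T a b -
      6 * T * x * (1 + x) * (1 - T * x) * K0 x T a b)) /
      (16 * ((1 + x) ^ 7 * (1 - T * x) ^ 5 * (1 + T * x) ^ 7))) x := by
  have h1 : HasDerivAt (fun x => x ^ 3 * K0 x T a b) (3 * x ^ 2 * K0 x T a b + x ^ 3 * K1 x T a b)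
      x := by
    have h := (hasDerivAt_pow 3 x).fun_mul (hasDerivAt_K0 x T a b)
    refine h.congr_deriv ?_
    norm_num
  have h2 := (hasDerivAt_frac h1 6 4 6 he hu hv).div_const 16
  have e : (fun x => KS T (K0 x T a b) x) = fun x => x ^ 3 * K0 x T a b /
      ((1 + x) ^ 6 * (1 - T * x) ^ 4 * (1 + T * x) ^ 6) / 16 := by
    funext y
    rw [KS, div_div]
    ring
  rw [e]
  refine h2.congr_deriv ?_
  push_cast
  generalize K0 x T a b = Z at *
  generalize K1 x T a b = Z' at *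
  field_simp

theorem far_dom (hT : 0 < T) (hxT : T * x < 1) {y : ℝ} (hy : y ∈ Icc 1 x) :
    0 < 1 + y ∧ 0 < 1 - T * y ∧ 0 < 1 + T * y := by
  have h2 : T * y ≤ T * x := mul_le_mul_of_nonneg_left hy.2 hT.le
  have h3 : 0 ≤ T * y := mul_nonneg hT.le (by linarith [hy.1])
  exact ⟨by linarith [hy.1], by linarith, by linarith⟩

theorem far_deriv (hT : 0 < T) (hxT : T * x < 1) (a b : ℝ) {y : ℝ} (hy : y ∈ Icc 1 x) :
    HasDerivAt (fun y => KS T (K0 y T a b) y - a * b * (cs5 T * LL T y))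
      (e4 a b y T dKx / (32 * ((1 + y) ^ 7 * (1 - T * y) ^ 5 * (1 + T * y) ^ 7))) y := by
  obtain ⟨he, hu, hv⟩ := far_dom hT hxT hy
  refine ((hasDerivAt_KS he.ne' hu.ne' hv.ne').sub
    (((hasDerivAt_LL hu hv).const_mul (cs5 T)).const_mul (a * b))).congr_deriv ?_
  rw [v_Kx, cs5]
  generalize K0 y T a b = Z at *
  generalize K1 y T a b = Z' at *
  field_simp
  ring

theorem far_mono (hT : 0 < T) (hxT : T * x < 1) (ha : a ∈ Icc (0 : ℝ) 1)
    (hb : b ∈ Icc (0 : ℝ) 1) :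
    MonotoneOn (fun y => KS T (K0 y T a b) y - a * b * (cs5 T * LL T y)) (Icc 1 x) := by
  refine monotoneOn_of_deriv_nonneg (convex_Icc 1 x) ?_ ?_ ?_
  · intro y hy
    exact (far_deriv hT hxT a b hy).continuousAt.continuousWithinAt
  · intro y hy
    exact (far_deriv hT hxT a b (interior_subset hy)).differentiableAt.differentiableWithinAt
  · intro y hy
    have hy := interior_subset hy
    rw [(far_deriv hT hxT a b hy).deriv]
    obtain ⟨he, hu, hv⟩ := far_dom hT hxT hy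
    have := Kx_nonneg hy.1 hT.le (by linarith) ha hb
    positivity

theorem far_strict (hT : 0 < T) (hxT : T * x < 1) :
    StrictMonoOn (fun y => KS T (K0 y T 1 1) y - 1 * 1 * (cs5 T * LL T y)) (Icc 1 x) := by
  refine strictMonoOn_of_deriv_pos (convex_Icc 1 x) ?_ ?_
  · intro y hy
    exact (far_deriv hT hxT 1 1 hy).continuousAt.continuousWithinAt
  · intro y hy
    rw [interior_Icc] at hy
    rw [(far_deriv hT hxT 1 1 (Ioo_subset_Icc_self hy)).deriv]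
    obtain ⟨he, hu, hv⟩ := far_dom hT hxT (Ioo_subset_Icc_self hy)
    have := K11_pos hy.1 hT.le (by linarith)
    positivity

theorem PI_II (hT : 0 < T) (hT1 : T < 1) (hx : 1 ≤ x) (hxT : T * x < 1) (ha : a ∈ Icc (0 : ℝ) 1)
    (hb : b ∈ Icc (0 : ℝ) 1) :
    a * b * (cs5 T * LL T x - (ff T a + ff T b) / 2) ≤ KS T (K0 x T a b) x := by
  have h1 := PI_I hT hT1 (x := 1) ⟨zero_le_one, le_rfl⟩ ha hb
  have h2 := far_mono hT hxT ha hb (left_mem_Icc.2 hx) (right_mem_Icc.2 hx) hx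
  simp only at h2
  linarith

theorem PI_II_lt (hT : 0 < T) (hT1 : T < 1) (hx : 1 < x) (hxT : T * x < 1)
    (ha : a ∈ Icc (0 : ℝ) 1) (hb : b ∈ Icc (0 : ℝ) 1) (ha0 : 0 < a) (hb0 : 0 < b) :
    a * b * (cs5 T * LL T x - (ff T a + ff T b) / 2) < KS T (K0 x T a b) x := by
  by_cases hne : a = 1 ∧ b = 1
  · obtain ⟨rfl, rfl⟩ := hne
    have h1 := PI_I hT hT1 (x := 1) ⟨zero_le_one, le_rfl⟩ ha hb
    have h2 := far_strict hT hxT (left_mem_Icc.2 hx.le) (right_mem_Icc.2 hx.le) hx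
    simp only at h2
    linarith
  · have h1 := PI_I_lt hT hT1 (x := 1) ⟨zero_le_one, le_rfl⟩ ha hb ha0 hb0 hne
    have h2 := far_mono hT hxT ha hb (left_mem_Icc.2 hx.le) (right_mem_Icc.2 hx.le) hx.le
    simp only at h2
    linarith

theorem PI_all (h : Dom x T) (ha : a ∈ Icc (0 : ℝ) 1) (hb : b ∈ Icc (0 : ℝ) 1) :
    a * b * (cs5 T * LL T x - (ff T a + ff T b) / 2) ≤ KS T (K0 x T a b) x := by
  rcases h.cases with ⟨hx, hT⟩ | hx
  · exact PI_I h.T0 h.T1 hx ha hb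
  · exact PI_II h.T0 h.T1 hx h.xT ha hb

theorem PI_all_eq (h : Dom x T) (ha : a ∈ Icc (0 : ℝ) 1) (hb : b ∈ Icc (0 : ℝ) 1) (ha0 : 0 < a)
    (hb0 : 0 < b)
    (he : KS T (K0 x T a b) x ≤ a * b * (cs5 T * LL T x - (ff T a + ff T b) / 2)) :
    a = x ∧ b = x := by
  by_contra hne
  rcases le_or_gt x 1 with hx | hx
  · exact absurd he (not_le.2 (PI_I_lt h.T0 h.T1 ⟨h.x0, hx⟩ ha hb ha0 hb0 hne))
  · exact absurd he (not_le.2 (PI_II_lt h.T0 h.T1 hx h.xT ha hb ha0 hb0))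

/-! ### Balance -/

/-- `1 - x²`. -/
def p1x2 : P2 := [[.ofNat 1], [], [.negSucc 0]]

theorem v_1x2 (x T : ℝ) : e2 x T p1x2 = 1 - x ^ 2 := by simp [e2, p1x2, evz]; ring

theorem dbal : eqv (mul2 (mul2 pX pX) dGn) (add2 (add2 (smul2 (72000 : ℤ) (mul2 (mul2 (mul2 (mul2
    pq pq) (ppow pX 3)) (ppow pe 5)) pv)) (mul2 p1x2 (opdd (mul2 (ppow pX 3) dW) 4 3 4))) (smul2
    (-4 : ℤ) (mul2 (mul2 (mul2 (mul2 (ppow pX 4) pe) pu) pv) dW))) = true := by decide +kernel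

theorem GG_int (hT : 0 < T) (hT1 : T < 1) :
    ∫ t in (0 : ℝ)..1, GG T t * t * (1 - t ^ 2) = 750 := by
  have hd : ∀ y ∈ uIcc (0 : ℝ) 1, HasDerivAt (fun y => (1 - y ^ 2) ^ 2 *
      (fr T (mul2 (ppow pX 3) dW) 4 3 4 y / 8) +
      750 * (1 - T ^ 2) ^ 2 * (y ^ 4 * (3 - (2 + T ^ 2) * y ^ 2) /
        ((1 + y) ^ 0 * (1 - T * y) ^ 3 * (1 + T * y) ^ 3))) (GG T y * y * (1 - y ^ 2)) y := by
    intro y hy
    rw [uIcc_of_le zero_le_one] at hy
    have h := Dom.of_le_one hy hT hT1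
    have he := h.e_pos
    have hu := h.u_pos
    have hv := h.v_pos
    have h1 := (hasDerivAt_fr (T := T) (mul2 (ppow pX 3) dW) 4 3 4 he.ne' hu.ne'
        hv.ne').div_const 8
    have h2 : HasDerivAt (fun y : ℝ => (1 - y ^ 2) ^ 2) (-(4 * y * (1 - y ^ 2))) y := by
      have := ((hasDerivAt_pow 2 y).const_sub 1).fun_pow 2
      refine this.congr_deriv ?_
      norm_num
      ring
    have h3 : HasDerivAt (fun y : ℝ => y ^ 4 * (3 - (2 + T ^ 2) * y ^ 2))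
        (4 * y ^ 3 * (3 - (2 + T ^ 2) * y ^ 2) + y ^ 4 * (-((2 + T ^ 2) * (2 * y)))) y := by
      have := (hasDerivAt_pow 4 y).fun_mul (((hasDerivAt_pow 2 y).const_mul (2 + T ^
          2)).const_sub 3)
      refine this.congr_deriv ?_
      norm_num
    have h4 := (hasDerivAt_frac (T := T) h3 0 3 3 he.ne' hu.ne' hv.ne').const_mul
      (750 * (1 - T ^ 2) ^ 2)
    refine ((h2.fun_mul h1).fun_add h4).congr_deriv ?_
    have h5 := e2_eqv dbal y T
    simp only [e2_add, e2_smul, e2_mul, v_pow, v_e, v_u, v_v, v_1x2, v_X, v_q] at h5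
    rw [GG_eq]
    unfold fr
    simp only [e2_mul, v_pow, v_X]
    push_cast at h5 ⊢
    generalize e2 y T (opdd (mul2 (ppow pX 3) dW) 4 3 4) = Z1 at *
    generalize e2 y T dW = Z2 at *
    generalize e2 y T dGn = Z3 at *
    have h6 : y * Z3 / (8 * ((1 + y) ^ 5 * (1 - T * y) ^ 4 * (1 + T * y) ^ 5)) * y *
      (1 - y ^ 2) = (y * y * Z3) * ((1 - y ^ 2) /
        (8 * ((1 + y) ^ 5 * (1 - T * y) ^ 4 * (1 + T * y) ^ 5))) := by
      field_simp
    rw [h6, h5]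
    clear h6 h5 h1 h2 h3 h4
    field_simp
    ring
  have hc : ContinuousOn (fun t => GG T t * t * (1 - t ^ 2)) (uIcc (0 : ℝ) 1) := by
    rw [uIcc_of_le zero_le_one]
    intro y hy
    have h := Dom.of_le_one hy hT hT1
    have h1 : ContinuousAt (GG T) y :=
      ((hasDerivAt_fr (T := T) (mul2 pX dGn) 5 4 5 h.e_pos.ne' h.u_pos.ne'
        h.v_pos.ne').div_const 8).continuousAt
    have h2 : ContinuousAt (fun t : ℝ => 1 - t ^ 2) y := by fun_prop
    exact ((h1.mul continuousAt_id).mul h2).continuousWithinAt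
  rw [intervalIntegral.integral_eq_sub_of_hasDerivAt hd hc.intervalIntegrable]
  have e0 : fr T (mul2 (ppow pX 3) dW) 4 3 4 0 = 0 := by
    simp [fr, e2_mul, v_pow, v_X]
  rw [e0]
  have h1 : 1 - T ≠ 0 := by linarith
  have h2 : 1 + T ≠ 0 := by linarith
  have h3 : 1 - T ^ 2 = (1 - T) * (1 + T) := by ring
  norm_num
  rw [h3]
  field_simp
  ring

end Vale.Agent.P219.C5
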