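import Vale.Agent.P219.C5.Far
import Vale.Agent.P219.TPH.NiceH
import Vale.Agent.P219.TPH.ZonalFive
import Vale.Agent.P219.TPH.BalFive

/-! # The certificate in dimension 5, curvature `≤ -1`, all radii -/

open Set MeasureTheory Metric
open scoped ContDiff

namespace Vale.Agent.P219.C5

open Vale.Agent.P219.TP Vale.Agent.P219.TPH

/-- `x = tanh(r/2)/T`. -/
noncomputable def xx (T r : ℝ) : ℝ := Real.tanh (r / 2) / T

theorem tanh_pos' {r : ℝ} (hr : 0 < r) : 0 < Real.tanh r := by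
  rw [Real.tanh_eq_sinh_div_cosh]
  exact div_pos (Real.sinh_pos_iff.2 hr) (Real.cosh_pos r)

theorem xx_pos {T r : ℝ} (hT : 0 < T) (hr : 0 < r) : 0 < xx T r :=
  div_pos (tanh_pos' (by linarith)) hT

theorem T_xx {T : ℝ} (hT : 0 < T) (r : ℝ) : T * xx T r = Real.tanh (r / 2) := by
  unfold xx; field_simp

theorem xx_dom {T r : ℝ} (hT : 0 < T) (hT1 : T < 1) (hr : 0 < r) : Dom (xx T r) T :=
  ⟨(xx_pos hT hr).le, hT, hT1, by rw [T_xx hT]; exact Real.tanh_lt_one _⟩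

theorem xx_sinh {T : ℝ} (hT : 0 < T) (r : ℝ) : Real.sinh r =
    2 * T * xx T r / ((1 - T * xx T r) * (1 + T * xx T r)) := by
  rw [mul_assoc, T_xx hT, Real.tanh_eq_sinh_div_cosh]
  have hc := Real.cosh_pos (r / 2)
  have h1 := Real.sinh_two_mul (r / 2)
  have h2 := Real.cosh_sq_sub_sinh_sq (r / 2)
  rw [mul_div_cancel₀ r two_ne_zero] at h1
  rw [h1]
  have h3 : (1 - Real.sinh (r / 2) / Real.cosh (r / 2)) *
      (1 + Real.sinh (r / 2) / Real.cosh (r / 2)) = 1 / Real.cosh (r / 2) ^ 2 := by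
    field_simp
    linarith
  rw [h3]
  field_simp

theorem xx_cosh {T : ℝ} (hT : 0 < T) (r : ℝ) : Real.cosh r =
    (1 + T ^ 2 * xx T r ^ 2) / ((1 - T * xx T r) * (1 + T * xx T r)) := by
  rw [← mul_pow, T_xx hT, Real.tanh_eq_sinh_div_cosh]
  have hc := Real.cosh_pos (r / 2)
  have h1 := Real.cosh_two_mul (r / 2)
  have h2 := Real.cosh_sq_sub_sinh_sq (r / 2)
  rw [mul_div_cancel₀ r two_ne_zero] at h1
  rw [h1]
  have h3 : (1 - Real.sinh (r / 2) / Real.cosh (r / 2)) *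
      (1 + Real.sinh (r / 2) / Real.cosh (r / 2)) = 1 / Real.cosh (r / 2) ^ 2 := by
    field_simp
    linarith
  rw [h3]
  field_simp

theorem xx_log {T : ℝ} (hT : 0 < T) (r : ℝ) : LL T (xx T r) = r := by
  unfold LL
  rw [T_xx hT]
  have := bf_log (R := r / 2)
  rw [mul_one] at this
  rw [this]
  ring

theorem hasDerivAt_xx {T : ℝ} (hT : 0 < T) (r : ℝ) :
    HasDerivAt (xx T) ((1 - T * xx T r) * (1 + T * xx T r) / (2 * T)) r := by
  have hc := Real.cosh_pos (r / 2)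
  have h0 : HasDerivAt (fun r : ℝ => r / 2) (1 / 2) r := (hasDerivAt_id r).div_const 2
  have h1 := (Real.hasDerivAt_sinh (r / 2)).comp r h0
  have h2 := (Real.hasDerivAt_cosh (r / 2)).comp r h0
  have h3 := (h1.fun_div h2 hc.ne').div_const T
  have e : xx T = fun r => (Real.sinh ∘ fun r : ℝ => r / 2) r /
      (Real.cosh ∘ fun r : ℝ => r / 2) r / T := by
    funext y
    simp only [xx, Function.comp, Real.tanh_eq_sinh_div_cosh]
  rw [e]
  refine h3.congr_deriv ?_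
  simp only [Function.comp]
  have h4 := Real.cosh_sq_sub_sinh_sq (r / 2)
  field_simp
  linarith

/-! ### The field -/

/-- The field. -/
noncomputable def phi (T r a : ℝ) : ℝ :=
  (e2 (xx T r) T dA - a ^ 2 * e2 (xx T r) T dB) /
    ((1 + xx T r) ^ 5 * (1 - T * xx T r) ^ 0 * (1 + T * xx T r) ^ 2) / (128 * T ^ 3)

/-- Derivative in `r`. -/
noncomputable def phir (T r a : ℝ) : ℝ :=
  (e2 (xx T r) T dDA - a ^ 2 * e2 (xx T r) T dDB) /
    (256 * T ^ 4 * xx T r * (1 + xx T r) ^ 6 * (1 + T * xx T r) ^ 2)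

/-- Derivative in `a`. -/
noncomputable def phia (T r a : ℝ) : ℝ :=
  -(2 * a * e2 (xx T r) T dB) / (128 * T ^ 3 * (1 + xx T r) ^ 5 * (1 + T * xx T r) ^ 2)

theorem phi_eq (T r a : ℝ) : phi T r a = (e2 (xx T r) T dA - a ^ 2 * e2 (xx T r) T dB) /
    (128 * T ^ 3 * (1 + xx T r) ^ 5 * (1 + T * xx T r) ^ 2) := by
  unfold phi
  rw [div_div, pow_zero]
  congr 1
  ring

theorem hasDerivAt_phi_a (T r a : ℝ) : HasDerivAt (phi T r) (phia T r a) a := by
  have h1 : HasDerivAt (fun a : ℝ => (e2 (xx T r) T dA - a ^ 2 * e2 (xx T r) T dB) /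
    (128 * T ^ 3 * (1 + xx T r) ^ 5 * (1 + T * xx T r) ^ 2))
    ((-(2 * a * e2 (xx T r) T dB)) / (128 * T ^ 3 * (1 + xx T r) ^ 5 * (1 + T * xx T r) ^ 2)) a := by
    have h := (((hasDerivAt_pow 2 a).mul_const (e2 (xx T r) T dB)).const_sub
      (e2 (xx T r) T dA)).div_const (128 * T ^ 3 * (1 + xx T r) ^ 5 * (1 + T * xx T r) ^ 2)
    refine h.congr_deriv ?_
    norm_num
  have e : phi T r = fun a : ℝ => (e2 (xx T r) T dA - a ^ 2 * e2 (xx T r) T dB) /
    (128 * T ^ 3 * (1 + xx T r) ^ 5 * (1 + T * xx T r) ^ 2) := funext fun a => phi_eq T r a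
  rw [e]
  exact h1

theorem hasDerivAt_phi_r {T r : ℝ} (hT : 0 < T) (hT1 : T < 1) (hr : 0 < r) (a : ℝ) :
    HasDerivAt (fun r => phi T r a) (phir T r a) r := by
  have hD := xx_dom hT hT1 hr
  have hx := xx_pos hT hr
  have he := hD.e_pos
  have hu := hD.u_pos
  have hv := hD.v_pos
  have h1 : HasDerivAt (fun x => e2 x T dA - a ^ 2 * e2 x T dB)
      (e2 (xx T r) T (dx dA) - a ^ 2 * e2 (xx T r) T (dx dB)) (xx T r) :=
    (hasDerivAt_e2 _ T dA).sub ((hasDerivAt_e2 _ T dB).const_mul (a ^ 2))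
  have h2 := (hasDerivAt_frac h1 5 0 2 he.ne' hu.ne' hv.ne').div_const (128 * T ^ 3)
  have h3 := h2.comp r (hasDerivAt_xx hT r)
  refine h3.congr_deriv ?_
  unfold phir
  rw [r_DA, r_DB, v_opD, v_opD]
  push_cast
  generalize e2 (xx T r) T (dx dA) = Z1
  generalize e2 (xx T r) T (dx dB) = Z2
  generalize e2 (xx T r) T dA = Z3
  generalize e2 (xx T r) T dB = Z4
  clear h1 h2 h3 hD
  generalize 1 - T * xx T r = u at *
  generalize 1 + T * xx T r = v at *
  generalize 1 + xx T r = e at *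
  generalize xx T r = x at *
  field_simp
  ring

/-! ### Smoothness -/

theorem contDiff_e2 (T : ℝ) (p : P2) : ContDiff ℝ ∞ (fun x => e2 x T p) := by
  unfold e2
  induction p with
  | nil => exact contDiff_const
  | cons a p ih =>
    simp only [ev_cons]
    exact contDiff_const.add (contDiff_id.mul ih)

theorem contDiff_xx (T : ℝ) : ContDiff ℝ ∞ (xx T) := by
  have e : xx T = fun r => Real.sinh (r / 2) / Real.cosh (r / 2) / T := by
    funext y
    rw [xx, Real.tanh_eq_sinh_div_cosh]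
  rw [e]
  have h0 : ContDiff ℝ ∞ fun r : ℝ => r / 2 := contDiff_id.div_const 2
  exact ((Real.contDiff_sinh.comp h0).div (Real.contDiff_cosh.comp h0)
    fun r => (Real.cosh_pos _).ne').div_const T

theorem contDiffOn_phi {T : ℝ} (hT : 0 < T) (hT1 : T < 1) :
    ContDiffOn ℝ ∞ (Function.uncurry (phi T)) {p : ℝ × ℝ | 0 < p.1} := by
  have hx : ContDiff ℝ ∞ fun p : ℝ × ℝ => xx T p.1 := (contDiff_xx T).comp contDiff_fst
  have hA : ContDiff ℝ ∞ fun p : ℝ × ℝ => e2 (xx T p.1) T dA := (contDiff_e2 T dA).comp hx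
  have hB : ContDiff ℝ ∞ fun p : ℝ × ℝ => e2 (xx T p.1) T dB := (contDiff_e2 T dB).comp hx
  have hn : ContDiff ℝ ∞ fun p : ℝ × ℝ => e2 (xx T p.1) T dA - p.2 ^ 2 * e2 (xx T p.1) T dB :=
    hA.sub ((contDiff_snd.pow 2).mul hB)
  have hd : ContDiff ℝ ∞ fun p : ℝ × ℝ => (1 + xx T p.1) ^ 5 * (1 - T * xx T p.1) ^ 0 *
      (1 + T * xx T p.1) ^ 2 :=
    (((contDiff_const.add hx).pow 5).mul ((contDiff_const.sub (contDiff_const.mul hx)).pow 0)).mul
      ((contDiff_const.add (contDiff_const.mul hx)).pow 2)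
  have h := hn.contDiffOn.div hd.contDiffOn (s := {p : ℝ × ℝ | 0 < p.1}) fun p hp => by
    have hD := xx_dom hT hT1 hp
    exact mul_ne_zero (mul_ne_zero (pow_ne_zero _ hD.e_pos.ne') (pow_ne_zero _ hD.u_pos.ne'))
      (pow_ne_zero _ hD.v_pos.ne')
  exact h.div_const (128 * T ^ 3)

/-! ### The kernel -/

theorem sn_one (r : ℝ) : sn 1 r = Real.sinh r := by simp [sn]
theorem cs_one (r : ℝ) : cs 1 r = Real.cosh r := by simp [cs]

theorem KN_eq {T r a b : ℝ} (hT : 0 < T) (hT1 : T < 1) (hr : 0 < r) (ha : 0 ≤ a) (hb : 0 ≤ b) :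
    KN 1 4 (phi T) (phir T) (phia T) (cl T) (4 / T) r a b =
      KK (xx T r) T a b (√((1 - a ^ 2) * (1 - b ^ 2))) /
        (256 * T ^ 4 * xx T r * (1 + xx T r) ^ 6 * (1 + T * xx T r) ^ 2) := by
  have hD := xx_dom hT hT1 hr
  have hx := xx_pos hT hr
  have he := hD.e_pos
  have hu := hD.u_pos
  have hv := hD.v_pos
  have hB := B_nonneg hD
  have hS : (1 - b ^ 2) * (1 - a ^ 2) = (1 - a ^ 2) * (1 - b ^ 2) := by ring
  have abs1 : ∀ c : ℝ, 0 ≤ c → |phia T r c| = 2 * c * e2 (xx T r) T dB /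
      (128 * T ^ 3 * (1 + xx T r) ^ 5 * (1 + T * xx T r) ^ 2) := by
    intro c hc
    rw [phia, neg_div, abs_neg, abs_of_nonneg (by positivity)]
  unfold KN NN kapN
  rw [hS, sn_one, cs_one, xx_sinh hT, xx_cosh hT, abs1 a ha, abs1 b hb, abs_of_nonneg ha,
    abs_of_nonneg hb, phi_eq, phi_eq, phir, phir, KK, cl, r_k0, r_kA2, r_kp2, r_kpA, r_xeA, r_xeB]
  generalize √((1 - a ^ 2) * (1 - b ^ 2)) = S
  generalize e2 (xx T r) T dDA = Z1
  generalize e2 (xx T r) T dDB = Z2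
  generalize e2 (xx T r) T dA = Z3 at *
  generalize e2 (xx T r) T dB = Z4 at *
  generalize xx T r = x at *
  push_cast
  field_simp
  ring

end Vale.Agent.P219.C5
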