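import Vale.Agent.P219.C5.Data

/-! # The certificate in dimension 5: identities between the polynomials -/

namespace Vale.Agent.P219.C5

def pX : P2 := [[], [.ofNat 1]]
def pT : P2 := [[.ofNat 0, .ofNat 1]]
def pe : P2 := [[.ofNat 1], [.ofNat 1]]
def pu : P2 := [[.ofNat 1], [.ofNat 0, .negSucc 0]]
def pv : P2 := [[.ofNat 1], [.ofNat 0, .ofNat 1]]
/-- `1 - T²`. -/
def pq : P2 := [[.ofNat 1, .ofNat 0, .negSucc 0]]
/-- `1 + T² x²`. -/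
def pE : P2 := [[.ofNat 1], [], [.ofNat 0, .ofNat 0, .ofNat 1]]
/-- `16 σ`. -/
def psg : P2 := [[.ofNat 297720, .ofNat 0, .ofNat 12600, .ofNat 0, .ofNat 18900]]

/-- Powers. -/
def ppow (p : P2) (n : ℕ) : P2 := Nat.rec (motive := fun _ => P2) [[.ofNat 1]] (fun _ ih => mul2
    ih p) n

/-- `x u (Q' e v - 5 Q v - 2 T Q e)`. -/
def opD (Q : P2) : P2 :=
  mul2 (mul2 pX pu) (add2 (add2 (mul2 (mul2 pe pv) (dx Q)) (smul2 (-5 : ℤ) (mul2 pv Q))) (smul2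
      (-2 : ℤ) (mul2 (mul2 pT pe) Q)))

/-- `P' e u v - i P u v + j T P e v - k T P e u`. -/
def opdd (P : P2) (i j k : ℤ) : P2 :=
  add2 (add2 (add2 (mul2 (mul2 (mul2 pe pu) pv) (dx P)) (smul2 (-i) (mul2 (mul2 pu pv) P)))
      (smul2 j (mul2 (mul2 (mul2 pT pe) pv) P))) (smul2 (-k) (mul2 (mul2 (mul2 pT pe) pu) P))

theorem dA_eq : eqv dA (add2 (smul2 (2 : ℤ) (mul2 (mul2 pe pv) dW)) (mul2 (mul2 pX pX) dB)) =
    true := by
  decide +kernel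

theorem dDA_eq : eqv dDA (opD dA) = true := by decide +kernel

theorem dDB_eq : eqv dDB (opD dB) = true := by decide +kernel

theorem dk0_eq : eqv dk0 (add2 (add2 (smul2 (144000 : ℤ) (mul2 (mul2 (mul2 (mul2 (mul2 pq pq) pX)
    (ppow pe 6)) pv) pv)) dDA) (smul2 (3 : ℤ) (mul2 (mul2 pe pE) dA))) = true := by decide +kernel

theorem dkA2_eq : eqv dkA2 (add2 (add2 (mul2 (mul2 pe pE) (add2 dA (smul2 (-3 : ℤ) dB))) (smul2
    (-1 : ℤ) dDA)) (smul2 (-1 : ℤ) dDB)) = true := by decide +kernel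

theorem dkp2_eq : eqv dkp2 (add2 dDB (smul2 (-1 : ℤ) (mul2 (mul2 pe pE) dB))) = true := by
  decide +kernel

theorem dkpA_eq : eqv dkpA (mul2 (mul2 (mul2 pu pe) pv) dB) = true := by decide +kernel

theorem dxeA_eq : eqv dxeA (mul2 (mul2 pX pe) dA) = true := by decide +kernel

theorem dxeB_eq : eqv dxeB (mul2 (mul2 pX pe) dB) = true := by decide +kernel

theorem duevA_eq : eqv duevA (mul2 (mul2 (mul2 pu pe) pv) dA) = true := by decide +kernel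

/-- The diagonal: `K(y,y,y) = 2 G e v`. -/
theorem dGn_eq : eqv (smul2 (2 : ℤ) (mul2 (mul2 pe pv) dGn))
    (add2 (add2 dk0 (mul2 (mul2 pX pX) (add2 (add2 dkA2 (smul2 (-8 : ℤ) (mul2 pe dA))) (smul2 (-2
        : ℤ) dkpA)))) (mul2 (ppow pX 4) (add2 (add2 dkp2 (smul2 (8 : ℤ) (mul2 pe dB))) (smul2 (2
        : ℤ) dkpA)))) = true := by
  decide +kernel

theorem dG1_eq : eqv dG1 (opdd (mul2 pX dGn) 5 4 5) = true := by decide +kernel

theorem dfpp_eq : eqv dfpp (add2 (mul2 (mul2 (mul2 (mul2 (mul2 (mul2 psg pT) pT) pX) (ppow pe 7))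
    (ppow pu 4)) (ppow pv 5)) (smul2 (-1 : ℤ) (opdd dG1 6 5 6))) = true := by decide +kernel

/-- `16 e⁶u⁵v⁶ f'`. -/
def dfp : P2 := add2 (mul2 (mul2 (mul2 psg (ppow pe 6)) (ppow pu 4)) (ppow pv 5)) (smul2 (-2 : ℤ)
    dG1)

def dg0 : P2 := mul2 (mul2 pX pu) dk0

def dg1 : P2 := smul2 (2 : ℤ) (mul2 pu (add2 dk0 (smul2 (-4 : ℤ) (mul2 pX dxeA))))

def dg2 : P2 := mul2 (mul2 (ppow pX 3) pu) (add2 dkp2 (smul2 (2 : ℤ) dkpA))

theorem tan3 : eqv (add2 (smul2 (8 : ℤ) (mul2 (mul2 (ppow pX 3) pu) dxeB)) dfp)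
    (add2 dg1 (smul2 (-2 : ℤ) (mul2 pX dg2))) = true := by decide +kernel

theorem tan2 : eqv (add2 (add2 (mul2 (mul2 (ppow pX 3) pu) (add2 dkA2 (smul2 (-2 : ℤ) dkpA)))
    (smul2 (-2 : ℤ) (mul2 (mul2 (mul2 (mul2 pX pe) pu) pv) dGn))) (smul2 (-1 : ℤ) (mul2 pX dfp)))
    (add2 (add2 dg0 (smul2 (-2 : ℤ) (mul2 pX dg1))) (mul2 (mul2 pX pX) dg2)) = true := by
  decide +kernel

/-- `x² ((3 K + x K') e u v - 6 x K u v + 4 T x K e v - 6 T x K e u)`. -/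
def opK (K : P2) : P2 :=
  mul2 (mul2 pX pX) (add2 (add2 (add2 (mul2 (mul2 (mul2 pe pu) pv) (add2 (smul2 (3 : ℤ) K) (mul2
      pX (dx K)))) (smul2 (-6 : ℤ) (mul2 (mul2 (mul2 pX pu) pv) K))) (smul2 (4 : ℤ) (mul2 (mul2
      (mul2 (mul2 pT pX) pe) pv) K))) (smul2 (-6 : ℤ) (mul2 (mul2 (mul2 (mul2 pT pX) pe) pu) K)))

theorem dX00_eq : eqv dX00 (smul2 (2 : ℤ) (opK dk0)) = true := by decide +kernel
theorem dX10_eq : eqv dX10 (smul2 (-8 : ℤ) (opK dxeA)) = true := by decide +kernel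
theorem dX20_eq : eqv dX20 (opK dkA2) = true := by decide +kernel
theorem dX11_eq : eqv dX11 (add2 (smul2 (-4 : ℤ) (opK dkpA)) (smul2 (-2 : ℤ) (mul2 (mul2 (mul2
    psg (ppow pe 7)) (ppow pu 4)) (ppow pv 6)))) = true := by decide +kernel
theorem dX21_eq : eqv dX21 (smul2 (8 : ℤ) (opK dxeB)) = true := by decide +kernel
theorem dX31_eq : eqv dX31 (smul2 (2 : ℤ) (opK dkpA)) = true := by decide +kernel
theorem dX22_eq : eqv dX22 (smul2 (2 : ℤ) (opK dkp2)) = true := by decide +kernel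

end Vale.Agent.P219.C5
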