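import Vale.Agent.P219.C5.Real

/-! # The certificate in dimension 5: inequalities in the variables `x`, `a`, `b` -/

open Set

namespace Vale.Agent.P219.C5

variable {x T a b S : ℝ}

/-! ### Operators -/

theorem v_opD (x T : ℝ) (Q : P2) : e2 x T (opD Q) = x * (1 - T * x) *
    ((1 + x) * (1 + T * x) * e2 x T (dx Q) - 5 * ((1 + T * x) * e2 x T Q) -
      2 * (T * (1 + x) * e2 x T Q)) := by
  simp only [opD, e2_add, e2_mul, e2_smul, v_X, v_u, v_v, v_e, v_T]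
  push_cast
  ring

theorem v_opdd (x T : ℝ) (P : P2) (i j k : ℤ) : e2 x T (opdd P i j k) =
    (1 + x) * (1 - T * x) * (1 + T * x) * e2 x T (dx P) -
      i * ((1 - T * x) * (1 + T * x) * e2 x T P) + j * (T * (1 + x) * (1 + T * x) * e2 x T P) -
      k * (T * (1 + x) * (1 - T * x) * e2 x T P) := by
  simp only [opdd, e2_add, e2_mul, e2_smul, v_u, v_v, v_e, v_T]
  push_cast
  ring

theorem v_opK (x T : ℝ) (K : P2) : e2 x T (opK K) = x ^ 2 *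
    ((1 + x) * (1 - T * x) * (1 + T * x) * (3 * e2 x T K + x * e2 x T (dx K)) -
      6 * x * (1 - T * x) * (1 + T * x) * e2 x T K +
      4 * T * x * (1 + x) * (1 + T * x) * e2 x T K -
      6 * T * x * (1 + x) * (1 - T * x) * e2 x T K) := by
  simp only [opK, e2_add, e2_mul, e2_smul, v_u, v_v, v_e, v_T, v_X]
  push_cast
  ring

/-! ### Identities -/

theorem r_DA (x T : ℝ) : e2 x T dDA = e2 x T (opD dA) := e2_eqv dDA_eq x T
theorem r_DB (x T : ℝ) : e2 x T dDB = e2 x T (opD dB) := e2_eqv dDB_eq x T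

theorem r_k0 (x T : ℝ) : e2 x T dk0 = 144000 * ((1 - T ^ 2) ^ 2 * x * (1 + x) ^ 6 *
    (1 + T * x) ^ 2) + e2 x T dDA + 3 * ((1 + x) * (1 + T ^ 2 * x ^ 2) * e2 x T dA) := by
  rw [e2_eqv dk0_eq x T]
  simp only [e2_add, e2_mul, e2_smul, v_v, v_e, v_X, v_q, v_E, v_pow]
  push_cast
  ring

theorem r_kA2 (x T : ℝ) : e2 x T dkA2 = (1 + x) * (1 + T ^ 2 * x ^ 2) *
    (e2 x T dA - 3 * e2 x T dB) - e2 x T dDA - e2 x T dDB := by
  rw [e2_eqv dkA2_eq x T]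
  simp only [e2_add, e2_mul, e2_smul, v_e, v_E]
  push_cast
  ring

theorem r_kp2 (x T : ℝ) : e2 x T dkp2 = e2 x T dDB -
    (1 + x) * (1 + T ^ 2 * x ^ 2) * e2 x T dB := by
  rw [e2_eqv dkp2_eq x T]
  simp only [e2_add, e2_mul, e2_smul, v_e, v_E]
  push_cast
  ring

theorem r_kpA (x T : ℝ) : e2 x T dkpA = (1 - T * x) * (1 + x) * (1 + T * x) * e2 x T dB := by
  rw [e2_eqv dkpA_eq x T]
  simp only [e2_mul, v_u, v_v, v_e]

theorem r_xeA (x T : ℝ) : e2 x T dxeA = x * (1 + x) * e2 x T dA := by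
  rw [e2_eqv dxeA_eq x T]
  simp only [e2_mul, v_X, v_e]

theorem r_xeB (x T : ℝ) : e2 x T dxeB = x * (1 + x) * e2 x T dB := by
  rw [e2_eqv dxeB_eq x T]
  simp only [e2_mul, v_X, v_e]

theorem r_uevA (x T : ℝ) : e2 x T duevA = (1 - T * x) * (1 + x) * (1 + T * x) * e2 x T dA := by
  rw [e2_eqv duevA_eq x T]
  simp only [e2_mul, v_u, v_v, v_e]

theorem r_G1 (x T : ℝ) : e2 x T dG1 = e2 x T (opdd (mul2 pX dGn) 5 4 5) := e2_eqv dG1_eq x T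

theorem r_fpp (x T : ℝ) : e2 x T dfpp = 180 * (1654 + 70 * T ^ 2 + 105 * T ^ 4) * T ^ 2 * x *
    (1 + x) ^ 7 * (1 - T * x) ^ 4 * (1 + T * x) ^ 5 - e2 x T (opdd dG1 6 5 6) := by
  rw [e2_eqv dfpp_eq x T]
  simp only [e2_add, e2_mul, e2_smul, v_u, v_v, v_e, v_T, v_X, v_sg, v_pow]
  push_cast
  ring

theorem r_fp (x T : ℝ) : e2 x T dfp = 180 * (1654 + 70 * T ^ 2 + 105 * T ^ 4) *
    (1 + x) ^ 6 * (1 - T * x) ^ 4 * (1 + T * x) ^ 5 - 2 * e2 x T dG1 := by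
  simp only [dfp, e2_add, e2_mul, e2_smul, v_u, v_v, v_e, v_sg, v_pow]
  push_cast
  ring

theorem r_g0 (x T : ℝ) : e2 x T dg0 = x * (1 - T * x) * e2 x T dk0 := by
  simp only [dg0, e2_mul, v_X, v_u]

theorem r_g1 (x T : ℝ) : e2 x T dg1 =
    2 * ((1 - T * x) * (e2 x T dk0 - 4 * (x * e2 x T dxeA))) := by
  simp only [dg1, e2_add, e2_mul, e2_smul, v_X, v_u]
  push_cast
  ring

theorem r_g2 (x T : ℝ) : e2 x T dg2 = x ^ 3 * (1 - T * x) * (e2 x T dkp2 + 2 * e2 x T dkpA) := by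
  simp only [dg2, e2_add, e2_mul, e2_smul, v_X, v_u, v_pow]
  push_cast
  ring

theorem r_tan3 (x T : ℝ) : 8 * (x ^ 3 * (1 - T * x) * e2 x T dxeB) + e2 x T dfp =
    e2 x T dg1 - 2 * (x * e2 x T dg2) := by
  have := e2_eqv tan3 x T
  simp only [e2_add, e2_mul, e2_smul, v_X, v_u, v_pow] at this
  push_cast at this
  linarith

theorem r_tan2 (x T : ℝ) : x ^ 3 * (1 - T * x) * (e2 x T dkA2 - 2 * e2 x T dkpA) -
    2 * (x * (1 + x) * (1 - T * x) * (1 + T * x) * e2 x T dGn) - x * e2 x T dfp =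
    e2 x T dg0 - 2 * (x * e2 x T dg1) + x * x * e2 x T dg2 := by
  have := e2_eqv tan2 x T
  simp only [e2_add, e2_mul, e2_smul, v_X, v_u, v_v, v_e, v_pow] at this
  push_cast at this
  linarith

/-! ### The kernel -/

/-- `256 T⁴ x e⁶ v²` times the kernel, `S = √((1-a²)(1-b²))`. -/
noncomputable def KK (x T a b S : ℝ) : ℝ :=
  e2 x T dk0 + e2 x T dkA2 * (a ^ 2 + b ^ 2) / 2 - 4 * e2 x T dxeA * (a + b) -
    2 * e2 x T dkpA * (a * b) * S + e2 x T dkp2 * (a * b) ^ 2 +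
    4 * e2 x T dxeB * (a * b * (a + b))

/-- The lower bound. -/
noncomputable def K0 (x T a b : ℝ) : ℝ := KK x T a b (1 - (a ^ 2 + b ^ 2) / 2)

theorem kpA_nonneg (h : Dom x T) : 0 ≤ e2 x T dkpA := by
  rw [r_kpA]
  exact mul_nonneg (mul_nonneg (mul_nonneg h.u_pos.le h.e_pos.le) h.v_pos.le) (B_nonneg h)

theorem K0_le (h : Dom x T) (ha : a ∈ Icc (0 : ℝ) 1) (hb : b ∈ Icc (0 : ℝ) 1)
    (hS : S ≤ 1 - (a ^ 2 + b ^ 2) / 2) : K0 x T a b ≤ KK x T a b S := by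
  have h1 := mul_nonneg (mul_nonneg (kpA_nonneg h) (mul_nonneg ha.1 hb.1)) (sub_nonneg.2 hS)
  unfold K0 KK
  linarith

theorem c1_ineq (h : Dom x T) (ha : a ∈ Icc (0 : ℝ) 1) (hb : b ∈ Icc (0 : ℝ) 1)
    (hS : S ≤ 1 - (a ^ 2 + b ^ 2) / 2) :
    0 < KK x T a b S + 4 * x * (1 + x) * ((e2 x T dA - a ^ 2 * e2 x T dB) * b) := by
  obtain ⟨M, hM, h1⟩ := C1_pos h ha hb
  have h2 := K0_le h ha hb hS
  have h3 : e4 a b x T (dC1 M) =
      2 * (K0 x T a b + 4 * x * (1 + x) * ((e2 x T dA - a ^ 2 * e2 x T dB) * b)) - e2 x T M := by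
    simp only [dC1, e4, ev_cons, ev_nil, e2_smul, e2_add, v_nil, K0, KK, r_xeA, r_xeB]
    push_cast
    ring
  rw [h3] at h1
  linarith

theorem c7_ineq (h : Dom x T) (ha : a ∈ Icc (0 : ℝ) 1) (hb : b ∈ Icc (0 : ℝ) 1)
    (hS : S ≤ 1 - (a ^ 2 + b ^ 2) / 2) :
    0 < KK x T a b S + a * b * ((1 - T * x) * (1 + x) * (1 + T * x) *
      ((e2 x T dA - e2 x T dB) + (1 - a ^ 2) * (1 - b ^ 2) * e2 x T dB)) := by
  obtain ⟨M, hM, h1⟩ := C7_pos h ha hb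
  have h2 := K0_le h ha hb hS
  have h3 : e4 a b x T (dC7 M) =
      2 * (K0 x T a b + a * b * ((1 - T * x) * (1 + x) * (1 + T * x) *
      ((e2 x T dA - e2 x T dB) + (1 - a ^ 2) * (1 - b ^ 2) * e2 x T dB))) - e2 x T M := by
    simp only [dC7, e4, ev_cons, ev_nil, e2_smul, e2_add, v_nil, K0, KK, r_uevA, r_kpA]
    push_cast
    ring
  rw [h3] at h1
  linarith

theorem c3_ineq (h : Dom x T) (ha : a ∈ Icc (0 : ℝ) 1) :
    0 ≤ (e2 x T dDA - a ^ 2 * e2 x T dDB) +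
      4 * ((1 + x) * (1 + T ^ 2 * x ^ 2) * (e2 x T dA - a ^ 2 * e2 x T dB)) := by
  have h0 := C30_nonneg h
  have h1 := C31_nonneg h
  have h2 : a ^ 2 ≤ 1 := pow_le_one₀ ha.1 ha.2
  simp only [dC31, dC30, e2_add, e2_mul, e2_smul, v_e, v_E] at h0 h1
  push_cast at h0 h1
  have h3 := mul_nonneg (sub_nonneg.2 h2) h0
  have h4 := mul_nonneg (sq_nonneg a) h1
  linarith

theorem Q_nonneg (h : Dom x T) (ha : a ∈ Icc (0 : ℝ) 1) :
    0 ≤ e2 x T dA - a ^ 2 * e2 x T dB := by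
  have h2 : a ^ 2 ≤ 1 := pow_le_one₀ ha.1 ha.2
  have h3 := mul_nonneg (sub_nonneg.2 h2) (B_nonneg h)
  have := U1_nonneg h
  linarith

theorem sqrt_ineq {A B α β : ℝ} (hB : 0 ≤ B) (hA : B ≤ A) (ha : α ∈ Icc (0 : ℝ) 1)
    (hb : β ∈ Icc (0 : ℝ) 1) :
    (A - B) + (1 - α ^ 2) * (1 - β ^ 2) * B ≤ √((A - α ^ 2 * B) * (A - β ^ 2 * B)) := by
  refine Real.le_sqrt_of_sq_le ?_
  have h1 : 0 ≤ 1 - α ^ 2 := by have : α ^ 2 ≤ 1 := pow_le_one₀ ha.1 ha.2; linarith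
  have h2 : 0 ≤ 1 - β ^ 2 := by have : β ^ 2 ≤ 1 := pow_le_one₀ hb.1 hb.2; linarith
  have h3 : 1 - α ^ 2 ≤ 1 := by linarith [sq_nonneg α]
  have h4 : 1 - β ^ 2 ≤ 1 := by linarith [sq_nonneg β]
  obtain ⟨p, hp⟩ : ∃ p, p = 1 - α ^ 2 := ⟨_, rfl⟩
  obtain ⟨q, hq⟩ : ∃ q, q = 1 - β ^ 2 := ⟨_, rfl⟩
  rw [show A - α ^ 2 * B = (A - B) + p * B by rw [hp]; ring,
    show A - β ^ 2 * B = (A - B) + q * B by rw [hq]; ring]
  rw [← hp] at h1 h3 ⊢
  rw [← hq] at h2 h4 ⊢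
  have h5 : 0 ≤ (A - B) * B * (p * (1 - q) + q * (1 - p)) :=
    mul_nonneg (mul_nonneg (by linarith) hB)
      (add_nonneg (mul_nonneg h1 (by linarith)) (mul_nonneg h2 (by linarith)))
  have h6 : p * q ≤ 1 := by
    calc p * q ≤ 1 * 1 := mul_le_mul h3 h4 h2 zero_le_one
      _ = 1 := one_mul 1
  have h7 : 0 ≤ p * q * (1 - p * q) * B ^ 2 :=
    mul_nonneg (mul_nonneg (mul_nonneg h1 h2) (by linarith)) (sq_nonneg B)
  linarith [h5, h7]

theorem S_le (ha : a ∈ Icc (0 : ℝ) 1) (hb : b ∈ Icc (0 : ℝ) 1) :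
    √((1 - a ^ 2) * (1 - b ^ 2)) ≤ 1 - (a ^ 2 + b ^ 2) / 2 := by
  have h1 : 0 ≤ 1 - a ^ 2 := by have : a ^ 2 ≤ 1 := pow_le_one₀ ha.1 ha.2; linarith
  have h2 : 0 ≤ 1 - b ^ 2 := by have : b ^ 2 ≤ 1 := pow_le_one₀ hb.1 hb.2; linarith
  rw [Real.sqrt_le_iff]
  refine ⟨by linarith, ?_⟩
  nlinarith [sq_nonneg (a ^ 2 - b ^ 2)]

/-! ### The polynomial part of (PI), `x ≤ 1` -/

theorem H_nonneg (hx : x ∈ Icc (0 : ℝ) 1) (hT : T ∈ Icc (0 : ℝ) 1) (ha : a ∈ Icc (0 : ℝ) 1)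
    (hb : b ∈ Icc (0 : ℝ) 1) :
    0 ≤ x ^ 3 * (1 - T * x) * K0 x T a b -
      a * b * (2 * (x * (1 + x) * (1 - T * x) * (1 + T * x) * e2 x T dGn) -
        e2 x T dfp * ((a + b) / 2 - x)) := by
  have hc : (a + b) / 2 ∈ Icc (0 : ℝ) 1 := ⟨by linarith [ha.1, hb.1], by linarith [ha.2, hb.2]⟩
  have hg := gg_nonneg hx hT hc
  have hY := YY_nonneg hx hT ha hb
  have t2 := r_tan2 x T
  have t3 := r_tan3 x T
  have hu : 0 ≤ x ^ 3 * (1 - T * x) := by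
    refine mul_nonneg (pow_nonneg hx.1 3) ?_
    have : T * x ≤ 1 * 1 := mul_le_mul hT.2 hx.2 hx.1 zero_le_one
    linarith
  have eg : e3 ((a + b) / 2) x T dgg = e2 x T dg0 + (a + b) / 2 * e2 x T dg1 +
      ((a + b) / 2) ^ 2 * e2 x T dg2 := by
    simp only [dgg, e3, ev_cons, ev_nil]; ring
  have eY : e4 a b x T dYY = 4 * e2 x T dk0 - 16 * e2 x T dxeA * (a + b) +
      2 * e2 x T dkA2 * (a + b) ^ 2 -
      (e2 x T dkp2 - 2 * e2 x T dkpA) * (a * b) * (a + b) ^ 2 := by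
    simp only [dYY, dY1, e4, ev_cons, ev_nil, e2_smul, e2_add, v_nil]
    push_cast
    ring
  rcases hc.1.eq_or_lt with h0 | h0
  · have ha0 : a = 0 := by linarith [ha.1, hb.1]
    have hb0 : b = 0 := by linarith [ha.1, hb.1]
    subst ha0; subst hb0
    rw [eg] at hg
    have e := r_g0 x T
    have h1 := mul_nonneg (sq_nonneg x) hg
    unfold K0 KK
    have e1 : x ^ 2 * (e2 x T dg0 + (0 + 0) / 2 * e2 x T dg1 + ((0 + 0) / 2) ^ 2 * e2 x T dg2) =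
        x ^ 3 * (1 - T * x) * e2 x T dk0 := by rw [e]; ring
    rw [e1] at h1
    linarith
  · refine nonneg_of_mul_nonneg_right (a := ((a + b) / 2) ^ 2) ?_ (by positivity)
    have h1 : 0 ≤ a * b * ((a + b) / 2 - x) ^ 2 * e3 ((a + b) / 2) x T dgg :=
      mul_nonneg (mul_nonneg (mul_nonneg ha.1 hb.1) (sq_nonneg _)) hg
    have h2 : 0 ≤ ((a - b) / 2) ^ 2 * (x ^ 3 * (1 - T * x)) * (e4 a b x T dYY / 4) :=
      mul_nonneg (mul_nonneg (sq_nonneg _) hu) (by linarith)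
    have h3 : ((a + b) / 2) ^ 2 * (x ^ 3 * (1 - T * x) * K0 x T a b -
      a * b * (2 * (x * (1 + x) * (1 - T * x) * (1 + T * x) * e2 x T dGn) -
        e2 x T dfp * ((a + b) / 2 - x))) = a * b * ((a + b) / 2 - x) ^ 2 *
        e3 ((a + b) / 2) x T dgg + ((a - b) / 2) ^ 2 * (x ^ 3 * (1 - T * x)) *
        (e4 a b x T dYY / 4) := by
      rw [eg, eY]
      have e0 := r_g0 x T
      have e1 := r_g1 x T
      have e2' := r_g2 x T
      unfold K0 KK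
      generalize e2 x T dGn = Gn at *
      generalize e2 x T dfp = fp at *
      generalize e2 x T dg0 = g0 at *
      generalize e2 x T dg1 = g1 at *
      generalize e2 x T dg2 = g2 at *
      generalize e2 x T dk0 = k0 at *
      generalize e2 x T dkA2 = kA2 at *
      generalize e2 x T dkp2 = kp2 at *
      generalize e2 x T dkpA = kpA at *
      generalize e2 x T dxeA = xeA at *
      generalize e2 x T dxeB = xeB at *
      subst e0; subst e1; subst e2'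
      linear_combination (a * b * ((a + b) / 2) ^ 2) * t2 + (a * b * ((a + b) / 2) ^ 3) * t3
    rw [h3]
    exact add_nonneg h1 h2

end Vale.Agent.P219.C5
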