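import Mathlib

/-!
# Polynomials as nested lists, evaluated by the kernel

Polynomials in several variables are nested lists of coefficients, low degree first. All
operations are defined by `List.rec`, so that the kernel evaluates them quickly. Bernstein
coefficients are computed with additions of natural numbers only (positive and negative parts
separately).
-/

open Set

namespace Vale.Agent.P219.C5

/-! ### Lists -/

section

variable {R S : Type}

def kmap (f : R → S) (p : List R) : List S :=
  List.rec (motive := fun _ => List S) [] (fun a _ ih => f a :: ih) p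

theorem kmap_eq (f : R → S) (p : List R) : kmap f p = p.map f := by
  induction p with
  | nil => rfl
  | cons a p ih => rw [List.map_cons, ← ih]; rfl

def klen (p : List R) : ℕ := List.rec (motive := fun _ => ℕ) 0 (fun _ _ ih => Nat.succ ih) p

theorem klen_eq (p : List R) : klen p = p.length := by
  induction p with
  | nil => rfl
  | cons a p ih => rw [List.length_cons, ← ih]; rfl

def kapp (p q : List R) : List R := List.rec (motive := fun _ => List R) q (fun a _ ih => a :: ih) p

theorem kapp_eq (p q : List R) : kapp p q = p ++ q := by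
  induction p with
  | nil => rfl
  | cons a p ih => rw [List.cons_append, ← ih]; rfl

def krep (a : R) (n : ℕ) : List R := Nat.rec (motive := fun _ => List R) [] (fun _ ih => a :: ih) n

theorem krep_eq (a : R) (n : ℕ) : krep a n = List.replicate n a := by
  induction n with
  | zero => rfl
  | succ n ih => rw [List.replicate_succ, ← ih]; rfl

/-- Addition of polynomials. -/
def kadd (add : R → R → R) (p : List R) : List R → List R :=
  List.rec (motive := fun _ => List R → List R) (fun q => q)
    (fun a p ih q => List.rec (motive := fun _ => List R) (a :: p)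
      (fun b q _ => add a b :: ih q) q) p

/-- Multiplication of polynomials. -/
def kmul (add mul : R → R → R) (zero : R) (p q : List R) : List R :=
  List.rec (motive := fun _ => List R) []
    (fun a _ ih => kadd add (kmap (mul a) q) (zero :: ih)) p

/-- Derivative of a polynomial. -/
def kder (add : R → R → R) (zero : R) (p : List R) : List R :=
  List.rec (motive := fun _ => List R) [] (fun _ p ih => kadd add p (zero :: ih)) p

def kall (t : R → Bool) (p : List R) : Bool :=
  List.rec (motive := fun _ => Bool) true (fun a _ ih => and (t a) ih) p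

/-- Comparison of lists. -/
def kall2 (c : R → R → Bool) (p : List R) : List R → Bool :=
  List.rec (motive := fun _ => List R → Bool)
    (fun q => List.rec (motive := fun _ => Bool) true (fun _ _ _ => false) q)
    (fun a _ ih q => List.rec (motive := fun _ => Bool) false
      (fun b q _ => and (c a b) (ih q)) q) p

/-- `t ↦ c + (1 + y) t + y^k a`. -/
def kst (add : R → R → R) (t : List R) : R → R → List R :=
  List.rec (motive := fun _ => R → R → List R) (fun c a => [add c a])
    (fun d _ ih c a => add c d :: ih d a) t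

/-- `t ↦ (1 + y) t + y^k a`. -/
def kst0 (add : R → R → R) (t : List R) (a : R) : List R :=
  List.rec (motive := fun _ => List R) [a] (fun c t _ => c :: kst add t c a) t

/-- `∑ aᵢ yⁱ (1+y)^(n-1-i)`. -/
def kbt (add : R → R → R) (p : List R) : List R :=
  List.rec (motive := fun _ => List R → List R) (fun t => t) (fun a _ ih t => ih (kst0 add t a)) p []

/-- Comparison of polynomials on `[0,1]`. -/
def kchk (add : R → R → R) (c : R → R → Bool) (p q : List R) : Bool :=
  and (Nat.beq (klen p) (klen q)) (kall2 c (kbt add p) (kbt add q))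

end

/-! ### Evaluation -/

/-- Evaluation of a polynomial. -/
def ev {R : Type} (e : R → ℝ) (x : ℝ) : List R → ℝ
  | [] => 0
  | a :: p => e a + x * ev e x p

section

variable {R S : Type}

@[simp] theorem ev_nil (e : R → ℝ) (x : ℝ) : ev e x [] = 0 := rfl

@[simp] theorem ev_cons (e : R → ℝ) (x : ℝ) (a : R) (p : List R) :
    ev e x (a :: p) = e a + x * ev e x p := rfl

theorem continuous_ev (e : R → ℝ) : ∀ p : List R, Continuous fun x => ev e x p
  | [] => by simpa using continuous_const
  | a :: p => by
    simp only [ev_cons]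
    exact continuous_const.add (continuous_id.mul (continuous_ev e p))

theorem ev_map (e : S → ℝ) (f : R → S) (x : ℝ) (p : List R) :
    ev e x (p.map f) = ev (fun a => e (f a)) x p := by
  induction p with
  | nil => rfl
  | cons a p ih => rw [List.map_cons, ev_cons, ev_cons, ih]

theorem ev_kmap (e : S → ℝ) (f : R → S) (x : ℝ) (p : List R) :
    ev e x (kmap f p) = ev (fun a => e (f a)) x p := by rw [kmap_eq, ev_map]

theorem ev_mul_left (e : R → ℝ) (c x : ℝ) (p : List R) :
    ev (fun a => c * e a) x p = c * ev e x p := by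
  induction p with
  | nil => simp
  | cons a p ih => rw [ev_cons, ev_cons, ih]; ring

theorem ev_sub (e f : R → ℝ) (x : ℝ) (p : List R) :
    ev (fun a => e a - f a) x p = ev e x p - ev f x p := by
  induction p with
  | nil => simp
  | cons a p ih => rw [ev_cons, ev_cons, ev_cons, ih]; ring

theorem ev_replicate {e : R → ℝ} {z : R} (hz : e z = 0) (n : ℕ) (y : ℝ) (r : List R) :
    ev e y (List.replicate n z ++ r) = y ^ n * ev e y r := by
  induction n with
  | zero => simp
  | succ n ih => rw [List.replicate_succ, List.cons_append, ev_cons, ih, hz]; ring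

theorem ev_pad {e : R → ℝ} {z : R} (hz : e z = 0) (n : ℕ) (y : ℝ) (r : List R) :
    ev e y (r ++ List.replicate n z) = ev e y r := by
  induction r with
  | nil =>
    have := ev_replicate hz n y []
    simpa using this
  | cons a r ih => rw [List.cons_append, ev_cons, ev_cons, ih]

variable {add mul : R → R → R} {zero : R} {e : R → ℝ}

theorem ev_kadd (h : ∀ a b, e (add a b) = e a + e b) (x : ℝ) (p : List R) :
    ∀ q, ev e x (kadd add p q) = ev e x p + ev e x q := by
  induction p with
  | nil => intro q; simp [kadd]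
  | cons a p ih =>
    intro q
    cases q with
    | nil => simp [kadd]
    | cons b q =>
      change ev e x (add a b :: kadd add p q) = _
      rw [ev_cons, ih, h, ev_cons, ev_cons]; ring

theorem ev_kmul (ha : ∀ a b, e (add a b) = e a + e b) (hm : ∀ a b, e (mul a b) = e a * e b)
    (hz : e zero = 0) (x : ℝ) (p q : List R) :
    ev e x (kmul add mul zero p q) = ev e x p * ev e x q := by
  induction p with
  | nil => simp [kmul]
  | cons a p ih =>
    change ev e x (kadd add (kmap (mul a) q) (zero :: kmul add mul zero p q)) = _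
    rw [ev_kadd ha, ev_kmap, ev_cons, ev_cons, ih, hz]
    simp only [hm]
    rw [ev_mul_left]; ring

theorem hasDerivAt_ev (ha : ∀ a b, e (add a b) = e a + e b) (hz : e zero = 0) (x : ℝ)
    (p : List R) : HasDerivAt (fun y => ev e y p) (ev e x (kder add zero p)) x := by
  induction p with
  | nil => simpa [kder] using hasDerivAt_const x (0 : ℝ)
  | cons a p ih =>
    change HasDerivAt _ (ev e x (kadd add p (zero :: kder add zero p))) x
    simp only [ev_cons]
    rw [ev_kadd ha, ev_cons, hz]
    refine (((hasDerivAt_id x).mul ih).const_add (e a)).congr_deriv ?_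
    simp

theorem ev_kall {t : R → Bool} (hz : ∀ a, t a = true → e a = 0) (x : ℝ) (p : List R)
    (h : kall t p = true) : ev e x p = 0 := by
  induction p with
  | nil => rfl
  | cons a p ih =>
    change and (t a) (kall t p) = true at h
    rw [Bool.and_eq_true] at h
    rw [ev_cons, hz a h.1, ih h.2]; simp

theorem mem_of_kall {t : R → Bool} {p : List R} (h : kall t p = true) : ∀ a ∈ p, t a = true := by
  induction p with
  | nil => simp
  | cons a p ih =>
    change and (t a) (kall t p) = true at h
    rw [Bool.and_eq_true] at h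
    intro b hb
    rcases List.mem_cons.1 hb with rfl | hb
    · exact h.1
    · exact ih h.2 b hb

/-! ### Bernstein coefficients -/

theorem ev_kst (h : ∀ a b, e (add a b) = e a + e b) (y : ℝ) (t : List R) :
    ∀ c a : R, ev e y (kst add t c a) = e c + (1 + y) * ev e y t + y ^ t.length * e a := by
  induction t with
  | nil => intro c a; simp [kst, h]
  | cons d t ih =>
    intro c a
    change ev e y (add c d :: kst add t d a) = _
    rw [ev_cons, ih, h, ev_cons, List.length_cons, pow_succ]; ring

theorem length_kst (t : List R) : ∀ c a : R, (kst add t c a).length = t.length + 1 := by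
  induction t with
  | nil => intro c a; rfl
  | cons d t ih =>
    intro c a
    change (add c d :: kst add t d a).length = _
    rw [List.length_cons, ih, List.length_cons]

theorem ev_kst0 (h : ∀ a b, e (add a b) = e a + e b) (y : ℝ) (t : List R) (a : R) :
    ev e y (kst0 add t a) = (1 + y) * ev e y t + y ^ t.length * e a := by
  cases t with
  | nil => simp [kst0]
  | cons c t =>
    change ev e y (c :: kst add t c a) = _
    rw [ev_cons, ev_kst h, ev_cons, List.length_cons, pow_succ]; ring

theorem length_kst0 (t : List R) (a : R) : (kst0 add t a).length = t.length + 1 := by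
  cases t with
  | nil => rfl
  | cons c t =>
    change (c :: kst add t c a).length = _
    rw [List.length_cons, length_kst, List.length_cons]

theorem ev_kbt_aux (h : ∀ a b, e (add a b) = e a + e b) {y : ℝ} (hy : 1 + y ≠ 0) (p : List R) :
    ∀ t : List R, (1 + y) * ev e y (List.rec (motive := fun _ => List R → List R) (fun t => t)
      (fun a _ ih t => ih (kst0 add t a)) p t) =
      (1 + y) ^ p.length * ((1 + y) * ev e y t + y ^ t.length * ev e (y / (1 + y)) p) := by
  induction p with
  | nil => intro t; simp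
  | cons a p ih =>
    intro t
    refine (ih (kst0 add t a)).trans ?_
    rw [ev_kst0 h, length_kst0, List.length_cons, ev_cons, pow_succ, pow_succ]
    field_simp
    ring

theorem ev_kbt (h : ∀ a b, e (add a b) = e a + e b) {y : ℝ} (hy : 1 + y ≠ 0) (p : List R) :
    (1 + y) * ev e y (kbt add p) = (1 + y) ^ p.length * ev e (y / (1 + y)) p := by
  rw [kbt, ev_kbt_aux h hy]; simp

theorem kall2_le {c : R → R → Bool} (hc : ∀ a b, c a b = true → e a ≤ e b) {y : ℝ} (hy : 0 ≤ y)
    (p : List R) : ∀ q : List R, kall2 c p q = true → ev e y p ≤ ev e y q := by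
  induction p with
  | nil =>
    intro q h
    cases q with
    | nil => exact le_rfl
    | cons b q => exact absurd h (by simp [kall2])
  | cons a p ih =>
    intro q h
    cases q with
    | nil => exact absurd h (by simp [kall2])
    | cons b q =>
      change and (c a b) (kall2 c p q) = true at h
      rw [Bool.and_eq_true] at h
      rw [ev_cons, ev_cons]
      exact add_le_add (hc a b h.1) (mul_le_mul_of_nonneg_left (ih q h.2) hy)

theorem nonneg_Icc_of_Ico {g : ℝ → ℝ} (hg : Continuous g) (h : ∀ x ∈ Ico (0 : ℝ) 1, 0 ≤ g x) :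
    ∀ x ∈ Icc (0 : ℝ) 1, 0 ≤ g x := by
  intro x hx
  have h1 : closure (Ico (0 : ℝ) 1) = Icc 0 1 := closure_Ico (by norm_num)
  have h2 : closure (Ico (0 : ℝ) 1) ⊆ g ⁻¹' Ici 0 :=
    closure_minimal (fun y hy => h y hy) (isClosed_Ici.preimage hg)
  exact h2 (h1 ▸ hx)

theorem kchk_le (h : ∀ a b, e (add a b) = e a + e b) {c : R → R → Bool}
    (hc : ∀ a b, c a b = true → e a ≤ e b) {p q : List R} (hp : kchk add c p q = true) {x : ℝ}
    (hx : x ∈ Icc (0 : ℝ) 1) : ev e x p ≤ ev e x q := by
  rw [kchk, Bool.and_eq_true, klen_eq, klen_eq] at hp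
  have hlen := Nat.eq_of_beq_eq_true hp.1
  have key : ∀ x ∈ Icc (0 : ℝ) 1, 0 ≤ ev e x q - ev e x p := by
    refine nonneg_Icc_of_Ico ((continuous_ev e q).sub (continuous_ev e p)) fun x hx => ?_
    have h1 : 0 < 1 - x := by linarith [hx.2]
    set y := x / (1 - x) with hy
    have hy0 : 0 ≤ y := div_nonneg hx.1 h1.le
    have h3 : y / (1 + y) = x := by rw [hy]; field_simp; ring
    have h4 := ev_kbt h (y := y) (by positivity) p
    have h5 := ev_kbt h (y := y) (by positivity) q
    rw [h3] at h4 h5
    have h6 := kall2_le hc hy0 _ _ hp.2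
    have h7 : (1 + y) * ev e y (kbt add p) ≤ (1 + y) * ev e y (kbt add q) :=
      mul_le_mul_of_nonneg_left h6 (by positivity)
    rw [h4, h5, hlen] at h7
    have h8 : 0 < (1 + y) ^ q.length := by positivity
    have := le_of_mul_le_mul_left h7 h8
    linarith
  linarith [key x hx]

end

/-! ### Natural coefficients -/

/-- Evaluation of natural numbers. -/
def evn : ℕ → ℝ := fun c => (c : ℝ)

/-- Polynomials in `x`, `T` with natural coefficients. -/
abbrev N2 := List (List ℕ)

/-- Evaluation. -/
noncomputable def n2 (x T : ℝ) : N2 → ℝ := ev (ev evn T) x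

def addN1 : List ℕ → List ℕ → List ℕ := kadd Nat.add
def addN2 : N2 → N2 → N2 := kadd addN1

theorem evn_zero : evn 0 = 0 := by simp [evn]

theorem evn_add (a b : ℕ) : evn (Nat.add a b) = evn a + evn b := by
  simp only [evn, Nat.add_eq, Nat.cast_add]

theorem ev_addN1 (t : ℝ) (a b : List ℕ) : ev evn t (addN1 a b) = ev evn t a + ev evn t b :=
  ev_kadd evn_add t a b

theorem n2_addN2 (x t : ℝ) (a b : N2) : n2 x t (addN2 a b) = n2 x t a + n2 x t b :=
  ev_kadd (ev_addN1 t) x a b

/-- Padding. -/
def padN (L : ℕ) (r : List ℕ) : List ℕ := kapp r (krep 0 (Nat.sub L (klen r)))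

theorem ev_padN (L : ℕ) (t : ℝ) (r : List ℕ) : ev evn t (padN L r) = ev evn t r := by
  rw [padN, kapp_eq, krep_eq, ev_pad evn_zero]

/-- Comparison on the unit square. -/
def chk2 (L : ℕ) : N2 → N2 → Bool :=
  kchk addN1 fun p q => kchk Nat.add Nat.ble (padN L p) (padN L q)

theorem chk2_le {L : ℕ} {p q : N2} (h : chk2 L p q = true) {x T : ℝ} (hx : x ∈ Icc (0 : ℝ) 1)
    (hT : T ∈ Icc (0 : ℝ) 1) : n2 x T p ≤ n2 x T q := by
  refine kchk_le (ev_addN1 T) (fun a b hab => ?_) h hx
  have := kchk_le evn_add (fun c d hcd => ?_) hab hT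
  · rwa [ev_padN, ev_padN] at this
  · have := Nat.le_of_ble_eq_true hcd
    simpa [evn] using this

/-- Reversed columns are extended by a row. -/
def consCols (acc : N2) : List ℕ → N2 :=
  List.rec (motive := fun _ => List ℕ → N2) (fun _ => [])
    (fun q _ ih r => List.rec (motive := fun _ => N2) ((0 :: q) :: ih [])
      (fun c r _ => (c :: q) :: ih r) r) acc

theorem ev_consCols (w y : ℝ) (acc : N2) : ∀ r : List ℕ, r.length ≤ acc.length →
    n2 w y (consCols acc r) = ev evn w r + y * n2 w y acc := by
  induction acc with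
  | nil =>
    intro r hr
    have : r = [] := by simpa using hr
    subst this
    simp [consCols, n2]
  | cons q acc ih =>
    intro r hr
    cases r with
    | nil =>
      change n2 w y ((0 :: q) :: consCols acc []) = _
      have h1 := ih [] (by simp)
      unfold n2 at h1 ⊢
      rw [ev_cons, h1, ev_cons, evn_zero, ev_cons, ev_nil]; ring
    | cons c r =>
      change n2 w y ((c :: q) :: consCols acc r) = _
      have h1 := ih r (by simpa using hr)
      unfold n2 at h1 ⊢
      rw [ev_cons, h1, ev_cons, ev_cons, ev_cons]; ring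

theorem length_consCols (acc : N2) : ∀ r : List ℕ, (consCols acc r).length = acc.length := by
  induction acc with
  | nil => intro r; rfl
  | cons q acc ih =>
    intro r
    cases r with
    | nil => change ((0 :: q) :: consCols acc []).length = _; rw [List.length_cons, ih]; rfl
    | cons c r => change ((c :: q) :: consCols acc r).length = _; rw [List.length_cons, ih]; rfl

/-- `y^j` times the `j`-th entry. -/
def shiftCols (p : N2) : N2 :=
  List.rec (motive := fun _ => N2) [] (fun q _ ih => q :: kmap (List.cons 0) ih) p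

theorem ev_shiftCols (w y : ℝ) (p : N2) : n2 w y (shiftCols p) = n2 (w * y) y p := by
  induction p with
  | nil => rfl
  | cons q p ih =>
    change n2 w y (q :: kmap (List.cons 0) (shiftCols p)) = _
    have h1 : ev (fun a => ev evn y (0 :: a)) w (shiftCols p) =
        y * ev (ev evn y) w (shiftCols p) := by
      simp only [ev_cons, evn_zero, zero_add]
      rw [ev_mul_left]
    unfold n2 at ih ⊢
    rw [ev_cons, ev_kmap, h1, ih, ev_cons]; ring

/-- All columns, reversed. -/
def cols (p : N2) : N2 → N2 :=
  List.rec (motive := fun _ => N2 → N2) (fun t => t) (fun r _ ih t => ih (consCols t r)) p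

theorem ev_cols {w y : ℝ} (hy : y ≠ 0) (p : N2) : ∀ t : N2, (∀ r ∈ p, r.length ≤ t.length) →
    n2 w y (cols p t) = y ^ p.length * (n2 w y t + 1 / y * n2 (1 / y) w p) := by
  induction p with
  | nil => intro t _; simp [cols, n2]
  | cons r p ih =>
    intro t ht
    refine (ih (consCols t r) (fun r' hr' => ?_)).trans ?_
    · rw [length_consCols]; exact ht r' (by simp [hr'])
    · rw [ev_consCols w y t r (ht r (by simp))]
      have : n2 (1 / y) w (r :: p) = ev evn w r + 1 / y * n2 (1 / y) w p := rfl
      rw [this, List.length_cons, pow_succ]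
      field_simp
      ring

/-- `y^(n-1) p(1/y, w y)`, outer variable `w`, `n` the length. -/
def tN (M : ℕ) (p : N2) : N2 := shiftCols (cols p (krep [] M))

theorem ev_tN {w y : ℝ} (hy : y ≠ 0) {M : ℕ} {p : N2} (hp : ∀ r ∈ p, r.length ≤ M) :
    y * n2 w y (tN M p) = y ^ p.length * n2 (1 / y) (w * y) p := by
  rw [tN, ev_shiftCols, ev_cols hy p _ (by simpa [krep_eq] using hp), krep_eq]
  have : n2 (w * y) y (List.replicate M []) = 0 := by
    have := ev_replicate (e := ev evn y) (z := []) rfl M (w * y) []
    simpa [n2] using this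
  rw [this]; field_simp; ring

/-- Comparison on `x ≥ 1`, `T x ≤ 1`. -/
def chkT (M L : ℕ) (p q : N2) : Bool :=
  and (Nat.beq (klen p) (klen q)) (and (and (kall (fun r => Nat.ble (klen r) M) p)
    (kall (fun r => Nat.ble (klen r) M) q)) (chk2 L (tN M p) (tN M q)))

theorem chkT_aux {M : ℕ} {p : N2} (h : kall (fun r => Nat.ble (klen r) M) p = true) :
    ∀ r ∈ p, r.length ≤ M := by
  intro r hr
  have := mem_of_kall h r hr
  rw [klen_eq] at this
  exact Nat.le_of_ble_eq_true this

theorem chkT_le' {M : ℕ} {p q : N2} (h : p.length = q.length) (hp : ∀ r ∈ p, r.length ≤ M)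
    (hq : ∀ r ∈ q, r.length ≤ M) {x T : ℝ} (hx : 0 < x)
    (h0 : n2 (T * x) (1 / x) (tN M p) ≤ n2 (T * x) (1 / x) (tN M q)) : n2 x T p ≤ n2 x T q := by
  have hy : (1 / x : ℝ) ≠ 0 := by positivity
  have h1 := ev_tN (w := T * x) hy hp
  have h2 := ev_tN (w := T * x) hy hq
  have h3 : T * x * (1 / x) = T := by field_simp
  rw [h3, one_div_one_div] at h1 h2
  have h4 := mul_le_mul_of_nonneg_left h0 (show (0 : ℝ) ≤ 1 / x by positivity)
  rw [h1, h2, h] at h4
  exact le_of_mul_le_mul_left h4 (by positivity)

theorem chkT_le {M L : ℕ} {p q : N2} (h : chkT M L p q = true) {x T : ℝ} (hx : 1 ≤ x)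
    (hT : 0 ≤ T) (hxT : T * x ≤ 1) : n2 x T p ≤ n2 x T q := by
  rw [chkT, Bool.and_eq_true, Bool.and_eq_true, Bool.and_eq_true, klen_eq, klen_eq] at h
  have hx0 : 0 < x := by linarith
  refine chkT_le' (Nat.eq_of_beq_eq_true h.1) (chkT_aux h.2.1.1) (chkT_aux h.2.1.2) hx0 ?_
  exact chk2_le h.2.2 ⟨by positivity, hxT⟩ ⟨by positivity, by rw [div_le_one hx0]; exact hx⟩

/-! ### Integer coefficients -/

/-- Evaluation of integers. -/
def evz : ℤ → ℝ := fun c => (c : ℝ)

/-- Polynomials in `x` with coefficients polynomials in `T`. -/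
abbrev P2 := List (List ℤ)

/-- Evaluation. -/
noncomputable def e2 (x T : ℝ) : P2 → ℝ := ev (ev evz T) x

def add1 : List ℤ → List ℤ → List ℤ := kadd Int.add
def mul1 : List ℤ → List ℤ → List ℤ := kmul Int.add Int.mul 0
def add2 : P2 → P2 → P2 := kadd add1
def mul2 : P2 → P2 → P2 := kmul add1 mul1 []
def smul2 (c : ℤ) : P2 → P2 := kmap (kmap (Int.mul c))
/-- Derivative in `x`. -/
def dx : P2 → P2 := kder add1 []
/-- Test of vanishing. -/
def isz : ℤ → Bool
  | .ofNat n => Nat.beq n 0
  | .negSucc _ => false

theorem evz_zero : evz 0 = 0 := by simp [evz]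
theorem evz_add (a b : ℤ) : evz (Int.add a b) = evz a + evz b := by
  simp only [evz]; exact_mod_cast Int.cast_add a b
theorem evz_mul (a b : ℤ) : evz (Int.mul a b) = evz a * evz b := by
  simp only [evz]; exact_mod_cast Int.cast_mul a b
theorem ev_add1 (t : ℝ) (a b : List ℤ) : ev evz t (add1 a b) = ev evz t a + ev evz t b :=
  ev_kadd evz_add t a b
theorem ev_mul1 (t : ℝ) (a b : List ℤ) : ev evz t (mul1 a b) = ev evz t a * ev evz t b :=
  ev_kmul evz_add evz_mul evz_zero t a b
theorem e2_add (x T : ℝ) (a b : P2) : e2 x T (add2 a b) = e2 x T a + e2 x T b :=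
  ev_kadd (ev_add1 T) x a b
theorem e2_mul (x T : ℝ) (a b : P2) : e2 x T (mul2 a b) = e2 x T a * e2 x T b :=
  ev_kmul (ev_add1 T) (ev_mul1 T) rfl x a b
theorem e2_smul (x T : ℝ) (c : ℤ) (a : P2) : e2 x T (smul2 c a) = c * e2 x T a := by
  unfold e2 smul2
  rw [ev_kmap]
  have : (fun r : List ℤ => ev evz T (kmap (Int.mul c) r)) = fun r => (c : ℝ) * ev evz T r := by
    funext r
    rw [ev_kmap]
    simp only [evz_mul]
    exact ev_mul_left evz c T r
  rw [this, ev_mul_left]

theorem hasDerivAt_e2 (x T : ℝ) (a : P2) : HasDerivAt (fun x => e2 x T a) (e2 x T (dx a)) x :=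
  hasDerivAt_ev (ev_add1 T) rfl x a

theorem isz_eq {a : ℤ} (h : isz a = true) : evz a = 0 := by
  cases a with
  | ofNat n =>
    have : n = 0 := Nat.eq_of_beq_eq_true h
    subst this; simp [evz]
  | negSucc n => exact absurd h (by simp [isz])

/-- Test of vanishing. -/
def isz2 : P2 → Bool := kall (kall isz)

theorem e2_isz2 (x T : ℝ) {a : P2} (h : isz2 a = true) : e2 x T a = 0 :=
  ev_kall (fun r hr => ev_kall (fun _ hc => isz_eq hc) T r hr) x a h

/-- Equality of polynomials. -/
def eqv (a b : P2) : Bool := isz2 (add2 a (smul2 (-1) b))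

theorem e2_eqv {a b : P2} (h : eqv a b = true) (x T : ℝ) : e2 x T a = e2 x T b := by
  have := e2_isz2 x T h
  rw [e2_add, e2_smul] at this
  push_cast at this
  linarith

/-- Positive part. -/
def posz : ℤ → ℕ
  | .ofNat n => n
  | .negSucc _ => 0
/-- Negative part. -/
def negz : ℤ → ℕ
  | .ofNat _ => 0
  | .negSucc n => Nat.succ n
/-- Positive part. -/
def pp : P2 → N2 := kmap (kmap posz)
/-- Negative part. -/
def np : P2 → N2 := kmap (kmap negz)

theorem evz_eq_sub' (a : ℤ) : evz a = evn (posz a) - evn (negz a) := by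
  cases a with
  | ofNat n => simp [evz, evn, posz, negz]
  | negSucc n => simp [evz, evn, posz, negz]

theorem evz_eq_sub (t : ℝ) (r : List ℤ) :
    ev evz t r = ev evn t (kmap posz r) - ev evn t (kmap negz r) := by
  rw [ev_kmap, ev_kmap, ← ev_sub]
  congr 1
  funext a
  exact evz_eq_sub' a

theorem e2_eq_sub (x t : ℝ) (p : P2) : e2 x t p = n2 x t (pp p) - n2 x t (np p) := by
  rw [pp, np]
  unfold n2 e2
  rw [ev_kmap, ev_kmap, ← ev_sub]
  congr 1
  funext r
  exact evz_eq_sub t r

/-! ### Tests -/

/-- Evaluation, outer variable `a`. -/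
noncomputable def e3 (a x T : ℝ) : List P2 → ℝ := ev (e2 x T) a
/-- Evaluation, outer variables `a`, `b`. -/
noncomputable def e4 (a b x T : ℝ) : List (List P2) → ℝ := ev (ev (e2 x T) b) a

/-- Test in `x`, `T`. -/
def t2 (c : N2 → N2 → Bool) (p : P2) : Bool := c (np p) (pp p)

/-- Test in `a`, `x`, `T`, given a test in `x`, `T`. -/
def t3 (c : N2 → N2 → Bool) (Q : List P2) : Bool := kchk addN2 c (kmap np Q) (kmap pp Q)

/-- Test in `a`, `b`, `x`, `T`, given a test in `x`, `T`. -/
def t4 (c : N2 → N2 → Bool) (Q : List (List P2)) : Bool :=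
  kchk (kadd addN2) (kchk addN2 c) (kmap (kmap np) Q) (kmap (kmap pp) Q)

theorem t2_nonneg {c : N2 → N2 → Bool} {x T : ℝ} (hc : ∀ p q, c p q = true → n2 x T p ≤ n2 x T q)
    {Q : P2} (h : t2 c Q = true) : 0 ≤ e2 x T Q := by
  rw [e2_eq_sub]; linarith [hc _ _ h]

theorem t3_nonneg {c : N2 → N2 → Bool} {x T : ℝ} (hc : ∀ p q, c p q = true → n2 x T p ≤ n2 x T q)
    {Q : List P2} (h : t3 c Q = true) {a : ℝ} (ha : a ∈ Icc (0 : ℝ) 1) : 0 ≤ e3 a x T Q := by
  have := kchk_le (n2_addN2 x T) hc h ha
  rw [ev_kmap, ev_kmap] at this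
  have h2 : e3 a x T Q = ev (fun p => n2 x T (pp p) - n2 x T (np p)) a Q := by
    rw [e3]; congr 1; funext p; exact e2_eq_sub x T p
  rw [h2, ev_sub]; linarith

theorem t4_nonneg {c : N2 → N2 → Bool} {x T : ℝ} (hc : ∀ p q, c p q = true → n2 x T p ≤ n2 x T q)
    {Q : List (List P2)} (h : t4 c Q = true) {a b : ℝ} (ha : a ∈ Icc (0 : ℝ) 1)
    (hb : b ∈ Icc (0 : ℝ) 1) : 0 ≤ e4 a b x T Q := by
  have := kchk_le (e := ev (n2 x T) b) (ev_kadd (n2_addN2 x T) b)
    (fun p q hpq => kchk_le (n2_addN2 x T) hc hpq hb) h ha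
  rw [ev_kmap, ev_kmap] at this
  have h2 : e4 a b x T Q =
      ev (fun p => ev (n2 x T) b (kmap pp p) - ev (n2 x T) b (kmap np p)) a Q := by
    rw [e4]; congr 1; funext p
    rw [ev_kmap, ev_kmap, ← ev_sub]
    congr 1; funext r; exact e2_eq_sub x T r
  rw [h2, ev_sub]; linarith

/-! ### Boxes -/

/-- `D^(n-1) p((i + X)/D)`, `n` the length. -/
def kaff {R : Type} (add : R → R → R) (sm : ℤ → R → R) (zero : R) (i : ℤ) (D : ℕ) (p : List R) :
    List R :=
  List.rec (motive := fun _ => List R) [] (fun a p ih =>
    kadd add [sm (Int.ofNat (Nat.pow D (klen p))) a] (kadd add (kmap (sm i) ih) (zero :: ih))) p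

theorem ev_kaff {R : Type} {add : R → R → R} {sm : ℤ → R → R} {zero : R} {e : R → ℝ}
    (ha : ∀ a b, e (add a b) = e a + e b) (hz : e zero = 0)
    (hs : ∀ (c : ℤ) a, e (sm c a) = c * e a) {i : ℤ} {D : ℕ} (hD : (D : ℝ) ≠ 0) (x : ℝ)
    (p : List R) : (D : ℝ) * ev e x (kaff add sm zero i D p) =
      (D : ℝ) ^ p.length * ev e ((i + x) / D) p := by
  induction p with
  | nil => simp [kaff]
  | cons a p ih =>
    change (D : ℝ) * ev e x (kadd add [sm (Int.ofNat (Nat.pow D (klen p))) a]
      (kadd add (kmap (sm i) (kaff add sm zero i D p)) (zero :: kaff add sm zero i D p))) = _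
    rw [ev_kadd ha, ev_kadd ha, ev_kmap, ev_cons, ev_cons, hz, ev_cons, ev_nil, hs, klen_eq]
    simp only [hs]
    rw [ev_mul_left, List.length_cons, pow_succ]
    have h2 : ev e ((i + x) / D) p * (D : ℝ) ^ p.length = D * ev e x (kaff add sm zero i D p) := by
      rw [ih]; ring
    have h3 : ((Int.ofNat (Nat.pow D p.length) : ℤ) : ℝ) = (D : ℝ) ^ p.length := by
      simp
    rw [h3]
    field_simp
    linear_combination (-((i : ℝ) + x)) * h2

def padZ (L : ℕ) (r : List ℤ) : List ℤ := kapp r (krep 0 (Nat.sub L (klen r)))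

/-- Test on the box `[i/D,(i+1)/D] × [j/E,(j+1)/E]`; `L` bounds the lengths. -/
def box (L : ℕ) (i : ℤ) (D : ℕ) (j : ℤ) (E : ℕ) (p : P2) : Bool :=
  and (kall (fun r => Nat.ble (klen r) L) p)
    (t2 (chk2 0) (kaff add1 (fun c => kmap (Int.mul c)) [] i D
      (kmap (fun r => kaff Int.add Int.mul 0 j E (padZ L r)) p)))

theorem box_spec {L : ℕ} {i : ℤ} {D : ℕ} {j : ℤ} {E : ℕ} {p : P2} (h : box L i D j E p = true)
    (hD : 0 < D) (hE : 0 < E) {x T : ℝ}
    (hx : x ∈ Icc ((i : ℝ) / D) ((i + 1) / D)) (hT : T ∈ Icc ((j : ℝ) / E) ((j + 1) / E)) :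
    0 ≤ e2 x T p := by
  rw [box, Bool.and_eq_true] at h
  have hD' : (0 : ℝ) < D := by exact_mod_cast hD
  have hE' : (0 : ℝ) < E := by exact_mod_cast hE
  have hx' : x * D - i ∈ Icc (0 : ℝ) 1 := by
    obtain ⟨h1, h2⟩ := hx
    rw [div_le_iff₀ hD'] at h1; rw [le_div_iff₀ hD'] at h2
    constructor <;> linarith
  have hT' : T * E - j ∈ Icc (0 : ℝ) 1 := by
    obtain ⟨h1, h2⟩ := hT
    rw [div_le_iff₀ hE'] at h1; rw [le_div_iff₀ hE'] at h2
    constructor <;> linarith
  have h0 := t2_nonneg (fun p q hpq => chk2_le hpq hx' hT') h.2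
  have h1 := ev_kaff (e := ev evz (T * E - j)) (ev_add1 _) (rfl : ev evz (T * E - j) [] = 0)
    (sm := fun c => kmap (Int.mul c)) (fun c a => by
      rw [ev_kmap]; simp only [evz_mul]; exact ev_mul_left evz c _ a) (i := i)
    hD'.ne' (x * D - i) (kmap (fun r => kaff Int.add Int.mul 0 j E (padZ L r)) p)
  have hxx : ((i : ℝ) + (x * D - i)) / D = x := by field_simp; ring
  rw [hxx, ev_kmap] at h1
  have hL : ∀ r ∈ p, r.length ≤ L := by
    intro r hr
    have := mem_of_kall h.1 r hr
    rw [klen_eq] at this
    exact Nat.le_of_ble_eq_true this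
  have h2 : ∀ q : P2, (∀ r ∈ q, r.length ≤ L) →
      (E : ℝ) * ev (fun r => ev evz (T * E - j) (kaff Int.add Int.mul 0 j E (padZ L r))) x q =
        (E : ℝ) ^ L * ev (ev evz T) x q := by
    intro q
    induction q with
    | nil => intro; simp
    | cons r q ih =>
      intro hq
      have h3 := ev_kaff evz_add evz_zero evz_mul (i := j) hE'.ne' (T * E - j) (padZ L r)
      have hTT : ((j : ℝ) + (T * E - j)) / E = T := by field_simp; ring
      have hlen : (padZ L r).length = L := by
        have := hq r (by simp)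
        rw [padZ, kapp_eq, krep_eq, klen_eq, List.length_append, List.length_replicate,
          Nat.sub_eq]
        omega
      have h4 : ev evz T (padZ L r) = ev evz T r := by
        rw [padZ, kapp_eq, krep_eq, ev_pad evz_zero]
      rw [hTT, hlen, h4] at h3
      rw [ev_cons, ev_cons, mul_add, h3]
      have := ih fun r hr => hq r (by simp [hr])
      linear_combination x * this
  have h5 := h2 p hL
  have h6 := mul_nonneg hD'.le h0
  rw [show e2 (x * D - i) (T * E - j) (kaff add1 (fun c => kmap (Int.mul c)) [] i D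
      (kmap (fun r => kaff Int.add Int.mul 0 j E (padZ L r)) p)) = ev (ev evz (T * E - j))
      (x * D - i) (kaff add1 (fun c => kmap (Int.mul c)) [] i D
      (kmap (fun r => kaff Int.add Int.mul 0 j E (padZ L r)) p)) from rfl, h1] at h6
  have h7 := nonneg_of_mul_nonneg_right h6 (by positivity)
  have h8 := mul_nonneg hE'.le h7
  rw [h5] at h8
  exact nonneg_of_mul_nonneg_right h8 (by positivity)

/-! ### The region `x ≥ 1`, `T x ≤ 1`, integer coefficients -/

def consColsZ (acc : P2) : List ℤ → P2 :=
  List.rec (motive := fun _ => List ℤ → P2) (fun _ => [])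
    (fun q _ ih r => List.rec (motive := fun _ => P2) ((0 :: q) :: ih [])
      (fun c r _ => (c :: q) :: ih r) r) acc

theorem ev_consColsZ (w y : ℝ) (acc : P2) : ∀ r : List ℤ, r.length ≤ acc.length →
    e2 w y (consColsZ acc r) = ev evz w r + y * e2 w y acc := by
  induction acc with
  | nil =>
    intro r hr
    have : r = [] := by simpa using hr
    subst this
    simp [consColsZ, e2]
  | cons q acc ih =>
    intro r hr
    cases r with
    | nil =>
      change e2 w y ((0 :: q) :: consColsZ acc []) = _
      have h1 := ih [] (by simp)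
      unfold e2 at h1 ⊢
      rw [ev_cons, h1, ev_cons, evz_zero, ev_cons, ev_nil]; ring
    | cons c r =>
      change e2 w y ((c :: q) :: consColsZ acc r) = _
      have h1 := ih r (by simpa using hr)
      unfold e2 at h1 ⊢
      rw [ev_cons, h1, ev_cons, ev_cons, ev_cons]; ring

theorem length_consColsZ (acc : P2) : ∀ r : List ℤ, (consColsZ acc r).length = acc.length := by
  induction acc with
  | nil => intro r; rfl
  | cons q acc ih =>
    intro r
    cases r with
    | nil => change ((0 :: q) :: consColsZ acc []).length = _; rw [List.length_cons, ih]; rfl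
    | cons c r => change ((c :: q) :: consColsZ acc r).length = _; rw [List.length_cons, ih]; rfl

def shiftColsZ (p : P2) : P2 :=
  List.rec (motive := fun _ => P2) [] (fun q _ ih => q :: kmap (List.cons 0) ih) p

theorem ev_shiftColsZ (w y : ℝ) (p : P2) : e2 w y (shiftColsZ p) = e2 (w * y) y p := by
  induction p with
  | nil => rfl
  | cons q p ih =>
    change e2 w y (q :: kmap (List.cons 0) (shiftColsZ p)) = _
    have h1 : ev (fun a => ev evz y (0 :: a)) w (shiftColsZ p) =
        y * ev (ev evz y) w (shiftColsZ p) := by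
      simp only [ev_cons, evz_zero, zero_add]
      rw [ev_mul_left]
    unfold e2 at ih ⊢
    rw [ev_cons, ev_kmap, h1, ih, ev_cons]; ring

def colsZ (p : P2) : P2 → P2 :=
  List.rec (motive := fun _ => P2 → P2) (fun t => t) (fun r _ ih t => ih (consColsZ t r)) p

theorem ev_colsZ {w y : ℝ} (hy : y ≠ 0) (p : P2) : ∀ t : P2, (∀ r ∈ p, r.length ≤ t.length) →
    e2 w y (colsZ p t) = y ^ p.length * (e2 w y t + 1 / y * e2 (1 / y) w p) := by
  induction p with
  | nil => intro t _; simp [colsZ, e2]
  | cons r p ih =>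
    intro t ht
    refine (ih (consColsZ t r) (fun r' hr' => ?_)).trans ?_
    · rw [length_consColsZ]; exact ht r' (by simp [hr'])
    · rw [ev_consColsZ w y t r (ht r (by simp))]
      have : e2 (1 / y) w (r :: p) = ev evz w r + 1 / y * e2 (1 / y) w p := rfl
      rw [this, List.length_cons, pow_succ]
      field_simp
      ring

/-- `y^(n-1) p(1/y, w y)`, outer variable `w`, `n` the length. -/
def tZ (M : ℕ) (p : P2) : P2 := shiftColsZ (colsZ p (krep [] M))

theorem tZ_nonneg {M : ℕ} {p : P2} (hp : kall (fun r => Nat.ble (klen r) M) p = true) {x T : ℝ}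
    (hx : 1 ≤ x) (h : 0 ≤ e2 (T * x) (1 / x) (tZ M p)) : 0 ≤ e2 x T p := by
  have hL : ∀ r ∈ p, r.length ≤ M := by
    intro r hr
    have := mem_of_kall hp r hr
    rw [klen_eq] at this
    exact Nat.le_of_ble_eq_true this
  have hx0 : 0 < x := by linarith
  have hy : (1 / x : ℝ) ≠ 0 := by positivity
  rw [tZ, ev_shiftColsZ, ev_colsZ hy p _ (by simpa [krep_eq] using hL), krep_eq] at h
  have h3 : T * x * (1 / x) = T := by field_simp
  have : e2 T (1 / x) (List.replicate M []) = 0 := by
    have := ev_replicate (e := ev evz (1 / x)) (z := []) rfl M T []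
    simpa [e2] using this
  rw [h3, this, one_div_one_div, zero_add] at h
  have h4 := nonneg_of_mul_nonneg_right h (by positivity)
  exact nonneg_of_mul_nonneg_right h4 (by positivity)

end Vale.Agent.P219.C5
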