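import Vale.Agent.P219.C5.Ineq

/-! # The certificate in dimension 5: the profile `f` and the condition (PI) -/

open Set

namespace Vale.Agent.P219.C5

variable {x T a b S : ℝ}

/-! ### Derivatives of fractions -/

/-- `P/(e^i u^j v^k)`. -/
noncomputable def fr (T : ℝ) (P : P2) (i j k : ℕ) (x : ℝ) : ℝ :=
  e2 x T P / ((1 + x) ^ i * (1 - T * x) ^ j * (1 + T * x) ^ k)

theorem hasDerivAt_pe (x : ℝ) (i : ℕ) :
    HasDerivAt (fun x : ℝ => (1 + x) ^ i) (i * (1 + x) ^ (i - 1)) x := by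
  have h := ((hasDerivAt_id x).const_add 1).pow i
  refine h.congr_deriv ?_
  simp only [id, mul_one]

theorem hasDerivAt_pu (T x : ℝ) (j : ℕ) :
    HasDerivAt (fun x : ℝ => (1 - T * x) ^ j) (-(j * T * (1 - T * x) ^ (j - 1))) x := by
  have h := (((hasDerivAt_id x).const_mul T).const_sub 1).pow j
  refine h.congr_deriv ?_
  simp only [id, mul_one]
  ring

theorem hasDerivAt_pv (T x : ℝ) (k : ℕ) :
    HasDerivAt (fun x : ℝ => (1 + T * x) ^ k) (k * T * (1 + T * x) ^ (k - 1)) x := by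
  have h := (((hasDerivAt_id x).const_mul T).const_add 1).pow k
  refine h.congr_deriv ?_
  simp only [id, mul_one]
  ring

/-- Derivative of `h/(e^i u^j v^k)`. -/
theorem hasDerivAt_frac {h : ℝ → ℝ} {h' : ℝ} (hh : HasDerivAt h h' x) (i j k : ℕ)
    (he : 1 + x ≠ 0) (hu : 1 - T * x ≠ 0) (hv : 1 + T * x ≠ 0) :
    HasDerivAt (fun x => h x / ((1 + x) ^ i * (1 - T * x) ^ j * (1 + T * x) ^ k))
      (((1 + x) * (1 - T * x) * (1 + T * x) * h' - i * ((1 - T * x) * (1 + T * x) * h x) +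
        j * (T * (1 + x) * (1 + T * x) * h x) - k * (T * (1 + x) * (1 - T * x) * h x)) /
        ((1 + x) ^ (i + 1) * (1 - T * x) ^ (j + 1) * (1 + T * x) ^ (k + 1))) x := by
  have hden : HasDerivAt (fun x => (1 + x) ^ i * (1 - T * x) ^ j * (1 + T * x) ^ k)
      ((i * (1 + x) ^ (i - 1) * (1 - T * x) ^ j +
        (1 + x) ^ i * (-(j * T * (1 - T * x) ^ (j - 1)))) * (1 + T * x) ^ k +
        (1 + x) ^ i * (1 - T * x) ^ j * (k * T * (1 + T * x) ^ (k - 1))) x :=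
    ((hasDerivAt_pe x i).mul (hasDerivAt_pu T x j)).mul (hasDerivAt_pv T x k)
  have hd := hh.fun_div hden
    (mul_ne_zero (mul_ne_zero (pow_ne_zero _ he) (pow_ne_zero _ hu)) (pow_ne_zero _ hv))
  refine hd.congr_deriv ?_
  clear hd hden
  have e1 : (i : ℝ) * (1 + x) ^ (i - 1) = i * (1 + x) ^ i / (1 + x) := by
    cases i with
    | zero => simp
    | succ n => rw [Nat.add_sub_cancel, pow_succ]; field_simp
  have e2 : (j : ℝ) * T * (1 - T * x) ^ (j - 1) = j * T * (1 - T * x) ^ j / (1 - T * x) := by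
    cases j with
    | zero => simp
    | succ n => rw [Nat.add_sub_cancel, pow_succ]; field_simp
  have e3 : (k : ℝ) * T * (1 + T * x) ^ (k - 1) = k * T * (1 + T * x) ^ k / (1 + T * x) := by
    cases k with
    | zero => simp
    | succ n => rw [Nat.add_sub_cancel, pow_succ]; field_simp
  rw [e1, e2, e3, pow_succ (1 + x) i, pow_succ (1 - T * x) j, pow_succ (1 + T * x) k]
  clear e1 e2 e3
  have h1 : (1 + x) ^ i ≠ 0 := pow_ne_zero _ he
  have h2 : (1 - T * x) ^ j ≠ 0 := pow_ne_zero _ hu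
  have h3 : (1 + T * x) ^ k ≠ 0 := pow_ne_zero _ hv
  generalize (1 + x) ^ i = E at *
  generalize (1 - T * x) ^ j = U at *
  generalize (1 + T * x) ^ k = V at *
  generalize (1 + x) = e at *
  generalize (1 - T * x) = u at *
  generalize (1 + T * x) = v at *
  field_simp
  ring

theorem hasDerivAt_fr (P : P2) (i j k : ℕ)
    (he : 1 + x ≠ 0) (hu : 1 - T * x ≠ 0) (hv : 1 + T * x ≠ 0) :
    HasDerivAt (fr T P i j k) (fr T (opdd P i j k) (i + 1) (j + 1) (k + 1) x) x := by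
  refine (hasDerivAt_frac (hasDerivAt_e2 x T P) i j k he hu hv).congr_deriv ?_
  rw [fr, v_opdd]
  push_cast
  ring

/-! ### The profile -/

/-- `2 artanh (T x)`. -/
noncomputable def LL (T x : ℝ) : ℝ := Real.log ((1 + T * x) / (1 - T * x))

theorem hasDerivAt_LL (hu : 0 < 1 - T * x) (hv : 0 < 1 + T * x) :
    HasDerivAt (LL T) (2 * T / ((1 - T * x) * (1 + T * x))) x := by
  have h1 := hasDerivAt_pv T x 1
  have h2 := hasDerivAt_pu T x 1
  simp only [pow_one] at h1 h2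
  have h3 := (h1.fun_div h2 hu.ne').log (div_pos hv hu).ne'
  refine h3.congr_deriv ?_
  simp only [Nat.sub_self, pow_zero, mul_one, Nat.cast_one, one_mul]
  field_simp
  ring

/-- `λ`. -/
noncomputable def cl (T : ℝ) : ℝ := 9000 * (1 - T ^ 2) ^ 2 / (16 * T ^ 4)

/-- `s`. -/
noncomputable def cs5 (T : ℝ) : ℝ := 180 * (1654 + 70 * T ^ 2 + 105 * T ^ 4) / (32 * T)

/-- The kernel on the ball. -/
noncomputable def GG (T x : ℝ) : ℝ := fr T (mul2 pX dGn) 5 4 5 x / 8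

/-- The profile. -/
noncomputable def ff (T x : ℝ) : ℝ := cs5 T * LL T x - GG T x

theorem hasDerivAt_ff (hT : 0 < T) (he : 0 < 1 + x) (hu : 0 < 1 - T * x) (hv : 0 < 1 + T * x) :
    HasDerivAt (ff T) (fr T dfp 6 5 6 x / 16) x := by
  have h1 := ((hasDerivAt_LL hu hv).const_mul (cs5 T)).sub
    ((hasDerivAt_fr (mul2 pX dGn) 5 4 5 he.ne' hu.ne' hv.ne').div_const 8)
  refine h1.congr_deriv ?_
  unfold fr
  have h2 := r_G1 x T
  push_cast at h2 ⊢
  rw [← h2, r_fp, cs5]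
  field_simp
  ring

theorem v_dx_psg (x T : ℝ) : e2 x T (dx psg) = 0 := by simp [e2, psg, dx, kder, kadd, add1]

/-- The second derivative. -/
theorem hasDerivAt_fp (he : 0 < 1 + x) (hu : 0 < 1 - T * x) (hv : 0 < 1 + T * x) :
    HasDerivAt (fun x => fr T dfp 6 5 6 x / 16) (fr T dfpp 7 6 7 x / 8) x := by
  have h0 : HasDerivAt (fun x : ℝ => (180 * (1654 + 70 * T ^ 2 + 105 * T ^ 4)) / 16 *
      (1 / ((1 + x) ^ 0 * (1 - T * x) ^ 1 * (1 + T * x) ^ 1)) - fr T dG1 6 5 6 x / 8)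
      (fr T dfpp 7 6 7 x / 8) x := by
    have h1 := (((hasDerivAt_frac (hasDerivAt_const x (1 : ℝ)) 0 1 1 he.ne' hu.ne'
      hv.ne').const_mul ((180 * (1654 + 70 * T ^ 2 + 105 * T ^ 4)) / 16))).sub
      ((hasDerivAt_fr dG1 6 5 6 he.ne' hu.ne' hv.ne').div_const 8)
    refine h1.congr_deriv ?_
    unfold fr
    rw [r_fpp]
    push_cast
    generalize e2 x T (opdd dG1 6 5 6) = Z
    field_simp
    ring
  refine h0.congr_of_eventuallyEq ?_
  have hev : ∀ᶠ y in nhds x, 0 < 1 + y ∧ 0 < 1 - T * y ∧ 0 < 1 + T * y := by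
    have c1 : ContinuousAt (fun y : ℝ => 1 + y) x := by fun_prop
    have c2 : ContinuousAt (fun y : ℝ => 1 - T * y) x := by fun_prop
    have c3 : ContinuousAt (fun y : ℝ => 1 + T * y) x := by fun_prop
    exact (c1.eventually (lt_mem_nhds he)).and ((c2.eventually (lt_mem_nhds hu)).and
      (c3.eventually (lt_mem_nhds hv)))
  filter_upwards [hev] with y ⟨h1, h2, h3⟩
  unfold fr
  rw [r_fp]
  generalize e2 y T dG1 = Z
  field_simp
  ring

/-! ### Convexity -/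

theorem Dom.of_le_one (hx : x ∈ Icc (0 : ℝ) 1) (hT : 0 < T) (hT1 : T < 1) : Dom x T := by
  refine ⟨hx.1, hT, hT1, ?_⟩
  calc T * x ≤ T * 1 := mul_le_mul_of_nonneg_left hx.2 hT.le
    _ < 1 := by linarith

theorem fpp_nn (hx : x ∈ Icc (0 : ℝ) 1) (hT : 0 < T) (hT1 : T < 1) :
    0 ≤ fr T dfpp 7 6 7 x / 8 := by
  have h := Dom.of_le_one hx hT hT1
  have h0 := fpp_ge hx ⟨hT.le, hT1.le⟩
  have h1 : 0 ≤ e2 x T dfpp := le_trans (mul_nonneg hx.1 (sq_nonneg _)) h0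
  have := h.e_pos
  have := h.u_pos
  have := h.v_pos
  unfold fr
  positivity

theorem fpp_pos (hx : x ∈ Icc (0 : ℝ) 1) (hx0 : 0 < x) (hT : 0 < T) (hT1 : T < 1) :
    0 < fr T dfpp 7 6 7 x / 8 := by
  have h := Dom.of_le_one hx hT hT1
  have h0 := fpp_ge hx ⟨hT.le, hT1.le⟩
  have h2 : 0 < 1 - T := by linarith
  have h1 : 0 < e2 x T dfpp := lt_of_lt_of_le (by positivity) h0
  have := h.e_pos
  have := h.u_pos
  have := h.v_pos
  unfold fr
  positivity

theorem fp_mono (hT : 0 < T) (hT1 : T < 1) :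
    StrictMonoOn (fun x => fr T dfp 6 5 6 x / 16) (Icc 0 1) := by
  refine strictMonoOn_of_deriv_pos (convex_Icc 0 1) ?_ ?_
  · intro x hx
    have h := Dom.of_le_one hx hT hT1
    exact (hasDerivAt_fp h.e_pos h.u_pos h.v_pos).continuousAt.continuousWithinAt
  · intro x hx
    have h := Dom.of_le_one (interior_subset hx) hT hT1
    rw [(hasDerivAt_fp h.e_pos h.u_pos h.v_pos).deriv]
    rw [interior_Icc] at hx
    exact fpp_pos (Ioo_subset_Icc_self hx) hx.1 hT hT1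

theorem ff_aux (hT : 0 < T) (hT1 : T < 1) (x : ℝ) {y : ℝ} (hy : y ∈ Icc (0 : ℝ) 1) :
    HasDerivAt (fun y => ff T y - fr T dfp 6 5 6 x / 16 * y)
      (fr T dfp 6 5 6 y / 16 - fr T dfp 6 5 6 x / 16) y := by
  have h := Dom.of_le_one hy hT hT1
  refine ((hasDerivAt_ff hT h.e_pos h.u_pos h.v_pos).sub
    ((hasDerivAt_id y).const_mul (fr T dfp 6 5 6 x / 16))).congr_deriv ?_
  simp

/-- The strict tangent inequality. -/
theorem ff_tangent_lt (hT : 0 < T) (hT1 : T < 1) (hx : x ∈ Icc (0 : ℝ) 1)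
    (ha : a ∈ Icc (0 : ℝ) 1) (hxa : a ≠ x) :
    ff T x + fr T dfp 6 5 6 x / 16 * (a - x) < ff T a := by
  have hd : ∀ y ∈ Icc (0 : ℝ) 1, HasDerivAt (fun y => ff T y - fr T dfp 6 5 6 x / 16 * y)
      (fr T dfp 6 5 6 y / 16 - fr T dfp 6 5 6 x / 16) y := fun y hy => ff_aux hT hT1 x hy
  have key : ff T x - fr T dfp 6 5 6 x / 16 * x < ff T a - fr T dfp 6 5 6 x / 16 * a := by
    rcases lt_or_gt_of_ne hxa with hxa | hxa
    · have hm : StrictAntiOn (fun y => ff T y - fr T dfp 6 5 6 x / 16 * y) (Icc a x) := by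
        refine strictAntiOn_of_deriv_neg (convex_Icc a x) ?_ ?_
        · intro y hy
          exact (hd y ⟨ha.1.trans hy.1, hy.2.trans hx.2⟩).continuousAt.continuousWithinAt
        · intro y hy
          rw [interior_Icc] at hy
          have hy' : y ∈ Icc (0 : ℝ) 1 := ⟨ha.1.trans hy.1.le, hy.2.le.trans hx.2⟩
          rw [(hd y hy').deriv]
          exact sub_neg.2 (fp_mono hT hT1 hy' hx hy.2)
      exact hm (left_mem_Icc.2 hxa.le) (right_mem_Icc.2 hxa.le) hxa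
    · have hm : StrictMonoOn (fun y => ff T y - fr T dfp 6 5 6 x / 16 * y) (Icc x a) := by
        refine strictMonoOn_of_deriv_pos (convex_Icc x a) ?_ ?_
        · intro y hy
          exact (hd y ⟨hx.1.trans hy.1, hy.2.trans ha.2⟩).continuousAt.continuousWithinAt
        · intro y hy
          rw [interior_Icc] at hy
          have hy' : y ∈ Icc (0 : ℝ) 1 := ⟨hx.1.trans hy.1.le, hy.2.le.trans ha.2⟩
          rw [(hd y hy').deriv]
          exact sub_pos.2 (fp_mono hT hT1 hx hy' hy.1)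
      exact hm (left_mem_Icc.2 hxa.le) (right_mem_Icc.2 hxa.le) hxa
  linarith

/-- The tangent inequality. -/
theorem ff_tangent (hT : 0 < T) (hT1 : T < 1) (hx : x ∈ Icc (0 : ℝ) 1) (ha : a ∈ Icc (0 : ℝ) 1) :
    ff T x + fr T dfp 6 5 6 x / 16 * (a - x) ≤ ff T a := by
  rcases eq_or_ne a x with h | h
  · rw [h]; simp
  · exact (ff_tangent_lt hT hT1 hx ha h).le

theorem ff_zero (T : ℝ) : ff T 0 = 0 := by
  have h : e2 0 T (mul2 pX dGn) = 0 := by rw [e2_mul, v_X, zero_mul]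
  simp [ff, LL, GG, fr, h]

theorem GG_eq (x T : ℝ) : GG T x = x * e2 x T dGn /
    (8 * ((1 + x) ^ 5 * (1 - T * x) ^ 4 * (1 + T * x) ^ 5)) := by
  rw [GG, fr, e2_mul, v_X, div_div]
  ring

theorem fp_zero (hT : 0 < T) (hT1 : T < 1) : 0 ≤ fr T dfp 6 5 6 0 / 16 := by
  have h0 : (0 : ℝ) ∈ Icc (0 : ℝ) 1 := ⟨le_rfl, zero_le_one⟩
  have hg1 := r_tan3 0 T
  have e1 := r_g1 0 T
  have hp := H_nonneg h0 ⟨hT.le, hT1.le⟩ (a := 1) (b := 1) ⟨zero_le_one, le_rfl⟩
    ⟨zero_le_one, le_rfl⟩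
  have h1 : 0 ≤ e2 0 T dfp := by
    norm_num at hp
    exact hp
  unfold fr
  have : (1 + (0 : ℝ)) ^ 6 * (1 - T * 0) ^ 5 * (1 + T * 0) ^ 6 = 1 := by norm_num
  rw [this]
  linarith

theorem ff_nonneg (hT : 0 < T) (hT1 : T < 1) (ha : a ∈ Icc (0 : ℝ) 1) : 0 ≤ ff T a := by
  have h := ff_tangent hT hT1 (x := 0) ⟨le_rfl, zero_le_one⟩ ha
  have h1 := mul_nonneg (fp_zero hT hT1) ha.1
  rw [ff_zero, sub_zero] at h
  linarith

/-- The kernel times `sn⁴`. -/
noncomputable def KS (T : ℝ) (P : ℝ) (x : ℝ) : ℝ :=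
  x ^ 3 * P / (16 * ((1 + x) ^ 6 * (1 - T * x) ^ 4 * (1 + T * x) ^ 6))

theorem PI_I_aux (hT : 0 < T) (hT1 : T < 1) (hx : x ∈ Icc (0 : ℝ) 1) (ha : a ∈ Icc (0 : ℝ) 1)
    (hb : b ∈ Icc (0 : ℝ) 1) :
    a * b * (GG T x - fr T dfp 6 5 6 x / 16 * ((a + b) / 2 - x)) ≤ KS T (K0 x T a b) x := by
  have h := Dom.of_le_one hx hT hT1
  have h3 := H_nonneg hx ⟨hT.le, hT1.le⟩ ha hb
  have he := h.e_pos
  have hu := h.u_pos
  have hv := h.v_pos
  rw [← sub_nonneg]
  have h6 : KS T (K0 x T a b) x - a * b * (GG T x - fr T dfp 6 5 6 x / 16 * ((a + b) / 2 - x)) =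
      (x ^ 3 * (1 - T * x) * K0 x T a b -
      a * b * (2 * (x * (1 + x) * (1 - T * x) * (1 + T * x) * e2 x T dGn) -
        e2 x T dfp * ((a + b) / 2 - x))) /
      (16 * ((1 + x) ^ 6 * (1 - T * x) ^ 5 * (1 + T * x) ^ 6)) := by
    rw [KS, GG_eq, fr]
    generalize K0 x T a b = Z1
    generalize e2 x T dGn = Z2
    generalize e2 x T dfp = Z3
    field_simp
    ring
  rw [h6]
  exact div_nonneg h3 (by positivity)

theorem PI_I (hT : 0 < T) (hT1 : T < 1) (hx : x ∈ Icc (0 : ℝ) 1) (ha : a ∈ Icc (0 : ℝ) 1)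
    (hb : b ∈ Icc (0 : ℝ) 1) :
    a * b * (cs5 T * LL T x - (ff T a + ff T b) / 2) ≤ KS T (K0 x T a b) x := by
  have h1 := ff_tangent hT hT1 hx ha
  have h2 := ff_tangent hT hT1 hx hb
  refine le_trans ?_ (PI_I_aux hT hT1 hx ha hb)
  refine mul_le_mul_of_nonneg_left ?_ (mul_nonneg ha.1 hb.1)
  have h5 : ff T x = cs5 T * LL T x - GG T x := rfl
  linarith

/-- Strictness off the ball curve. -/
theorem PI_I_lt (hT : 0 < T) (hT1 : T < 1) (hx : x ∈ Icc (0 : ℝ) 1) (ha : a ∈ Icc (0 : ℝ) 1)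
    (hb : b ∈ Icc (0 : ℝ) 1) (ha0 : 0 < a) (hb0 : 0 < b) (hne : ¬(a = x ∧ b = x)) :
    a * b * (cs5 T * LL T x - (ff T a + ff T b) / 2) < KS T (K0 x T a b) x := by
  have h1 := ff_tangent hT hT1 hx ha
  have h2 := ff_tangent hT hT1 hx hb
  refine lt_of_lt_of_le ?_ (PI_I_aux hT hT1 hx ha hb)
  refine mul_lt_mul_of_pos_left ?_ (mul_pos ha0 hb0)
  have h5 : ff T x = cs5 T * LL T x - GG T x := rfl
  rcases eq_or_ne a x with h | h
  · have h' : b ≠ x := fun hbx => hne ⟨h, hbx⟩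
    have h3 := ff_tangent_lt hT hT1 hx hb h'
    linarith
  · have h3 := ff_tangent_lt hT hT1 hx ha h
    linarith

end Vale.Agent.P219.C5
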