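import Vale.Agent.P219.C5.Checks

/-! # The certificate in dimension 5: real inequalities -/

open Set

namespace Vale.Agent.P219.C5

variable {x T a b : ℝ}

/-! ### Values -/

theorem v_X (x T : ℝ) : e2 x T pX = x := by simp [e2, pX, evz]
theorem v_T (x T : ℝ) : e2 x T pT = T := by simp [e2, pT, evz]
theorem v_e (x T : ℝ) : e2 x T pe = 1 + x := by simp [e2, pe, evz]
theorem v_u (x T : ℝ) : e2 x T pu = 1 - T * x := by simp [e2, pu, evz]; ring
theorem v_v (x T : ℝ) : e2 x T pv = 1 + T * x := by simp [e2, pv, evz]; ring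
theorem v_q (x T : ℝ) : e2 x T pq = 1 - T ^ 2 := by simp [e2, pq, evz]; ring
theorem v_E (x T : ℝ) : e2 x T pE = 1 + T ^ 2 * x ^ 2 := by simp [e2, pE, evz]; ring
theorem v_m (x T : ℝ) : e2 x T pm = (1 - x) + (1 - T) := by simp [e2, pm, evz]; ring
theorem v_sg (x T : ℝ) : e2 x T psg = 180 * (1654 + 70 * T ^ 2 + 105 * T ^ 4) := by
  simp [e2, psg, evz]; ring

theorem v_pow (x T : ℝ) (p : P2) (n : ℕ) : e2 x T (ppow p n) = e2 x T p ^ n := by
  induction n with
  | zero => simp [e2, ppow, evz]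
  | succ n ih => rw [pow_succ, ← ih]; exact e2_mul x T _ _

theorem v_nil (x T : ℝ) : e2 x T [] = 0 := rfl

theorem v_1T (x T : ℝ) : e2 x T p1T = 1 - T := by simp [e2, p1T, evz]; ring
theorem v_x1 (x T : ℝ) : e2 x T px1 = x - 1 := by simp [e2, px1, evz]; ring

/-! ### Regions -/

theorem rI {L : ℕ} (hx : x ∈ Icc (0 : ℝ) 1) (hT : T ∈ Icc (0 : ℝ) 1) (p q : N2)
    (h : chk2 L p q = true) : n2 x T p ≤ n2 x T q := chk2_le h hx hT

theorem rII {M L : ℕ} (hx : 1 ≤ x) (hT : 0 ≤ T) (hxT : T * x ≤ 1) (p q : N2)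
    (h : chkT M L p q = true) : n2 x T p ≤ n2 x T q := chkT_le h hx hT hxT

/-- The four boxes in `T`. -/
theorem boxI {L : ℕ} {p : P2} (h0 : box L 0 1 0 8 p = true) (h1 : box L 0 1 1 8 p = true)
    (h2 : box L 0 1 1 4 p = true) (h3 : box L 0 1 1 2 p = true) (hx : x ∈ Icc (0 : ℝ) 1)
    (hT : T ∈ Icc (0 : ℝ) 1) : 0 ≤ e2 x T p := by
  have hx' : x ∈ Icc (((0 : ℤ) : ℝ) / (1 : ℕ)) ((((0 : ℤ) : ℝ) + 1) / (1 : ℕ)) := by
    obtain ⟨h, h'⟩ := hx; constructor <;> push_cast <;> linarith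
  obtain ⟨hT0, hT1⟩ := hT
  rcases le_total T (1 / 8) with h | h
  · exact box_spec h0 (by norm_num) (by norm_num) hx' (by constructor <;> push_cast <;> linarith)
  rcases le_total T (1 / 4) with h' | h'
  · exact box_spec h1 (by norm_num) (by norm_num) hx' (by constructor <;> push_cast <;> linarith)
  rcases le_total T (1 / 2) with h'' | h''
  · exact box_spec h2 (by norm_num) (by norm_num) hx' (by constructor <;> push_cast <;> linarith)
  · exact box_spec h3 (by norm_num) (by norm_num) hx' (by constructor <;> push_cast <;> linarith)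

/-- The seven boxes. -/
theorem B_II (hx : 1 ≤ x) (hT : 0 ≤ T) (hxT : T * x ≤ 1) : 0 ≤ e2 x T dB := by
  refine tZ_nonneg B_len hx ?_
  have hw0 : 0 ≤ T * x := by positivity
  have hy0 : 0 ≤ 1 / x := by positivity
  have hy1 : 1 / x ≤ 1 := by rw [div_le_one (by linarith)]; exact hx
  generalize T * x = w at *
  generalize 1 / x = y at *
  rcases le_total w (1 / 2) with h1 | h1
  · rcases le_total y (1 / 2) with h2 | h2
    · exact box_spec B_II0 (by norm_num) (by norm_num) (by constructor <;> push_cast <;> linarith)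
        (by constructor <;> push_cast <;> linarith)
    · exact box_spec B_II1 (by norm_num) (by norm_num) (by constructor <;> push_cast <;> linarith)
        (by constructor <;> push_cast <;> linarith)
  · rcases le_total y (1 / 2) with h2 | h2
    · rcases le_total w (3 / 4) with h3 | h3
      · rcases le_total y (1 / 4) with h4 | h4
        · exact box_spec B_II2 (by norm_num) (by norm_num)
            (by constructor <;> push_cast <;> linarith) (by constructor <;> push_cast <;> linarith)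
        · exact box_spec B_II3 (by norm_num) (by norm_num)
            (by constructor <;> push_cast <;> linarith) (by constructor <;> push_cast <;> linarith)
      · rcases le_total y (1 / 4) with h4 | h4
        · exact box_spec B_II5 (by norm_num) (by norm_num)
            (by constructor <;> push_cast <;> linarith) (by constructor <;> push_cast <;> linarith)
        · exact box_spec B_II6 (by norm_num) (by norm_num)
            (by constructor <;> push_cast <;> linarith) (by constructor <;> push_cast <;> linarith)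
    · exact box_spec B_II4 (by norm_num) (by norm_num) (by constructor <;> push_cast <;> linarith)
        (by constructor <;> push_cast <;> linarith)

/-- The domain: `x = tanh(r/2)/T`, `T = tanh R`. -/
structure Dom (x T : ℝ) : Prop where
  x0 : 0 ≤ x
  T0 : 0 < T
  T1 : T < 1
  xT : T * x < 1

namespace Dom

theorem cases (h : Dom x T) : (x ∈ Icc (0 : ℝ) 1 ∧ T ∈ Icc (0 : ℝ) 1) ∨ (1 ≤ x) := by
  rcases le_total x 1 with h1 | h1
  · exact Or.inl ⟨⟨h.x0, h1⟩, ⟨h.T0.le, h.T1.le⟩⟩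
  · exact Or.inr h1

theorem u_pos (h : Dom x T) : 0 < 1 - T * x := by linarith [h.xT]
theorem v_pos (h : Dom x T) : 0 < 1 + T * x := by have := mul_nonneg h.T0.le h.x0; linarith
theorem e_pos (h : Dom x T) : 0 < 1 + x := by linarith [h.x0]

end Dom

theorem B_nonneg (h : Dom x T) : 0 ≤ e2 x T dB := by
  rcases h.cases with ⟨hx, hT⟩ | hx
  · exact boxI B_I0 B_I1 B_I2 B_I3 hx hT
  · exact B_II hx h.T0.le h.xT.le

theorem U1_nonneg (h : Dom x T) : e2 x T dB ≤ e2 x T dA := by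
  have h1 : 0 ≤ e2 x T dU1 := by
    rcases h.cases with ⟨hx, hT⟩ | hx
    · exact t2_nonneg (rI hx hT) U1_I
    · exact t2_nonneg (rII hx h.T0.le h.xT.le) U1_II
  rw [dU1, e2_add, e2_smul] at h1
  push_cast at h1
  linarith

theorem C30_nonneg (h : Dom x T) : 0 ≤ e2 x T dC30 := by
  rcases h.cases with ⟨hx, hT⟩ | hx
  · exact t2_nonneg (rI hx hT) C30_I
  · exact t2_nonneg (rII hx h.T0.le h.xT.le) C30_II

theorem C31_nonneg (h : Dom x T) : 0 ≤ e2 x T dC31 := by
  rcases h.cases with ⟨hx, hT⟩ | hx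
  · exact t2_nonneg (rI hx hT) C31_I
  · exact t2_nonneg (rII hx h.T0.le h.xT.le) C31_II

theorem M_pos (hx : 1 ≤ x) (hxT : T * x < 1) : 0 < e2 x T dM := by
  rw [dM, e2_mul, v_pow, v_pow, v_X, v_u]
  have : 0 < 1 - T * x := by linarith
  positivity

theorem C1_pos (h : Dom x T) (ha : a ∈ Icc (0 : ℝ) 1) (hb : b ∈ Icc (0 : ℝ) 1) :
    ∃ M : P2, 0 < e2 x T M ∧ 0 ≤ e4 a b x T (dC1 M) := by
  rcases h.cases with ⟨hx, hT⟩ | hx
  · exact ⟨p1T, by rw [v_1T]; linarith [h.T1], t4_nonneg (rI hx hT) C1_I ha hb⟩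
  · exact ⟨dM, M_pos hx h.xT, t4_nonneg (rII hx h.T0.le h.xT.le) C1_II ha hb⟩

theorem C7_pos (h : Dom x T) (ha : a ∈ Icc (0 : ℝ) 1) (hb : b ∈ Icc (0 : ℝ) 1) :
    ∃ M : P2, 0 < e2 x T M ∧ 0 ≤ e4 a b x T (dC7 M) := by
  rcases h.cases with ⟨hx, hT⟩ | hx
  · refine ⟨ppow p1T 3, ?_, ?_⟩
    · rw [v_pow, v_1T]
      have : 0 < 1 - T := by linarith [h.T1]
      positivity
    have h1 := t4_nonneg (rI hx hT) C7_I ha hb
    have h2 : e4 a b x T (pad6 (kmap (kmap (mul2 pm)) (dC7 (ppow p1T 3)))) =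
        e2 x T pm * e4 a b x T (dC7 (ppow p1T 3)) := by
      simp only [pad6, kapp, kmap, dC7, e4, ev_cons, ev_nil, e2_mul, v_nil]
      ring
    rw [h2, v_m] at h1
    refine nonneg_of_mul_nonneg_right h1 ?_
    linarith [hx.2, h.T1]
  · exact ⟨dM, M_pos hx h.xT, t4_nonneg (rII hx h.T0.le h.xT.le) C7_II ha hb⟩

theorem YY_nonneg (hx : x ∈ Icc (0 : ℝ) 1) (hT : T ∈ Icc (0 : ℝ) 1) (ha : a ∈ Icc (0 : ℝ) 1)
    (hb : b ∈ Icc (0 : ℝ) 1) : 0 ≤ e4 a b x T dYY := t4_nonneg (rI hx hT) YY_I ha hb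

theorem gg_nonneg (hx : x ∈ Icc (0 : ℝ) 1) (hT : T ∈ Icc (0 : ℝ) 1) {c : ℝ}
    (hc : c ∈ Icc (0 : ℝ) 1) : 0 ≤ e3 c x T dgg := t3_nonneg (rI hx hT) gg_I hc

theorem fpp_ge (hx : x ∈ Icc (0 : ℝ) 1) (hT : T ∈ Icc (0 : ℝ) 1) :
    x * (1 - T) ^ 2 ≤ e2 x T dfpp := by
  have h := boxI fpp_I0 fpp_I1 fpp_I2 fpp_I3 hx hT
  rw [dfs, e2_add, e2_smul, e2_mul, v_pow, v_X, v_1T] at h
  push_cast at h
  linarith

theorem Kx_nonneg (hx : 1 ≤ x) (hT : 0 ≤ T) (hxT : T * x ≤ 1) (ha : a ∈ Icc (0 : ℝ) 1)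
    (hb : b ∈ Icc (0 : ℝ) 1) : 0 ≤ e4 a b x T dKx := t4_nonneg (rII hx hT hxT) Kx_II ha hb

theorem K11_pos (hx : 1 < x) (hT : 0 ≤ T) (hxT : T * x < 1) : 0 < e4 1 1 x T dKx := by
  have h := t2_nonneg (rII hx.le hT hxT.le) K11_II
  simp only [dK11, e2_add, e2_smul, e2_mul, v_pow, v_X, v_x1, v_u] at h
  push_cast at h
  have h1 : e4 1 1 x T dKx = e2 x T dX00 + 2 * e2 x T dX10 + 2 * e2 x T dX20 + e2 x T dX11 +
      2 * e2 x T dX21 + 2 * e2 x T dX31 + e2 x T dX22 := by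
    simp only [dKx, e4, ev_cons, ev_nil, v_nil]
    ring
  have h2 : 0 < x ^ 9 * (x - 1) * (1 - T * x) :=
    mul_pos (mul_pos (by positivity) (by linarith)) (by linarith)
  rw [h1]
  linarith

end Vale.Agent.P219.C5
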